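import Crest.Agent.R224.QC1

/-! R224, task QC2: quasi-components are nested; equivariance.

Let `b ≠ b'`, `IsQ Y b Q`, `IsQ Y b' Q'`.  All four cases follow from `IsQ.absorb` applied to the connected
sets `insert b Q` (avoids `b'` when `b' ∉ Q`) and `Y \ Q` (avoids `b'` when `b' ∈ Q`, contains `b`).
`gap`: if `Q₁ ⊂ Q₂ ⊂ Q₃` then `b₁ ≠ b₂ ≠ b₃` (`eq_of_mem`) and the four cases leave only
`insert b₁ Q₁ ⊆ Q₂`, `insert b₂ Q₂ ⊆ Q₃`.  `Y \ Q₃` is connected, avoids `b₂`, so it lies in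
`Q' = qc Y b₂ b₃`, which is disjoint from `Q₂`; its closure lies in `insert b₂ Q'`, disjoint from
`Q₂ ⊇ closure Q₁`.  `nf_compl`: pass to complements (`Y \ (Y \ Q) = Q`).
Equivariance: `z ↦ g • z` is a homeomorphism that preserves `Y`. -/

set_option autoImplicit false
set_option linter.unusedSectionVars false

namespace Crest.Agent.R224

open Set Filter Topology Pointwise

variable {Z : Type} [MetricSpace Z] [CompactSpace Z] {Y L H S Q Q' : Set Z} {b b' y z : Z}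

namespace IsQ

theorem sub_of (hY : IsClosed Y) (hc : IsPreconnected Y) (h : IsQ Y b Q) (h' : IsQ Y b' Q')
    (h1 : b' ∉ Q) (h2 : b ∈ Q') : insert b Q ⊆ Q' := by
  by_cases hne : b' = b
  · exact absurd hne.symm (h'.subset h2).2
  exact h'.absorb (h.conn hY hc) (insert_subset h.1.1 (h.subset.trans sdiff_subset))
    (fun h3 => h3.elim hne h1) (mem_insert _ _) h2

theorem disj_of (hY : IsClosed Y) (hc : IsPreconnected Y) (h : IsQ Y b Q) (h' : IsQ Y b' Q')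
    (hne : b ≠ b') (h1 : b' ∉ Q) (h2 : b ∉ Q') : Disjoint Q Q' := by
  refine disjoint_left.2 fun y hy hy' => h2 ?_
  exact h'.absorb (h.conn hY hc) (insert_subset h.1.1 (h.subset.trans sdiff_subset))
    (fun h3 => h3.elim hne.symm h1) (Or.inr hy) hy' (mem_insert _ _)

theorem cover_of (hY : IsClosed Y) (hc : IsPreconnected Y) (h : IsQ Y b Q) (h' : IsQ Y b' Q')
    (h1 : b' ∈ Q) (h2 : b ∈ Q') : Q ∪ Q' = Y := by
  have h3 : Y \ Q ⊆ Q' := h'.absorb (h.compl_conn hY hc) sdiff_subset (fun h3 => h3.2 h1)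
    (show b ∈ Y \ Q from ⟨h.1.1, fun h4 => (h.subset h4).2 rfl⟩) h2
  refine (union_subset (h.subset.trans sdiff_subset) (h'.subset.trans sdiff_subset)).antisymm
    fun y hy => ?_
  by_cases h4 : y ∈ Q
  · exact Or.inl h4
  · exact Or.inr (h3 ⟨hy, h4⟩)

theorem nest (hY : IsClosed Y) (hc : IsPreconnected Y) (h : IsQ Y b Q) (h' : IsQ Y b' Q') :
    Disjoint Q Q' ∨ Q ∪ Q' = Y ∨ Q ⊆ Q' ∨ Q' ⊆ Q := by
  by_cases hne : b = b'
  · subst hne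
    by_cases hd : Disjoint Q Q'
    · exact Or.inl hd
    obtain ⟨y, h1, h2⟩ := not_disjoint_iff.1 hd
    exact Or.inr (Or.inr (Or.inl (h.eq_of_mem h' h1 h2).subset))
  by_cases h1 : b' ∈ Q <;> by_cases h2 : b ∈ Q'
  · exact Or.inr (Or.inl (h.cover_of hY hc h' h1 h2))
  · exact Or.inr (Or.inr (Or.inr ((subset_insert _ _).trans (h'.sub_of hY hc h h2 h1))))
  · exact Or.inr (Or.inr (Or.inl ((subset_insert _ _).trans (h.sub_of hY hc h' h1 h2))))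
  · exact Or.inl (h.disj_of hY hc h' hne h1 h2)

theorem ssub (hY : IsClosed Y) (hc : IsPreconnected Y) (h : IsQ Y b Q) (h' : IsQ Y b' Q')
    (hs : Q ⊂ Q') : insert b Q ⊆ Q' := by
  obtain ⟨y, hy⟩ := h.nonempty
  have h1 : b' ∉ Q := fun h1 => (h'.subset (hs.1 h1)).2 rfl
  have hne : b ≠ b' := by
    rintro rfl
    exact hs.ne (h.eq_of_mem h' hy (hs.1 hy))
  by_cases h2 : b ∈ Q'
  · exact h.sub_of hY hc h' h1 h2
  · exact absurd (hs.1 hy) (disjoint_left.1 (h.disj_of hY hc h' hne h1 h2) hy)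

end IsQ

variable {Γ : Type} [Group Γ] [MulAction Γ Z] [ContinuousConstSMul Γ Z]

theorem LocC.smul (h : LocC L H y) (g : Γ) : LocC (g • L) (g • H) (g • y) := by
  unfold LocC at h ⊢
  rw [eventually_nhdsWithin_iff] at h ⊢
  have h1 : Tendsto (fun y' => g⁻¹ • y') (𝓝 (g • y)) (𝓝 y) := by
    have := (continuous_const_smul (T := Z) g⁻¹).tendsto (g • y)
    rwa [inv_smul_smul] at this
  filter_upwards [h1.eventually h] with y' h2 h3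
  rw [mem_smul_set_iff_inv_smul_mem] at h3 ⊢
  rw [smul_mem_smul_set_iff]
  exact h2 h3

private theorem qc2_mem (hi : ∀ g : Γ, g • Y = Y) (g : Γ) : g • y ∈ Y ↔ y ∈ Y := by
  conv_lhs => rw [← hi g]
  exact smul_mem_smul_set_iff

private theorem qc2_ne (g : Γ) : g⁻¹ • y ≠ b ↔ y ≠ g • b := by
  rw [Ne, inv_smul_eq_iff]

theorem Clo.smul (hi : ∀ g : Γ, g • Y = Y) (h : Clo Y b S) (g : Γ) : Clo Y (g • b) (g • S) := by
  refine ⟨fun y hy => ?_, fun y hy hb => ?_⟩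
  · rw [mem_smul_set_iff_inv_smul_mem] at hy
    exact ⟨(qc2_mem hi g⁻¹).1 (h.1 hy).1, (qc2_ne g).1 (h.1 hy).2⟩
  · have := (h.2 (g⁻¹ • y) ((qc2_mem hi g⁻¹).2 hy) ((qc2_ne g).2 hb)).smul g
    rwa [hi g, smul_inv_smul] at this

theorem qc_smul (hi : ∀ g : Γ, g • Y = Y) (g : Γ) : qc Y (g • b) (g • z) = g • qc Y b z := by
  ext y
  rw [mem_smul_set_iff_inv_smul_mem]
  constructor
  · rintro ⟨h1, h2, h3⟩
    refine ⟨(qc2_mem hi g⁻¹).2 h1, (qc2_ne g).2 h2, fun S hS hz => ?_⟩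
    exact mem_smul_set_iff_inv_smul_mem.1 (h3 _ (hS.smul hi g) (smul_mem_smul_set hz))
  · rintro ⟨h1, h2, h3⟩
    refine ⟨(qc2_mem hi g⁻¹).1 h1, (qc2_ne g).1 h2, fun S hS hz => ?_⟩
    have h4 := hS.smul hi g⁻¹
    rw [inv_smul_smul] at h4
    exact smul_mem_smul_set_iff.1 (h3 _ h4 (mem_inv_smul_set_iff.2 hz))

theorem IsCut.smul (hi : ∀ g : Γ, g • Y = Y) (h : IsCut Y b) (g : Γ) : IsCut Y (g • b) := by
  obtain ⟨hb, S, hS, ⟨x, hx⟩, y, h1, h2, h3⟩ := h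
  exact ⟨(qc2_mem hi g).2 hb, g • S, hS.smul hi g, ⟨_, smul_mem_smul_set hx⟩, g • y,
    (qc2_mem hi g).2 h1, fun e => h2 (smul_left_cancel g e), fun e => h3 (smul_mem_smul_set_iff.1 e)⟩

theorem IsQ.smul (hi : ∀ g : Γ, g • Y = Y) (h : IsQ Y b Q) (g : Γ) : IsQ Y (g • b) (g • Q) := by
  obtain ⟨h0, z, h1, h2, rfl⟩ := h
  exact ⟨h0.smul hi g, g • z, (qc2_mem hi g).2 h1, fun e => h2 (smul_left_cancel g e),
    (qc_smul hi g).symm⟩

theorem QL_smul (hi : ∀ g : Γ, g • Y = Y) (g : Γ) : QL Y (g • L) (g • b) = g • QL Y L b := by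
  ext y
  rw [mem_smul_set_iff_inv_smul_mem]
  constructor
  · rintro ⟨_, ⟨l, hl, rfl⟩, h1, h2⟩
    refine ⟨l, hl, fun e => h1 (congrArg (g • ·) e), ?_⟩
    rwa [show (fun x => g • x) l = g • l from rfl, qc_smul hi g, mem_smul_set_iff_inv_smul_mem] at h2
  · rintro ⟨l, hl, h1, h2⟩
    refine ⟨g • l, smul_mem_smul_set hl, fun e => h1 (smul_left_cancel g e), ?_⟩
    rwa [qc_smul hi g, mem_smul_set_iff_inv_smul_mem]

theorem Blk.smul (hi : ∀ g : Γ, g • Y = Y) (h : Blk Y L) (g : Γ) : Blk Y (g • L) := by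
  obtain ⟨v, hv, hvL⟩ := h.three
  refine ⟨fun y hy => ?_, ⟨fun i => g • v i, fun i j e => hv (smul_left_cancel g e),
    fun i => smul_mem_smul_set (hvL i)⟩, fun b hb y hy y' hy' h1 h2 => ?_, fun y hy h1 => ?_⟩
  · exact (qc2_mem hi g⁻¹).1 (h.sub (mem_smul_set_iff_inv_smul_mem.1 hy))
  · rw [mem_smul_set_iff_inv_smul_mem] at hy hy'
    have := h.one _ (hb.smul hi g⁻¹) _ hy _ hy' (fun e => h1 (smul_left_cancel g⁻¹ e))
      (fun e => h2 (smul_left_cancel g⁻¹ e))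
    rwa [qc_smul hi g⁻¹, smul_mem_smul_set_iff] at this
  · rw [mem_smul_set_iff_inv_smul_mem] at h1
    obtain ⟨b, h2, h3, h4⟩ := h.ext _ ((qc2_mem hi g⁻¹).2 hy) h1
    refine ⟨g • b, smul_mem_smul_set h2, h3.smul hi g, ?_⟩
    rwa [QL_smul hi g, mem_smul_set_iff_inv_smul_mem]

theorem nf_Q (hY : IsClosed Y) (hc : IsPreconnected Y) (hi : ∀ g : Γ, g • Y = Y) :
    NF Γ Y {Q | ∃ b, IsQ Y b Q} := by
  refine ⟨fun H ⟨b, h⟩ => h.subset.trans sdiff_subset, fun g H ⟨b, h⟩ => ⟨_, h.smul hi g⟩,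
    fun H ⟨b, h⟩ H' ⟨b', h'⟩ => h.nest hY hc h', ?_⟩
  rintro Q₁ ⟨b₁, h₁⟩ Q₂ ⟨b₂, h₂⟩ Q₃ ⟨b₃, h₃⟩ h12 h23
  have e1 := h₁.ssub hY hc h₂ h12
  have e2 := h₂.ssub hY hc h₃ h23
  have hb3 : b₃ ∈ Y \ Q₃ := ⟨h₃.1.1, fun h => (h₃.subset h).2 rfl⟩
  have hne : b₃ ≠ b₂ := fun e => hb3.2 (e ▸ e2 (mem_insert _ _))
  have h' := h₂.1.isQ hb3.1 hne
  have e3 : Y \ Q₃ ⊆ qc Y b₂ b₃ := h'.absorb (h₃.compl_conn hY hc) sdiff_subset
    (fun h => h.2 (e2 (mem_insert _ _))) hb3 (mem_qc_self hb3.1 hne)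
  rw [h₁.closure_eq hY hc]
  refine disjoint_left.2 fun y hy hy' => ?_
  have e4 := closure_mono e3 hy'
  rw [h'.closure_eq hY hc] at e4
  rcases e4 with e4 | e4
  · exact (h₂.subset (e1 hy)).2 e4
  · have := h₂.eq_of_mem h' (e1 hy) e4
    exact hb3.2 (e2 (Or.inr (this ▸ mem_qc_self hb3.1 hne)))

theorem NF.compl {ℋ : Set (Set Z)} (hi : ∀ g : Γ, g • Y = Y) (h : NF Γ Y ℋ) :
    NF Γ Y {H | ∃ Q ∈ ℋ, H = Y \ Q} := by
  have cc : ∀ Q ∈ ℋ, Y \ (Y \ Q) = Q := fun Q hQ => sdiff_sdiff_eq_self (h.sub Q hQ)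
  have ss : ∀ Q ∈ ℋ, ∀ Q' ∈ ℋ, Y \ Q ⊂ Y \ Q' → Q' ⊂ Q := fun Q hQ Q' hQ' hs => by
    refine ⟨fun y hy => ?_, fun h1 => hs.2 (sdiff_subset_sdiff_right h1)⟩
    by_contra h1
    exact (hs.1 ⟨h.sub _ hQ' hy, h1⟩).2 hy
  refine ⟨?_, ?_, ?_, ?_⟩
  · rintro _ ⟨Q, _, rfl⟩
    exact sdiff_subset
  · rintro g _ ⟨Q, hQ, rfl⟩
    exact ⟨g • Q, h.inv g Q hQ, by rw [smul_set_sdiff, hi g]⟩
  · rintro _ ⟨Q, hQ, rfl⟩ _ ⟨Q', hQ', rfl⟩
    rcases h.nest Q hQ Q' hQ' with h1 | h1 | h1 | h1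
    · refine Or.inr (Or.inl ((union_subset sdiff_subset sdiff_subset).antisymm fun y hy => ?_))
      by_cases h2 : y ∈ Q
      · exact Or.inr ⟨hy, disjoint_left.1 h1 h2⟩
      · exact Or.inl ⟨hy, h2⟩
    · refine Or.inl (disjoint_left.2 fun y h2 h3 => ?_)
      have : y ∈ Q ∪ Q' := h1 ▸ h2.1
      exact this.elim h2.2 h3.2
    · exact Or.inr (Or.inr (Or.inr (sdiff_subset_sdiff_right h1)))
    · exact Or.inr (Or.inr (Or.inl (sdiff_subset_sdiff_right h1)))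
  · rintro _ ⟨Q₁, h₁, rfl⟩ _ ⟨Q₂, h₂, rfl⟩ _ ⟨Q₃, h₃, rfl⟩ h12 h23
    rw [cc Q₃ h₃]
    exact (h.gap Q₃ h₃ Q₂ h₂ Q₁ h₁ (ss _ h₂ _ h₃ h23) (ss _ h₁ _ h₂ h12)).symm

/-- Comparison of two members through their traces. -/
theorem NF.cmp {ℋ : Set (Set Z)} (h : NF Γ Y ℋ) {H H' T : Set Z} (hH : H ∈ ℋ) (hH' : H' ∈ ℋ)
    (hT : T ⊆ Y) (hs : H ∩ T ⊂ H' ∩ T) (h0 : (H ∩ T).Nonempty) (h1 : H' ∩ T ≠ T) : H ⊂ H' := by
  obtain ⟨u, hu⟩ := h0
  obtain ⟨v, hv, hv'⟩ : ∃ v ∈ T, v ∉ H' := by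
    by_contra hcon
    push Not at hcon
    exact h1 (inter_eq_right.2 hcon)
  have hv1 : v ∉ H := fun h2 => hv' (hs.1 ⟨h2, hv⟩).1
  rcases h.nest H hH H' hH' with h2 | h2 | h2 | h2
  · exact absurd (hs.1 hu).1 (disjoint_left.1 h2 hu.1)
  · have : v ∈ H ∪ H' := h2 ▸ hT hv
    exact (this.elim hv1 hv').elim
  · exact ⟨h2, fun h3 => hs.2 (inter_subset_inter_left _ h3)⟩
  · exact (hs.2 (inter_subset_inter_left _ h2)).elim

/-- Two members with a common point and a common missing point are comparable. -/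
theorem NF.total {ℋ : Set (Set Z)} (h : NF Γ Y ℋ) {H H' : Set Z} (hH : H ∈ ℋ) (hH' : H' ∈ ℋ)
    {u v : Z} (hu : u ∈ H) (hu' : u ∈ H') (hv : v ∈ Y) (hv1 : v ∉ H) (hv2 : v ∉ H') :
    H ⊆ H' ∨ H' ⊆ H := by
  rcases h.nest H hH H' hH' with h2 | h2 | h2
  · exact absurd hu' (disjoint_left.1 h2 hu)
  · have : v ∈ H ∪ H' := h2 ▸ hv
    exact (this.elim hv1 hv2).elim
  · exact h2

end Crest.Agent.R224
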