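import Crest.Agent.R224.ZB2
import Crest.Agent.R224.QC2

/-! R224, task A1a: traces and germs of a nested family.

`traces`: suppose the set `X` is infinite; take a cofinite ultrafilter on it and choose `G x`.  The traces
`(x⁻¹ • G x i) ∩ T` lie in the finite set of subsets of `T`, so they are eventually constant, `= A i`.  Fix one
such `x₀` and `H i = x₀⁻¹ • G x₀ i`.  By `NF.cmp`, `x⁻¹ • G x 0 ⊂ H 1 ⊂ H 2 ⊂ H 3 ⊂ x⁻¹ • G x 4` eventually.  Let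
`x • o → a`, `x⁻¹ • o → c`.  One of `y₁, y₂` is `≠ a`, so `x⁻¹ • y → c` (`conv` for `x⁻¹`), `c ∈ closure (H 1)`;
likewise `c ∈ closure (Bd \\ H 3)`.  This contradicts `gap`.

`no_shrink`: the sets `g ^ n • H` strictly decrease, so the powers are distinct.  Along an ultrafilter
`g ^ n • o → a`, `(g ^ n)⁻¹ • o → c`.  A point `u ∈ A`, `u ≠ a`, has `(g ^ n)⁻¹ • u ∈ g ^ 2 • H` (trace of
`g ^ (n + 2) • H`) and tends to `c`; a point `v ∈ T \\ A`, `v ≠ a`, has `(g ^ n)⁻¹ • v ∈ Bd \\ H` and tends to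
`c`.  This contradicts `gap` for `g ^ 2 • H ⊂ g • H ⊂ H`.

`germ_of_map`: for `H ∈ I`, `H` and `g • H` are comparable (`NF.total`).  If `g • H ⊂ H` then `g • H ∈ I`
(initial), and by induction `g ^ n • H ∈ I` with `g ^ (n+1) • H ⊂ g ^ n • H`: `no_shrink`.  If `H ⊂ g • H`
apply the same to `g⁻¹`, `I'` and `g • H ∈ I'`.

`fix13`: along a cofinite ultrafilter `g • o → a`, `g⁻¹ • o → c`; a point of `H₁` other than `c` shows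
`a ∈ closure H₁`, a point of `Bd \\ H₃` other than `c` shows `a ∈ closure (Bd \\ H₃)`.

`germ_fin`: two initial segments are comparable for inclusion (members are comparable), so a finite family of
infinite initial segments has an infinite common part (`Set.Finite.induction_on`); an infinite chain contains
`H₁ ⊂ H₂ ⊂ H₃`; the subgroup generated by `F` fixes them (`Subgroup.closure_induction`); `fix13`.
(For `F = ∅` the subgroup is trivial.) -/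

set_option autoImplicit false
set_option linter.unusedSectionVars false

namespace Crest.Agent.R224

open Set Filter Topology Pointwise

variable {Γ : Type} [Group Γ] {C : Cay Γ} {Z : Type} [MetricSpace Z] [CompactSpace Z]
  [MulAction Γ Z] [ContinuousConstSMul Γ Z] {o : Z} {r : ℕ} {ξ : Fin 3 → Z}

variable {ℋ : Set (Set Z)}

namespace Cv

private theorem a1a_core (h : Cv C o) {ι : Type} (𝒰 : Ultrafilter ι) {g : ι → Γ}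
    (hg : Tendsto g 𝒰 cofinite) {P Q : Set Z} {y₁ y₂ y₃ y₄ : Z} (h12 : y₁ ≠ y₂) (h34 : y₃ ≠ y₄)
    (hP : ∀ᶠ i in (𝒰 : Filter ι), g i • y₁ ∈ P ∧ g i • y₂ ∈ P)
    (hQ : ∀ᶠ i in (𝒰 : Filter ι), g i • y₃ ∈ Q ∧ g i • y₄ ∈ Q) :
    ¬ Disjoint (closure P) (closure Q) := by
  obtain ⟨a, ha⟩ := ultra_lim 𝒰 fun i => g i • o
  obtain ⟨c, hc⟩ := ultra_lim 𝒰 fun i => (g i)⁻¹ • o
  have key : ∀ (S : Set Z) (u v : Z), u ≠ v →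
      (∀ᶠ i in (𝒰 : Filter ι), g i • u ∈ S ∧ g i • v ∈ S) → a ∈ closure S := by
    intro S u v huv hS
    by_cases h1 : u = c
    · exact mem_closure_of_tendsto (h.conv hg ha hc tendsto_const_nhds (h1 ▸ huv.symm : v ≠ c))
        (hS.mono fun i hi => hi.2)
    · exact mem_closure_of_tendsto (h.conv hg ha hc tendsto_const_nhds h1)
        (hS.mono fun i hi => hi.1)
  exact not_disjoint_iff.2 ⟨a, key _ _ _ h12 hP, key _ _ _ h34 hQ⟩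

theorem traces (h : Cv C o) (hN : NF Γ (Bd Γ o) ℋ) {T : Set Z} (hT : T.Finite) (hTY : T ⊆ Bd Γ o)
    {y₁ y₂ y₃ y₄ : Z} (h12 : y₁ ≠ y₂) (h34 : y₃ ≠ y₄) (h3 : y₃ ∈ Bd Γ o) (h4 : y₄ ∈ Bd Γ o) :
    {x : Γ | ∃ G : Fin 5 → Set Z, (∀ i, G i ∈ ℋ) ∧ StrictMono (fun i => (x⁻¹ • G i) ∩ T) ∧
      ((x⁻¹ • G 0) ∩ T).Nonempty ∧ (x⁻¹ • G 4) ∩ T ≠ T ∧ y₁ ∈ G 0 ∧ y₂ ∈ G 0 ∧ y₃ ∉ G 4 ∧
      y₄ ∉ G 4}.Finite := by
  by_contra hinf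
  obtain ⟨𝒰, hX, hcof⟩ := ultra_inf hinf
  have hch : ∀ x : Γ, ∃ G : Fin 5 → Set Z, x ∈ {x : Γ | ∃ G : Fin 5 → Set Z, (∀ i, G i ∈ ℋ) ∧
      StrictMono (fun i => (x⁻¹ • G i) ∩ T) ∧ ((x⁻¹ • G 0) ∩ T).Nonempty ∧ (x⁻¹ • G 4) ∩ T ≠ T ∧
      y₁ ∈ G 0 ∧ y₂ ∈ G 0 ∧ y₃ ∉ G 4 ∧ y₄ ∉ G 4} → (∀ i, G i ∈ ℋ) ∧
      StrictMono (fun i => (x⁻¹ • G i) ∩ T) ∧ ((x⁻¹ • G 0) ∩ T).Nonempty ∧ (x⁻¹ • G 4) ∩ T ≠ T ∧
      y₁ ∈ G 0 ∧ y₂ ∈ G 0 ∧ y₃ ∉ G 4 ∧ y₄ ∉ G 4 := fun x => by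
    by_cases hx : x ∈ {x : Γ | ∃ G : Fin 5 → Set Z, (∀ i, G i ∈ ℋ) ∧
      StrictMono (fun i => (x⁻¹ • G i) ∩ T) ∧ ((x⁻¹ • G 0) ∩ T).Nonempty ∧ (x⁻¹ • G 4) ∩ T ≠ T ∧
      y₁ ∈ G 0 ∧ y₂ ∈ G 0 ∧ y₃ ∉ G 4 ∧ y₄ ∉ G 4}
    · obtain ⟨G, hG⟩ := hx
      exact ⟨G, fun _ => hG⟩
    · exact ⟨fun _ => ∅, fun h' => absurd h' hx⟩
  choose G hG using hch
  have hev := (show ∀ᶠ x in (𝒰 : Filter Γ), _ from hX).mono hG
  obtain ⟨A, hA⟩ : ∃ A : Fin 5 → Set Z, ∀ᶠ x in (𝒰 : Filter Γ), (fun i => (x⁻¹ • G x i) ∩ T) = A := by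
    rcases ultra_dich 𝒰 (fun x : Γ => fun i => (x⁻¹ • G x i) ∩ T) with h1 | h1
    · have hf : {f : Fin 5 → Set Z | ∀ i, f i ∈ {s | s ⊆ T}}.Finite :=
        Set.Finite.pi' fun _ => hT.finite_subsets
      obtain ⟨x, hx⟩ := (h1.eventually hf.compl_mem_cofinite).exists
      exact absurd (fun i => inter_subset_right) hx
    · exact h1
  obtain ⟨x₀, ⟨g1, g2, g3, g4, -⟩, hx₀⟩ := (hev.and hA).exists
  have e0 : ∀ i, (x₀⁻¹ • G x₀ i) ∩ T = A i := congrFun hx₀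
  rw [hx₀] at g2
  rw [e0] at g3 g4
  have key : ∀ i j : Fin 5, i < j → ∀ K ∈ ℋ, ∀ K' ∈ ℋ, K ∩ T = A i → K' ∩ T = A j → K ⊂ K' := by
    intro i j hij K hK K' hK' e e'
    refine hN.cmp hK hK' hTY (e ▸ e' ▸ g2 hij) (e ▸ g3.mono (g2.monotone (Fin.zero_le i))) ?_
    intro e2
    refine g4 (Subset.antisymm (e0 4 ▸ inter_subset_right) ?_)
    have := g2.monotone (Fin.le_last j)
    rwa [← e', e2] at this
  have hm : ∀ i, x₀⁻¹ • G x₀ i ∈ ℋ := fun i => hN.inv _ _ (g1 i)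
  refine a1a_core h 𝒰 (g := fun x => x⁻¹) ?_ h12 h34 ?_ ?_
    (hN.gap _ (hm 1) _ (hm 2) _ (hm 3) (key 1 2 (by decide) _ (hm 1) _ (hm 2) (e0 1) (e0 2))
      (key 2 3 (by decide) _ (hm 2) _ (hm 3) (e0 2) (e0 3)))
  · exact (inv_injective.tendsto_cofinite).mono_left hcof
  · filter_upwards [hev, hA] with x hx hxA
    have := (key 0 1 (by decide) _ (hN.inv x⁻¹ _ (hx.1 0)) _ (hm 1) (congrFun hxA 0) (e0 1)).1
    exact ⟨this (smul_mem_smul_set hx.2.2.2.2.1), this (smul_mem_smul_set hx.2.2.2.2.2.1)⟩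
  · filter_upwards [hev, hA] with x hx hxA
    have := (key 3 4 (by decide) _ (hm 3) _ (hN.inv x⁻¹ _ (hx.1 4)) (e0 3) (congrFun hxA 4)).1
    exact ⟨⟨smul_mem_Bd.2 h3, fun h5 => hx.2.2.2.2.2.2.1 (smul_mem_smul_set_iff.1 (this h5))⟩,
      ⟨smul_mem_Bd.2 h4, fun h5 => hx.2.2.2.2.2.2.2 (smul_mem_smul_set_iff.1 (this h5))⟩⟩

theorem no_shrink (h : Cv C o) (hN : NF Γ (Bd Γ o) ℋ) {T A : Set Z} (hTY : T ⊆ Bd Γ o)
    (hA : A.Nontrivial) (hA' : (T \ A).Nontrivial) {g : Γ} {H : Set Z} (hH : H ∈ ℋ)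
    (hs : g • H ⊂ H) (ht : ∀ n : ℕ, (g ^ n • H) ∩ T = A) : False := by
  have ss : ∀ (k : Γ) {P Q : Set Z}, P ⊂ Q → k • P ⊂ k • Q := fun k P Q hPQ =>
    ⟨smul_set_mono hPQ.1, fun h1 => hPQ.2 (smul_set_subset_smul_set_iff.1 h1)⟩
  have ha : StrictAnti fun n : ℕ => g ^ n • H := strictAnti_nat_of_succ_lt fun n => by
    have := ss (g ^ n) hs
    rwa [smul_smul, ← pow_succ] at this
  have hinj : Function.Injective fun n : ℕ => (g ^ n)⁻¹ := fun m n e =>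
    ha.injective (by simp only [inv_injective e])
  obtain ⟨u₁, hu₁, u₂, hu₂, hu⟩ := hA
  obtain ⟨v₁, hv₁, v₂, hv₂, hv⟩ := hA'
  have h1 : ∀ n : ℕ, ∀ u ∈ A, (g ^ n)⁻¹ • u ∈ g • g • H := fun n u hu => by
    rw [← mem_smul_set_iff_inv_smul_mem, smul_smul, smul_smul, ← pow_succ, ← pow_succ]
    exact (ht _ ▸ hu : u ∈ (g ^ (n + 1 + 1) • H) ∩ T).1
  have h2 : ∀ n : ℕ, ∀ v ∈ T \ A, (g ^ n)⁻¹ • v ∈ Bd Γ o \ H := fun n v hv =>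
    ⟨smul_mem_Bd.2 (hTY hv.1), fun h3 =>
      hv.2 (ht n ▸ ⟨mem_smul_set_iff_inv_smul_mem.2 h3, hv.1⟩)⟩
  exact a1a_core h (hyperfilter ℕ) (g := fun n => (g ^ n)⁻¹)
    (hinj.tendsto_cofinite.mono_left hyperfilter_le_cofinite) hu hv
    (Eventually.of_forall fun n => ⟨h1 n _ hu₁, h1 n _ hu₂⟩)
    (Eventually.of_forall fun n => ⟨h2 n _ hv₁, h2 n _ hv₂⟩)
    (hN.gap _ (hN.inv _ _ (hN.inv _ _ hH)) _ (hN.inv _ _ hH) _ hH (ss g hs) hs)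

private theorem a1a_tot (hN : NF Γ (Bd Γ o) ℋ) {T A : Set Z} (hTY : T ⊆ Bd Γ o)
    (hA : A.Nontrivial) (hA' : (T \ A).Nontrivial) {H K : Set Z} (hH : H ∈ ℋ ∧ H ∩ T = A)
    (hK : K ∈ ℋ ∧ K ∩ T = A) : H ⊆ K ∨ K ⊆ H := by
  obtain ⟨u, hu⟩ := hA.nonempty
  obtain ⟨v, hv⟩ := hA'.nonempty
  exact hN.total hH.1 hK.1 (hH.2 ▸ hu : u ∈ H ∩ T).1 (hK.2 ▸ hu : u ∈ K ∩ T).1 (hTY hv.1)
    (fun h1 => hv.2 (hH.2 ▸ ⟨h1, hv.1⟩)) (fun h1 => hv.2 (hK.2 ▸ ⟨h1, hv.1⟩))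

theorem germ_of_map (h : Cv C o) (hN : NF Γ (Bd Γ o) ℋ) {T A : Set Z} (hTY : T ⊆ Bd Γ o)
    (hA : A.Nontrivial) (hA' : (T \ A).Nontrivial) {g : Γ} {I I' : Set (Set Z)}
    (hI : ∀ H ∈ I, H ∈ ℋ ∧ H ∩ T = A) (hI' : ∀ H ∈ I', H ∈ ℋ ∧ H ∩ T = A)
    (hi : ∀ H ∈ I, ∀ H' ∈ ℋ, H' ∩ T = A → H' ⊆ H → H' ∈ I)
    (hi' : ∀ H ∈ I', ∀ H' ∈ ℋ, H' ∩ T = A → H' ⊆ H → H' ∈ I')
    (hg : ∀ H, H ∈ I ↔ g • H ∈ I') : ∀ H ∈ I, g • H = H := by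
  have aux : ∀ (g : Γ) (I I' : Set (Set Z)), (∀ H ∈ I, H ∈ ℋ ∧ H ∩ T = A) →
      (∀ H ∈ I', H ∈ ℋ ∧ H ∩ T = A) → (∀ H ∈ I, ∀ H' ∈ ℋ, H' ∩ T = A → H' ⊆ H → H' ∈ I) →
      (∀ H ∈ I, g • H ∈ I') → ∀ H ∈ I, ¬ g • H ⊂ H := by
    intro g I I' hI hI' hi hg H hH hs
    have h1 : ∀ n : ℕ, g ^ n • H ∈ I := by
      intro n
      induction n with
      | zero => simpa using hH
      | succ n ih =>
        have h2 := hI' _ (hg _ ih)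
        rw [smul_smul, ← pow_succ'] at h2
        refine hi _ ih _ h2.1 h2.2 ?_
        rw [pow_succ, ← smul_smul]
        exact smul_set_mono hs.1
    exact h.no_shrink hN hTY hA hA' (hI H hH).1 hs fun n => (hI _ (h1 n)).2
  intro H hH
  by_contra hne
  rcases a1a_tot hN hTY hA hA' (hI H hH) (hI' _ ((hg H).1 hH)) with h1 | h1
  · refine aux g⁻¹ I' I hI' hI hi' (fun K hK => (hg _).2 (by rwa [smul_inv_smul])) _
      ((hg H).1 hH) ?_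
    rw [inv_smul_smul]
    exact h1.ssubset_of_ne (Ne.symm hne)
  · exact aux g I I' hI hI' hi (fun K hK => (hg K).1 hK) H hH (h1.ssubset_of_ne hne)

theorem fix13 (h : Cv C o) (hN : NF Γ (Bd Γ o) ℋ) {H₁ H₂ H₃ : Set Z} (h1 : H₁ ∈ ℋ) (h2 : H₂ ∈ ℋ)
    (h3 : H₃ ∈ ℋ) (h12 : H₁ ⊂ H₂) (h23 : H₂ ⊂ H₃) (hn : H₁.Nontrivial)
    (hn' : (Bd Γ o \ H₃).Nontrivial) : {g : Γ | g • H₁ = H₁ ∧ g • H₃ = H₃}.Finite := by
  by_contra hinf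
  obtain ⟨𝒰, hX, hcof⟩ := ultra_inf hinf
  obtain ⟨u₁, hu₁, u₂, hu₂, hu⟩ := hn
  obtain ⟨v₁, hv₁, v₂, hv₂, hv⟩ := hn'
  have hev : ∀ᶠ g in (𝒰 : Filter Γ), g • H₁ = H₁ ∧ g • H₃ = H₃ := hX
  refine a1a_core h 𝒰 (g := id) hcof hu hv ?_ ?_ (hN.gap _ h1 _ h2 _ h3 h12 h23)
  · filter_upwards [hev] with g hg
    exact ⟨hg.1 ▸ smul_mem_smul_set hu₁, hg.1 ▸ smul_mem_smul_set hu₂⟩
  · filter_upwards [hev] with g hg
    have : ∀ v ∈ Bd Γ o \ H₃, g • v ∈ Bd Γ o \ H₃ := fun v hv =>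
      ⟨smul_mem_Bd.2 hv.1, fun h4 => hv.2 (smul_mem_smul_set_iff.1 (hg.2.symm ▸ h4 : g • v ∈ g • H₃))⟩
    exact ⟨this _ hv₁, this _ hv₂⟩

theorem germ_fin (h : Cv C o) (hN : NF Γ (Bd Γ o) ℋ) {T A : Set Z} (hTY : T ⊆ Bd Γ o)
    (hA : A.Nontrivial) (hA' : (T \ A).Nontrivial) (F : Set Γ) (hF : F.Finite)
    (hg : ∀ g ∈ F, Germ ℋ T A g) : (Subgroup.closure F : Set Γ).Finite := by
  have key : F = ∅ ∨ ∃ I : Set (Set Z), I.Infinite ∧ (∀ H ∈ I, H ∈ ℋ ∧ H ∩ T = A) ∧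
      (∀ H ∈ I, ∀ H' ∈ ℋ, H' ∩ T = A → H' ⊆ H → H' ∈ I) ∧ ∀ g ∈ F, ∀ H ∈ I, g • H = H := by
    induction F, hF using Set.Finite.induction_on with
    | empty => exact Or.inl rfl
    | @insert g F _ _ ih =>
      obtain ⟨J, j1, j2, j3, j4⟩ := hg g (mem_insert _ _)
      right
      rcases ih (fun k hk => hg k (mem_insert_of_mem _ hk)) with rfl | ⟨I, i1, i2, i3, i4⟩
      · exact ⟨J, j1, j2, j3, by simpa using j4⟩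
      by_cases hIJ : I ⊆ J
      · refine ⟨I, i1, i2, i3, ?_⟩
        rintro k (rfl | hk) H hH
        · exact j4 H (hIJ hH)
        · exact i4 k hk H hH
      · obtain ⟨H₀, h1, h2⟩ := not_subset.1 hIJ
        refine ⟨J, j1, j2, j3, ?_⟩
        rintro k (rfl | hk) H hH
        · exact j4 H hH
        · refine i4 k hk H ?_
          rcases a1a_tot hN hTY hA hA' (i2 _ h1) (j2 _ hH) with h3 | h3
          · exact absurd (j3 _ hH _ (i2 _ h1).1 (i2 _ h1).2 h3) h2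
          · exact i3 _ h1 _ (j2 _ hH).1 (j2 _ hH).2 h3
  rcases key with rfl | ⟨I, i1, i2, -, i4⟩
  · simp
  obtain ⟨H₁, h1, H₂, h2, H₃, h3, h12, h23⟩ :
      ∃ H₁ ∈ I, ∃ H₂ ∈ I, ∃ H₃ ∈ I, H₁ ⊂ H₂ ∧ H₂ ⊂ H₃ := by
    have tot : ∀ H ∈ I, ∀ K ∈ I, H ≠ K → H ⊂ K ∨ K ⊂ H := fun H hH K hK hne =>
      (a1a_tot hN hTY hA hA' (i2 _ hH) (i2 _ hK)).imp (fun h1 => h1.ssubset_of_ne hne)
        (fun h1 => h1.ssubset_of_ne hne.symm)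
    obtain ⟨a, ha⟩ := i1.nonempty
    obtain ⟨b, hb, hba⟩ := i1.exists_notMem_finite (finite_singleton a)
    obtain ⟨c, hc, hca⟩ := i1.exists_notMem_finite ((finite_singleton a).insert b)
    simp only [mem_insert_iff, mem_singleton_iff, not_or] at hba hca
    rcases tot b hb a ha hba with p | p <;> rcases tot c hc a ha hca.2 with q | q <;>
      rcases tot c hc b hb hca.1 with s | s
    · exact ⟨c, hc, b, hb, a, ha, s, p⟩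
    · exact ⟨b, hb, c, hc, a, ha, s, q⟩
    · exact ⟨b, hb, a, ha, c, hc, p, q⟩
    · exact ⟨b, hb, a, ha, c, hc, p, q⟩
    · exact ⟨c, hc, a, ha, b, hb, q, p⟩
    · exact ⟨c, hc, a, ha, b, hb, q, p⟩
    · exact ⟨a, ha, c, hc, b, hb, q, s⟩
    · exact ⟨a, ha, b, hb, c, hc, p, s⟩
  refine (h.fix13 hN (i2 _ h1).1 (i2 _ h2).1 (i2 _ h3).1 h12 h23
    (hA.mono ((i2 _ h1).2 ▸ inter_subset_left)) (hA'.mono fun v hv =>
      ⟨hTY hv.1, fun h4 => hv.2 ((i2 _ h3).2 ▸ ⟨h4, hv.1⟩)⟩)).subset fun g hg' => ?_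
  have : Subgroup.closure F ≤ MulAction.stabilizer Γ H₁ ⊓ MulAction.stabilizer Γ H₃ :=
    (Subgroup.closure_le _).2 fun k hk => ⟨i4 k hk _ h1, i4 k hk _ h3⟩
  exact this hg'

end Cv

end Crest.Agent.R224
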