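import Crest.Agent.R224.Bas

/-! R224, task Asd: a finite union of uniformly `0`-dimensional sets is `0`-dimensional.

`asd_glob`: induction on `m` (for all `D`).  `m = 0`: `X` is empty.  Step: pick a label `λ` that occurs on `X`,
`X' = {w ∈ X | lab w ≠ λ}` has at most `m` labels and bound `φ`.  Claim (induction along a `D`-chain in `X`
from `x`): for the current point `y`, either `Ch D X' x y` (or `y = x`) and no `λ`-point was met, or there are
`λ`-points `u` (first), `v` (last) with `d x u ≤ φ + D`, `Ch (φ + 2D) {w ∈ T | lab w = lab u} u v`, and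
(`y = v`, or `y ∈ X'` is joined in `X'` to a point `D`-close to `v`, so `d v y ≤ φ + D`).  New bound
`ρ (φ + 2D) + 2 (φ + D)` (take the max with `φ`).
`asd`: with `φ` from `asd_glob` and `X = T ∩ ball x (φ + D)`: along the chain the current point `y` satisfies
`Ch D X x y` (it is within `φ` of `x`, so the next point lies in `X`).

`germ_bound` (pure group theory): all steps lie in `F = {g | len g ≤ D ∧ P g}` (finite), so `x⁻¹ * y` lies in the
finite subgroup generated by `F`. -/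

set_option autoImplicit false

namespace Crest.Agent.R224

open Set Filter Pointwise

namespace Cay

variable {Γ : Type} [Group Γ] (C : Cay Γ)

theorem asd_glob (ρ : ℕ → ℕ) (m D : ℕ) : ∃ φ : ℕ, ∀ (Λ : Type) (T : Set Γ) (lab : Γ → Λ),
    (∀ D' x y, x ∈ T → C.Ch D' {w | w ∈ T ∧ lab w = lab x} x y → C.d x y ≤ ρ D') →
    ∀ X ⊆ T, (lab '' X).Finite → (lab '' X).ncard ≤ m → ∀ x y, C.Ch D X x y → C.d x y ≤ φ := by
  induction m with
  | zero =>
    refine ⟨0, fun Λ T lab _ X _ hfin hcard x y h => ?_⟩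
    have hX : X = ∅ := image_eq_empty.1 ((ncard_eq_zero hfin).1 (Nat.le_zero.1 hcard))
    rcases h.cases_head with rfl | ⟨c, hc, -⟩
    · exact (C.d_self x).le
    · exact absurd hc.1 (by simp [hX])
  | succ m ih =>
    obtain ⟨φ, hφ⟩ := ih
    refine ⟨ρ (φ + 2 * D) + 2 * (φ + D), fun Λ T lab hρ X hXT hfin hcard x y h => ?_⟩
    have hx : x = y ∨ x ∈ X := h.cases_head.imp_right fun ⟨_, hc, _⟩ => hc.1
    rcases hx with rfl | hx
    · rw [C.d_self]; exact Nat.zero_le _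
    obtain ⟨l, hl⟩ : ∃ l, l = lab x := ⟨_, rfl⟩
    have hsub : lab '' {w | w ∈ X ∧ lab w ≠ l} ⊆ lab '' X \ {l} := by
      rintro _ ⟨w, hw, rfl⟩
      exact ⟨mem_image_of_mem _ hw.1, hw.2⟩
    have hφ' := hφ Λ T lab hρ {w | w ∈ X ∧ lab w ≠ l} (fun w hw => hXT hw.1)
      (hfin.subset (hsub.trans sdiff_subset)) (by
        have h1 := ncard_le_ncard hsub (hfin.subset sdiff_subset)
        rw [ncard_sdiff_singleton_of_mem (hl ▸ mem_image_of_mem lab hx)] at h1
        omega)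
    have key : ∃ v, C.Ch (φ + 2 * D) {w | w ∈ T ∧ lab w = lab x} x v ∧
        (y = v ∨ ∃ y', C.d v y' ≤ D ∧ C.Ch D {w | w ∈ X ∧ lab w ≠ l} y' y ∧ lab y ≠ l) := by
      induction h with
      | refl => exact ⟨x, Relation.ReflTransGen.refl, Or.inl rfl⟩
      | @tail y z _ hyz ih =>
        obtain ⟨v, hv, hy⟩ := ih
        have hvT := hv.mem ⟨hXT hx, rfl⟩
        by_cases hz : lab z = l
        · refine ⟨z, hv.tail ⟨hvT, ⟨hXT hyz.2.1, hz.trans hl⟩, ?_⟩, Or.inl rfl⟩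
          have h1 := hyz.2.2
          rcases hy with rfl | ⟨y', h2, h3, -⟩
          · omega
          · have h4 := hφ' _ _ h3
            have h5 := C.d_tri v y' z
            have h6 := C.d_tri y' y z
            omega
        · refine ⟨v, hv, Or.inr ?_⟩
          rcases hy with rfl | ⟨y', h2, h3, h4⟩
          · exact ⟨z, hyz.2.2, Relation.ReflTransGen.refl, hz⟩
          · exact ⟨y', h2, h3.tail ⟨⟨hyz.1, h4⟩, ⟨hyz.2.1, hz⟩, hyz.2.2⟩, hz⟩
    obtain ⟨v, hv, hy⟩ := key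
    have h1 := hρ _ _ _ (hXT hx) hv
    rcases hy with rfl | ⟨y', h2, h3, -⟩
    · omega
    · have h4 := hφ' _ _ h3
      have h5 := C.d_tri x v y
      have h6 := C.d_tri v y' y
      omega

theorem asd (ρ : ℕ → ℕ) (m D : ℕ) : ∃ φ : ℕ, ∀ (Λ : Type) (T : Set Γ) (lab : Γ → Λ),
    (∀ D' x y, x ∈ T → C.Ch D' {w | w ∈ T ∧ lab w = lab x} x y → C.d x y ≤ ρ D') →
    (∀ x ∈ T, (lab '' (T ∩ {w | C.d x w ≤ φ + D})).ncard ≤ m) →
    ∀ x y, C.Ch D T x y → C.d x y ≤ φ := by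
  obtain ⟨φ, hφ⟩ := C.asd_glob ρ m D
  refine ⟨φ, fun Λ T lab hρ hcard x y h => ?_⟩
  have hx : x = y ∨ x ∈ T := h.cases_head.imp_right fun ⟨_, hc, _⟩ => hc.1
  rcases hx with rfl | hx
  · rw [C.d_self]; exact Nat.zero_le _
  have hφ' := hφ Λ T lab hρ (T ∩ {w | C.d x w ≤ φ + D}) inter_subset_left
    (((C.finite_ball x _).subset inter_subset_right).image _) (hcard x hx) x
  refine hφ' y ?_
  induction h with
  | refl => exact Relation.ReflTransGen.refl
  | @tail y z _ hyz ih =>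
    have h1 := hφ' y ih
    have h2 := C.d_tri x y z
    have h3 := hyz.2.2
    exact ih.tail ⟨⟨hyz.1, (by omega : C.d x y ≤ φ + D)⟩, ⟨hyz.2.1, (by omega : C.d x z ≤ φ + D)⟩, h3⟩

theorem germ_bound (P : Γ → Prop)
    (hP : ∀ F : Set Γ, F.Finite → (∀ g ∈ F, P g) → (Subgroup.closure F : Set Γ).Finite) (D : ℕ) :
    ∃ ρ : ℕ, ∀ (X : Set Γ), (∀ a ∈ X, ∀ b ∈ X, P (a⁻¹ * b)) → ∀ x y, C.Ch D X x y →
      C.d x y ≤ ρ := by
  obtain ⟨ρ, hρ⟩ := ((hP {g | C.len g ≤ D ∧ P g} ((C.fin D).subset fun _ h => h.1)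
    fun _ h => h.2).image C.len).bddAbove
  refine ⟨ρ, fun X hX x y h => hρ (mem_image_of_mem _ ?_)⟩
  induction h with
  | refl => rw [inv_mul_cancel]; exact one_mem _
  | @tail y z _ hyz ih =>
    rw [show x⁻¹ * z = x⁻¹ * y * (y⁻¹ * z) by group]
    exact mul_mem ih (Subgroup.subset_closure ⟨hyz.2.2, hX _ hyz.1 _ hyz.2.1⟩)

end Cay

end Crest.Agent.R224
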