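import Crest.Agent.R224.A1a
import Crest.Agent.R224.Asd

/-! R224, task A1b: the rainbow sets of an increasing sequence have bounded clusters.

Notation: `Hi = ⋃ n, H n`, `U = St ξ Hi`, `A k = St ξ (H k)`, `Tk = Rb r (A k) U`,
`Ξ R = {g • ξ i | len g ≤ R}` (finite, in `Bd`).  For `x ∈ Tk` with rainbow triple `a, b, c` (all within `r` of `x`):
`top x = (x⁻¹ • Hi) ∩ Ξ r` has two points (from `a`; `ξ` is injective) and misses two points of `Ξ r` (from `c`,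
`not_mem_St`); the trace of `x⁻¹ • H k` is non-empty and strictly smaller than `top x` (from `b`).
`Sg x = {G ∈ ℋ | (∃ j, G ⊆ H j) ∧ (x⁻¹ • G) ∩ Ξ r = top x}`, `lab x = (Sg x, top x)`.

(a) `x⁻¹ • Sg x` is an infinite (it contains `x⁻¹ • H j` for all large `j`) initial segment of the members with
trace `top x`.  If `lab x = lab y` then `y⁻¹ * x` maps `x⁻¹ • Sg x` onto `y⁻¹ • Sg y`, so it is a `Germ`
(`germ_of_map`).  `germ_bound` with `germ_fin` gives `ρ_A D` for each of the finitely many `A ⊆ Ξ r` with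
`A`, `Ξ r \\ A` non-trivial; `ρ D` is the maximum.
(b) With `m = 3 * 2 ^ ncard (Ξ r)` get `φ` from `asd ρ m r`, `R = φ + r`.  Let `X` be the finite set of `traces`
for `T = Ξ (R + r)`, `y₁ ≠ y₂ ∈ H 1`, `y₃ ≠ y₄ ∈ Bd \\ Hi`.  For `x₀ ∈ Tk \\ X`, `k ≥ 1`, the points `x ∈ Tk`
with `d x₀ x ≤ R` have at most three different `Sg x`: each `Sg x` is a non-empty final segment of the chain
`{G ∈ ℋ | H k ⊂ G ∧ ∃ j, G ⊆ H j}` (`NF.cmp`, `NF.total`), so these sets are totally ordered by inclusion; from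
`S₁ ⊋ S₂ ⊋ S₃ ⊋ S₄` pick `G 0 = H k`, `G i ∈ S i \\ S (i+1)`, `G 4 ∈ S₄`; they increase, and their traces on
`x₀ • Ξ (R + r) ⊇ x • Ξ r` are different, so `x₀ ∈ X`. -/

set_option autoImplicit false
set_option linter.unusedSectionVars false

namespace Crest.Agent.R224

open Set Filter Topology Pointwise

variable {Γ : Type} [Group Γ] {C : Cay Γ} {Z : Type} [MetricSpace Z] [CompactSpace Z]
  [MulAction Γ Z] [ContinuousConstSMul Γ Z] {o : Z} {r : ℕ} {ξ : Fin 3 → Z}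

variable {ℋ : Set (Set Z)}

/-- The finite set of test points. -/
def XiS (C : Cay Γ) (ξ : Fin 3 → Z) (R : ℕ) : Set Z := {z | ∃ g : Γ, C.len g ≤ R ∧ ∃ i, z = g • ξ i}

theorem XiS_finite (R : ℕ) : (XiS C ξ R).Finite := by
  refine (((C.fin R).prod (finite_univ (α := Fin 3))).image fun p => p.1 • ξ p.2).subset ?_
  rintro z ⟨g, hg, i, rfl⟩
  exact ⟨(g, i), ⟨hg, mem_univ _⟩, rfl⟩

theorem XiS_sub (hm : ∀ i, ξ i ∈ Bd Γ o) (R : ℕ) : XiS C ξ R ⊆ Bd Γ o := by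
  rintro z ⟨g, -, i, rfl⟩
  exact smul_mem_Bd.2 (hm i)

theorem mem_tr {x a : Γ} {R : ℕ} (h : C.d x a ≤ R) (i : Fin 3) (G : Set Z) :
    (x⁻¹ * a) • ξ i ∈ (x⁻¹ • G) ∩ XiS C ξ R ↔ a • ξ i ∈ G := by
  have h1 : (x⁻¹ * a) • ξ i ∈ XiS C ξ R := ⟨x⁻¹ * a, h, i, rfl⟩
  rw [mem_inter_iff, mul_smul, smul_mem_smul_set_iff]
  rw [mul_smul] at h1
  exact and_iff_left h1

theorem tr_congr {x₀ x : Γ} {R R' : ℕ} (h : C.d x₀ x ≤ R') {G G' : Set Z}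
    (e : (x₀⁻¹ • G) ∩ XiS C ξ (R' + R) = (x₀⁻¹ • G') ∩ XiS C ξ (R' + R)) :
    (x⁻¹ • G) ∩ XiS C ξ R = (x⁻¹ • G') ∩ XiS C ξ R := by
  have key : ∀ g : Γ, C.len g ≤ R → ∀ i, (x * g) • ξ i ∈ G ↔ (x * g) • ξ i ∈ G' := by
    intro g hg i
    have hd : C.d x₀ (x * g) ≤ R' + R :=
      (C.d_tri x₀ x (x * g)).trans (add_le_add h ((C.d_mul_right x g).trans_le hg))
    rw [← mem_tr hd i G, e, mem_tr hd i G']
  ext z
  refine and_congr_left ?_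
  rintro ⟨g, hg, i, rfl⟩
  rw [mem_inv_smul_set_iff, mem_inv_smul_set_iff, ← mul_smul]
  exact key g hg i

theorem chain_seq {α : Type} [PartialOrder α] {𝒯 : Set α} (hf : 𝒯.Finite)
    (hc : IsChain (· ≤ ·) 𝒯) {n : ℕ} (hn : n ≤ 𝒯.ncard) :
    ∃ G : Fin n → α, StrictMono G ∧ ∀ i, G i ∈ 𝒯 := by
  classical
  let _ : LinearOrder 𝒯 := hc.linearOrder
  have : Fintype 𝒯 := hf.fintype
  have hcard : n ≤ (Finset.univ : Finset 𝒯).card := by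
    rwa [Finset.card_univ, ← Nat.card_eq_fintype_card, Nat.card_coe_set_eq]
  let e := Finset.univ.orderEmbOfCardLe hcard
  exact ⟨fun i => (e i).1, fun i j hij => e.strictMono hij, fun i => (e i).2⟩

theorem rb_near {r : ℕ} {A U : Set Γ} {x : Γ} (hx : x ∈ C.Rb r A U) :
    ∃ a b c, a ∈ A ∧ b ∈ U ∧ b ∉ A ∧ c ∉ U ∧ C.d x a ≤ r ∧ C.d x b ≤ r ∧ C.d x c ≤ r := by
  obtain ⟨a, b, c, ha, hb, hb', hc, h1, h2, h3, h⟩ := hx
  refine ⟨a, b, c, ha, hb, hb', hc, ?_⟩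
  have h0 : ∀ y, C.d y y ≤ r := fun y => (C.d_self y).trans_le (Nat.zero_le _)
  rcases h with rfl | rfl | rfl
  · exact ⟨h0 _, h1, h3⟩
  · exact ⟨(C.d_comm _ _).trans_le h1, h0 _, h2⟩
  · exact ⟨(C.d_comm _ _).trans_le h3, (C.d_comm _ _).trans_le h2, h0 _⟩

/-- The top trace. -/
def topT (C : Cay Γ) (ξ : Fin 3 → Z) (r : ℕ) (H : ℕ → Set Z) (x : Γ) : Set Z :=
  (x⁻¹ • ⋃ n, H n) ∩ XiS C ξ r

/-- The members with the top trace. -/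
def Sg (C : Cay Γ) (ξ : Fin 3 → Z) (r : ℕ) (ℋ : Set (Set Z)) (H : ℕ → Set Z) (x : Γ) :
    Set (Set Z) := {G | G ∈ ℋ ∧ (∃ j, G ⊆ H j) ∧ (x⁻¹ • G) ∩ XiS C ξ r = topT C ξ r H x}

theorem top_nontriv (hξ : Function.Injective ξ) {H : ℕ → Set Z} {r k : ℕ} {x : Γ}
    (hx : x ∈ C.Rb r (St ξ (H k)) (St ξ (⋃ n, H n))) :
    (topT C ξ r H x).Nontrivial ∧ (XiS C ξ r \ topT C ξ r H x).Nontrivial := by
  obtain ⟨a, b, c, -, ⟨i, j, hij, hi, hj⟩, -, hc, -, h2, h3⟩ := rb_near hx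
  obtain ⟨i', j', hij', hi', hj'⟩ := not_mem_St hc
  refine ⟨⟨_, (mem_tr h2 i _).2 hi, _, (mem_tr h2 j _).2 hj, fun e => hij (hξ ?_)⟩,
    ⟨(x⁻¹ * c) • ξ i', ⟨⟨_, h3, _, rfl⟩, fun e => hi' ((mem_tr h3 i' _).1 e)⟩,
      (x⁻¹ * c) • ξ j', ⟨⟨_, h3, _, rfl⟩, fun e => hj' ((mem_tr h3 j' _).1 e)⟩,
      fun e => hij' (hξ ?_)⟩⟩
  · exact smul_left_cancel _ e
  · exact smul_left_cancel _ e

theorem exists_top {H : ℕ → Set Z} (hs : Monotone H) (r : ℕ) (x : Γ) :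
    ∃ j₀, ∀ j, j₀ ≤ j → (x⁻¹ • H j) ∩ XiS C ξ r = topT C ξ r H x := by
  have hf : (topT C ξ r H x).Finite := (XiS_finite r).subset inter_subset_right
  have h1 : ∀ z ∈ topT C ξ r H x, ∀ᶠ j in atTop, z ∈ x⁻¹ • H j := by
    intro z hz
    have := hz.1
    rw [mem_inv_smul_set_iff, mem_iUnion] at this
    obtain ⟨n, hn⟩ := this
    filter_upwards [eventually_ge_atTop n] with j hj
    exact mem_inv_smul_set_iff.2 (hs hj hn)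
  obtain ⟨j₀, hj₀⟩ := eventually_atTop.1 ((eventually_all_finite hf).2 h1)
  refine ⟨j₀, fun j hj => Subset.antisymm ?_ fun z hz => ⟨hj₀ j hj z hz, hz.2⟩⟩
  exact inter_subset_inter_left _ (smul_set_mono (subset_iUnion H j))

theorem germ_of_lab (h : Cv C o) (hN : NF Γ (Bd Γ o) ℋ) (hm : ∀ i, ξ i ∈ Bd Γ o)
    {H : ℕ → Set Z} (hH : ∀ n, H n ∈ ℋ) (hs : StrictMono H) {r : ℕ} {a b : Γ} {A : Set Z}
    (hA : A.Nontrivial) (hA' : (XiS C ξ r \ A).Nontrivial) (ha : topT C ξ r H a = A)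
    (hb : topT C ξ r H b = A) (e : Sg C ξ r ℋ H a = Sg C ξ r ℋ H b) :
    Germ ℋ (XiS C ξ r) A (a⁻¹ * b) := by
  have hI : ∀ x, topT C ξ r H x = A → ∀ G ∈ {G | x • G ∈ Sg C ξ r ℋ H x},
      G ∈ ℋ ∧ G ∩ XiS C ξ r = A := by
    intro x hx G hG
    obtain ⟨h1, -, h3⟩ := hG
    rw [inv_smul_smul, hx] at h3
    exact ⟨by simpa using hN.inv x⁻¹ _ h1, h3⟩
  have hi : ∀ x, topT C ξ r H x = A → ∀ G ∈ {G | x • G ∈ Sg C ξ r ℋ H x}, ∀ G' ∈ ℋ,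
      G' ∩ XiS C ξ r = A → G' ⊆ G → G' ∈ {G | x • G ∈ Sg C ξ r ℋ H x} := by
    intro x hx G hG G' h1 h2 h3
    obtain ⟨-, ⟨j, hj⟩, -⟩ := hG
    exact ⟨hN.inv x _ h1, ⟨j, (smul_set_mono h3).trans hj⟩, by rw [inv_smul_smul, hx, h2]⟩
  refine ⟨{G | b • G ∈ Sg C ξ r ℋ H b}, ?_, hI b hb, hi b hb, ?_⟩
  · obtain ⟨j₀, hj₀⟩ := exists_top (C := C) (ξ := ξ) hs.monotone r b
    refine infinite_of_injective_forall_mem (f := fun n : ℕ => b⁻¹ • H (j₀ + n)) ?_ ?_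
    · intro n m hnm
      have := hs.injective (smul_left_cancel _ hnm)
      omega
    · intro n
      refine ⟨?_, ⟨j₀ + n, ?_⟩, ?_⟩ <;> rw [smul_inv_smul]
      · exact hH _
      · exact hj₀ _ (Nat.le_add_right _ _)
  · refine h.germ_of_map hN (XiS_sub hm r) hA hA' (hI b hb) (hI a ha) (hi b hb) (hi a ha) ?_
    intro G
    simp only [mem_ofPred_eq]
    rw [← mul_smul, mul_inv_cancel_left, e]

theorem sub_of_Sg (hN : NF Γ (Bd Γ o) ℋ) (hm : ∀ i, ξ i ∈ Bd Γ o) (hξ : Function.Injective ξ)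
    {H : ℕ → Set Z} (hH : ∀ n, H n ∈ ℋ) {r k : ℕ} {x : Γ}
    (hx : x ∈ C.Rb r (St ξ (H k)) (St ξ (⋃ n, H n))) {G : Set Z} (hG : G ∈ Sg C ξ r ℋ H x) :
    H k ⊆ G := by
  obtain ⟨-, u, hu, -⟩ := top_nontriv hξ hx
  obtain ⟨a, b, c, ⟨i, -, -, hi, -⟩, hb, hb', -, h1, h2, -⟩ := rb_near hx
  have hsub : (x⁻¹ • H k) ∩ XiS C ξ r ⊆ topT C ξ r H x :=
    inter_subset_inter_left _ (smul_set_mono (subset_iUnion H k))
  have hne : ∃ l, b • ξ l ∈ ⋃ n, H n ∧ b • ξ l ∉ H k := by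
    by_contra hc
    push Not at hc
    obtain ⟨i, j, hij, hi, hj⟩ := hb
    exact hb' ⟨i, j, hij, hc i hi, hc j hj⟩
  obtain ⟨l, hl, hl'⟩ := hne
  have := hN.cmp (hN.inv x⁻¹ _ (hH k)) (hN.inv x⁻¹ _ hG.1) (XiS_sub (C := C) hm r)
    (by
      rw [hG.2.2]
      exact ⟨hsub, fun hh => hl' ((mem_tr h2 l _).1 (hh ((mem_tr h2 l _).2 hl)))⟩)
    ⟨_, (mem_tr h1 i _).2 hi⟩
    (by
      rw [hG.2.2]
      intro e
      exact hu.2 (e.symm ▸ hu.1))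
  exact smul_set_subset_smul_set_iff.1 this.1

theorem Cv.clusters (h : Cv C o) (hN : NF Γ (Bd Γ o) ℋ) (hm : ∀ i, ξ i ∈ Bd Γ o)
    (hξ : Function.Injective ξ) {H : ℕ → Set Z} (hH : ∀ n, H n ∈ ℋ) (hs : StrictMono H)
    (h0 : (H 0).Nonempty) (hi : (Bd Γ o \ ⋃ n, H n).Nontrivial) (r : ℕ) :
    ∃ (φ : ℕ) (X : Set Γ), X.Finite ∧ ∀ k, 1 ≤ k →
      Disjoint X (C.Rb r (St ξ (H k)) (St ξ (⋃ n, H n))) →
      ∀ x y, C.Ch r (C.Rb r (St ξ (H k)) (St ξ (⋃ n, H n))) x y → C.d x y ≤ φ := by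
  have hρ : ∀ D : ℕ, ∃ ρ : ℕ, ∀ A : Set Z, A ⊆ XiS C ξ r → A.Nontrivial →
      (XiS C ξ r \ A).Nontrivial → ∀ X : Set Γ,
      (∀ a ∈ X, ∀ b ∈ X, Germ ℋ (XiS C ξ r) A (a⁻¹ * b)) → ∀ x y, C.Ch D X x y → C.d x y ≤ ρ := by
    intro D
    have h1 : ∀ A : Set Z, ∃ ρ : ℕ, A.Nontrivial → (XiS C ξ r \ A).Nontrivial → ∀ X : Set Γ,
        (∀ a ∈ X, ∀ b ∈ X, Germ ℋ (XiS C ξ r) A (a⁻¹ * b)) → ∀ x y, C.Ch D X x y →
          C.d x y ≤ ρ := by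
      intro A
      by_cases hA : A.Nontrivial ∧ (XiS C ξ r \ A).Nontrivial
      · obtain ⟨ρ, hρ⟩ := C.germ_bound (Germ ℋ (XiS C ξ r) A)
          (fun F hF hg => h.germ_fin hN (XiS_sub hm r) hA.1 hA.2 F hF hg) D
        exact ⟨ρ, fun _ _ => hρ⟩
      · exact ⟨0, fun h1 h2 => (hA ⟨h1, h2⟩).elim⟩
    choose ρ hρ using h1
    obtain ⟨B, hB⟩ := (((XiS_finite (C := C) (ξ := ξ) r).finite_subsets).image ρ).bddAbove
    exact ⟨B, fun A hA h1 h2 X hX x y hxy => (hρ A h1 h2 X hX x y hxy).trans (hB ⟨A, hA, rfl⟩)⟩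
  choose ρ hρ using hρ
  obtain ⟨φ, hφ⟩ := C.asd ρ (2 ^ 4 * 2 ^ (XiS C ξ r).ncard) r
  obtain ⟨y₁, hy₁⟩ := h0
  obtain ⟨y₂, hy₂, hy₂'⟩ := exists_of_ssubset (hs (show 0 < 1 by omega))
  obtain ⟨y₃, hy₃, y₄, hy₄, h34⟩ := hi
  have h12 : y₁ ≠ y₂ := fun e => hy₂' (e ▸ hy₁)
  refine ⟨φ, _, h.traces hN (XiS_finite (C := C) (ξ := ξ) (φ + r + r)) (XiS_sub hm _) h12 h34
    hy₃.1 hy₄.1, fun k hk hd => ?_⟩
  refine hφ (Set (Set Z) × Set Z) _ (fun x => (Sg C ξ r ℋ H x, topT C ξ r H x)) ?_ ?_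
  · intro D' x y hx hxy
    obtain ⟨t1, t2⟩ := top_nontriv hξ hx
    refine hρ D' (topT C ξ r H x) inter_subset_right t1 t2 _ (fun a ha b hb => ?_) x y hxy
    have ea := Prod.ext_iff.1 ha.2
    have eb := Prod.ext_iff.1 hb.2
    exact germ_of_lab h hN hm hH hs t1 t2 ea.2 eb.2 (ea.1.trans eb.1.symm)
  · intro x₀ hx₀
    let tr : Set Z → Set Z := fun G => (x₀⁻¹ • G) ∩ XiS C ξ (φ + r + r)
    let 𝒞 : Set (Set Z) := {G | G ∈ ℋ ∧ H k ⊆ G ∧ ∃ j, G ⊆ H j}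
    have hy1 : y₁ ∈ H k := hs.monotone (Nat.zero_le k) hy₁
    have hout : ∀ G ∈ 𝒞, ∀ y, y ∉ ⋃ n, H n → y ∉ G := by
      rintro G ⟨-, -, j, hj⟩ y hy hG
      exact hy (mem_iUnion.2 ⟨j, hj hG⟩)
    have hfin : (tr '' 𝒞).Finite := by
      refine (XiS_finite (C := C) (ξ := ξ) (φ + r + r)).finite_subsets.subset ?_
      rintro _ ⟨G, -, rfl⟩
      exact inter_subset_right
    have hchain : IsChain (· ≤ ·) (tr '' 𝒞) := by
      rintro _ ⟨G, hG, rfl⟩ _ ⟨G', hG', rfl⟩ -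
      rcases hN.total hG.1 hG'.1 (hG.2.1 hy1) (hG'.2.1 hy1) hy₃.1 (hout G hG _ hy₃.2)
        (hout G' hG' _ hy₃.2) with e | e
      · exact Or.inl (inter_subset_inter_left _ (smul_set_mono e))
      · exact Or.inr (inter_subset_inter_left _ (smul_set_mono e))
    have hcard : (tr '' 𝒞).ncard ≤ 4 := by
      by_contra hc
      obtain ⟨T, hT, hT'⟩ := chain_seq hfin hchain (show 5 ≤ _ by omega)
      choose G hG hG' using hT'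
      obtain ⟨a, b, c, ⟨i, -, -, hi, -⟩, -, -, hc, h1, -, h3⟩ := rb_near hx₀
      obtain ⟨i', -, -, hi', -⟩ := not_mem_St hc
      have h1' : C.d x₀ a ≤ φ + r + r := by omega
      have h3' : C.d x₀ c ≤ φ + r + r := by omega
      refine disjoint_left.1 hd ⟨G, fun i => (hG i).1, ?_, ⟨_, (mem_tr h1' i _).2 ((hG 0).2.1 hi)⟩,
        fun e => ?_, (hG 0).2.1 hy1, (hG 0).2.1 (hs.monotone hk hy₂), hout _ (hG 4) _ hy₃.2,
        hout _ (hG 4) _ hy₄.2⟩ hx₀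
      · have : (fun i => (x₀⁻¹ • G i) ∩ XiS C ξ (φ + r + r)) = T := funext hG'
        rw [this]
        exact hT
      · refine hout _ (hG 4) _ hi' ((mem_tr h3' i' _).1 ?_)
        rw [e]
        exact ⟨_, h3', _, rfl⟩
    have hp1 := hfin.powerset
    have hp2 := (XiS_finite (C := C) (ξ := ξ) r).powerset
    refine (ncard_le_ncard_of_injOn (t := 𝒫 (tr '' 𝒞) ×ˢ 𝒫 XiS C ξ r)
      (fun p => (tr '' p.1, p.2)) ?_ ?_ (hp1.prod hp2)).trans ?_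
    · rintro _ ⟨x, hx, rfl⟩
      refine ⟨image_mono fun G hG => ⟨hG.1, sub_of_Sg hN hm hξ hH hx.1 hG, hG.2.1⟩, ?_⟩
      exact inter_subset_right
    · have key : ∀ x ∈ C.Rb r (St ξ (H k)) (St ξ (⋃ n, H n)) ∩ {w | C.d x₀ w ≤ φ + r},
          ∀ y ∈ C.Rb r (St ξ (H k)) (St ξ (⋃ n, H n)) ∩ {w | C.d x₀ w ≤ φ + r},
          tr '' Sg C ξ r ℋ H x ⊆ tr '' Sg C ξ r ℋ H y → Sg C ξ r ℋ H x ⊆ Sg C ξ r ℋ H y := by
        intro x _ y hy e G hG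
        obtain ⟨G', hG', e'⟩ := e ⟨G, hG, rfl⟩
        exact ⟨hG.1, hG.2.1, (tr_congr hy.2 e').symm.trans hG'.2.2⟩
      rintro _ ⟨x, hx, rfl⟩ _ ⟨y, hy, rfl⟩ e
      have e1 := Prod.ext_iff.1 e
      exact Prod.ext (Subset.antisymm (key x hx y hy e1.1.le) (key y hy x hx e1.1.ge)) e1.2
    · rw [ncard_prod, ncard_powerset _ hfin, ncard_powerset _ (XiS_finite r)]
      exact Nat.mul_le_mul_right _ (Nat.pow_le_pow_right (by omega) hcard)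

end Crest.Agent.R224
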