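import Mathlib

/-! # Row 224: the interface between part A (topology) and part B (group theory)

Definitions only; DO NOT CHANGE (owner helper97).  `Cay Γ` is a finite symmetric generating set,
`d` the word metric, cochains are functions on lists (a `k`-cochain is read on lists of length
`k+1`), `dl` is the Alexander-Spanier coboundary mod 2.

Part A proves `Coarse Γ` for `Γ = FundamentalGroup M x` and EVERY `Cay Γ` (file `R224/AMain.lean`,
`theorem coarse_of_manifold`).  Suggested plan for part A (about 3.5k lines):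
1. `E` contractible cover; deck action of `Γ` (lift `p` through `p`, `existsUnique_continuousMap_lifts`),
   free, properly discontinuous, cocompact.  Invariant metric: `d₀` any compatible metric `≤ 1`, `χ` bump
   `= 1` on a compact `K₀` with `ΓK₀ = E`,
   `dE x y = sup_{γ,z} |χ(γx) d₀(γx,z) - χ(γy) d₀(γy,z)| ⊔ sup_γ |χ(γx) - χ(γy)|`.
2. Germs: `LZ n φ x` (φ vanishes on lists of length `n` inside some neighbourhood of `x`); compact
   supports; `Null U n φ` (`φ - dl η` locally zero, `η` with compact support in `U`, `η [] = 0`).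
   List prism: `∂(x::l) = l + x::∂l`, `P(x::l) = f x :: g(x::l) + f x :: P l`, `∂P + P∂ = f + g`.
3. `ℝⁿ` by induction (sweep upwards by small translations; every cocycle is cohomologous to a suspension
   `dl (1_{t(x₀)>c} · pr^*ψ)`, which is null iff `ψ` is null): (L0) degree `≠ n` ⇒ null, (L1) the sum of two
   non-null `n`-cocycles is null, (L2) non-null cocycles exist in every nonempty open set.
   For chart balls `B ⊆ B'` (open embeddings of `ℝ⁴`): null in `B` iff null in `B'` (by L1, L2).
4. (Dim) degree `≥ 5` cocycles are null in every open `U ⊆ E` (two-set Mayer-Vietoris, induction on the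
   number of bounded convex sets, then of charts).
5. Cech families `a : Finset I → cochain` (mod 2, no signs): `(∂a) τ = ∑_{i ∉ τ} a (insert i τ)`,
   `(h a) σ = ∑_{i ∈ σ} χ_i a (σ.erase i)`, `∂h + h∂ = id`.  Zig-zag up to the top level, fill down with
   (Dim) to get level `p = 4-k` made of 4-cocycles; `z σ = [non-null]` is a cycle; move the vertices one at a
   time along the contraction (`w σ = z (σ.erase v')` if `v, v' ∈ σ`), cone off; realise `w` by (L2); fill down
   with (L0) in balls of a tower of 5 scales.  The support stays in a compact set depending only on the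
   support of `φ`.
6. Transfer: `π : E → Γ` with `x ∈ π x • K₀`; equivariant `Φ` from `R'`-small lists of `Γ` to `ε`-small
   chains of `E` (prism + cone along the contraction, carriers independent of `ε`), `T σ = cone_{σ₀}(σ + πΦσ + T∂σ)`,
   `η' = η ∘ Φ + φ ∘ T`.  `P1inf`: loops of the Cayley graph bound `R`-small 2-chains. -/

set_option autoImplicit false

namespace Crest.Agent.R224

/-- a finite symmetric generating set -/
class Cay (Γ : Type) [Group Γ] where
  T : Finset Γ
  inv_mem : ∀ t ∈ T, t⁻¹ ∈ T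
  gen : ∀ g : Γ, ∃ l : List Γ, (∀ t ∈ l, t ∈ T) ∧ l.prod = g

/-- Alexander-Spanier coboundary mod 2 -/
def dl {X : Type} (φ : List X → ZMod 2) (l : List X) : ZMod 2 :=
  ∑ i ∈ Finset.range l.length, φ (l.eraseIdx i)

variable {Γ : Type} [Group Γ] [Cay Γ]

/-- word length -/
noncomputable def wl (g : Γ) : ℕ :=
  sInf {n | ∃ l : List Γ, l.length = n ∧ (∀ t ∈ l, t ∈ Cay.T) ∧ l.prod = g}

/-- word metric (left invariant; edges `x — x * t`) -/
noncomputable def d (x y : Γ) : ℕ := wl (x⁻¹ * y)

/-- lists of diameter at most `R` -/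
def Sm (R : ℕ) (l : List Γ) : Prop := ∀ a ∈ l, ∀ b ∈ l, d a b ≤ R

/-- every 1-cocycle at some fixed scale is the coboundary of a set on edges -/
def P1inf (Γ : Type) [Group Γ] [Cay Γ] : Prop :=
  ∃ R : ℕ, ∀ φ : Γ → Γ → ZMod 2,
    (∀ x y z, Sm R [x, y, z] → φ y z + φ x z + φ x y = 0) →
    ∃ A : Set Γ, ∀ x, ∀ t ∈ (Cay.T : Finset Γ), (φ x (x * t) = 0 ↔ (x ∈ A ↔ x * t ∈ A))

/-- boundedly supported `k`-cocycles are coboundaries of boundedly supported cochains -/
def Fill (Γ : Type) [Group Γ] [Cay Γ] (k : ℕ) : Prop :=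
  ∀ R' : ℕ, ∃ R : ℕ, ∀ s : ℕ, ∃ ρ : ℕ, ∀ (x : Γ) (φ : List Γ → ZMod 2),
    (∀ l, l.length = k + 2 → Sm R l → dl φ l = 0) →
    (∀ l, l.length = k + 1 → Sm R l → φ l ≠ 0 → ∀ a ∈ l, d x a ≤ s) →
    ∃ η : List Γ → ZMod 2,
      (∀ l, l.length = k + 1 → Sm R' l → φ l = dl η l) ∧
      (∀ l, l.length = k → η l ≠ 0 → ∀ a ∈ l, d x a ≤ ρ)

/-- what part A delivers -/
structure Coarse (Γ : Type) [Group Γ] [Cay Γ] : Prop where
  p1 : P1inf Γ
  f1 : Fill Γ 1
  f2 : Fill Γ 2
  f3 : Fill Γ 3

end Crest.Agent.R224
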