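import Crest.Agent.R224.ACore
import Crest.Prelude.Def_ClassifyingComplex

/-! Row 224, part A: the final statement (owner of part A fills this in). -/

set_option autoImplicit false

namespace Crest.Agent.R224

theorem coarse_of_manifold
    (M : Type) [TopologicalSpace M] [T2Space M] [SecondCountableTopology M] [CompactSpace M]
    [ConnectedSpace M] [ChartedSpace (EuclideanSpace ℝ (Fin 4)) M]
    (hM : Crest.Topology.HasContractibleCover M) (x : M) [Cay (FundamentalGroup M x)] :
    Coarse (FundamentalGroup M x) := by
  sorry

end Crest.Agent.R224
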