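import Crest.Agent.R224.BNc

/-! Row 224 B: the family of far sides of one region, and the constants. -/

set_option autoImplicit false

open Set Filter Pointwise

namespace Crest.Agent.R224

variable {Γ : Type} [Group Γ] [Cay Γ] [Ctx Γ]

/-- the points separating `p` from `q` -/
def seps (p q : Pt Γ) : Set (Pt Γ) := {r | r ≠ p ∧ r ≠ q ∧ Sep r p q}

/-- `x ∈ Fs p q`, `y ∈ Fs q p` are separated by the cut (`Fs_subset_of_sep`), `Q_pair_finite` -/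
theorem seps_finite {p q : Pt Γ} (hp : p ∈ QQ Γ) (hq : q ∈ QQ Γ) (hne : p ≠ q) : (seps p q).Finite := sorry
/-- Let `c` at `r` separate `p` from `q`, `c'` at `r'` separate `p` from `r`.  `c' ⊆ Fs r' r` is disjoint from `Fs r r'`, which contains `c` or
`cᶜ`; `p` lies in `c` and `c'`, so `c' ⊆ c`, `q ∉ c'` and `r' ≠ q` (if `r' = q` then `c ⊆ Fs r q`). -/
theorem seps_ssubset {p q r : Pt Γ} (hp : p ∈ QQ Γ) (hq : q ∈ QQ Γ) (hne : p ≠ q) (hr : r ∈ seps p q) :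
    seps p r ⊂ seps p q := sorry
/-- minimise `(seps p r').ncard` -/
theorem exists_adjacent {p r : Pt Γ} (hp : p ∈ QQ Γ) (hr : r ∈ QQ Γ) (hne : p ≠ r) :
    ∃ r' ∈ QQ Γ, r' ≠ p ∧ seps p r' = ∅ ∧ (r' = r ∨ r' ∈ seps p r) := sorry
/-- a single cut point would be fixed by `Γ`, so `VV q = univ` converges to `q` (`conv_VV`, `Conv.null`) -/
theorem QQ_not_single {q : Pt Γ} (hq : q ∈ QQ Γ) : ∃ p ∈ QQ Γ, p ≠ q := sorry
/-- If `QQ = ∅` take `𝒥 = ∅`.  Else let `p₀, p₁` be adjacent, `𝒥 = {Fs p₀ p₁} ∪ {Fs q p₀ | q ∈ QQ, q ≠ p₀, seps p₀ q = ∅,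
Fs p₀ q = Fs p₀ p₁}`, `pt F` the point of the true cut `F` (`TC.unique`).  Disjointness: `Fs q p₀ = Fs q q'` (`Fs_eq_of_not_sep`).
`atom` for `c` at `r`: `r = p₀` clear; if `Fs p₀ r ≠ Fs p₀ p₁`, the side of `c` missing `p₀` is disjoint from
`Fs p₀ r ⊇ (Fs p₀ p₁)ᶜ`; otherwise take `r'` from `exists_adjacent`: `r' = r` clear, else `Fs p₀ r' = Fs p₀ r` (`Fs_subset_of_sep`), and
with `c'` at `r'` separating `p₀` from `r` the side of `c` missing `r'` is disjoint from `Fs r' r ⊇ c'`, so lies in `c'ᶜ ⊆ Fs r' p₀`. -/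
theorem exists_adj : ∃ (𝒥 : Set (Set Γ)) (pt : Set Γ → Pt Γ), IsAdj 𝒥 pt := sorry

variable {𝒥 : Set (Set Γ)} {pt : Set Γ → Pt Γ}

/-- (U).  For `y ∈ Om1` and `F ∈ 𝒥`, `hm F y ≤ 1 - κ` (`y ∉ F` or `y ∈ Wall F`).  If `hm (F ∪ F')ᶜ y < κ/2` then `F ≠ F'` are both
`κ/2`-balanced at `y`; their translates by `y⁻¹` lie in the finite set of `balanced_finite`, and for disjoint `N, N'` in it with
`N' ≠ Nᶜ`, `hm (N ∪ N')ᶜ 1 > 0` (`TC.subset_of_null`). -/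
theorem exists_U (h : IsAdj 𝒥 pt) : ∃ δ : ℝ, 0 < δ ∧ δ ≤ 1 ∧ ∀ y ∈ Om1 𝒥, ∀ F ∈ insert ∅ 𝒥,
    ∀ F' ∈ insert ∅ 𝒥, δ ≤ hm (F ∪ F')ᶜ y := sorry
/-- `δ = δ_U / 2`, `R` from `wall_inf`, `δ' = δ / |T|^R` (`harnack`) -/
theorem exists_consts (h : IsAdj 𝒥 pt) : ∃ δ δ' R, Consts 𝒥 δ δ' R := sorry

end Crest.Agent.R224
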