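import Crest.Agent.R224.BHarm

/-! Row 224 B: a nonconstant harmonic Dirichlet function forces a linear isoperimetric inequality
(trace ≤ rank), and the orthogonal projection giving the final approximation.

Work in `H = lp (fun _ : Γ × T => ℝ) 2`.  An element `ω` which is a pointwise limit of gradients
`grad fₙ` is a gradient (normalise `fₙ 1 = 0`; `fₙ x` converges by induction along edges), and
harmonicity passes to the limit, so `𝓚 = {grad h | Harm h, Dir h}` is a closed subspace. -/

set_option autoImplicit false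

open Set Filter Pointwise

namespace Crest.Agent.R224

variable {Γ : Type} [Group Γ] [Cay Γ]

open Classical in
/-- Let `k p ∈ 𝓚` be the orthogonal projection of `δ_p`, so `ω p = ⟪ω, k p⟫` on `𝓚`.
`‖k (x,t)‖² = sup {(ω (x,t))² | ω ∈ 𝓚, ‖ω‖ ≤ 1}` does not depend on `x` (translate), and
`λ = ∑_t ‖k (1,t)‖² > 0`.  For finite `A` let `V ⊆ EuclideanSpace ℝ (A × T)` be the space of restrictions
of elements of `𝓚`.  By `maxP` a harmonic `h` is determined on `A` by its values at the points `x t ∉ A`,
so `dim V ≤ n` = the number of boundary edges.  With an orthonormal basis `eᵢ` of `V` and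
`K p q = k q p = ⟪k p, k q⟫` (rows in `V`): `λ |A| = ∑_p K p p = ∑ᵢ ‖∑_p eᵢ p • k p‖² ≤ n`, since
`‖∑ a p • k p‖ = ‖proj (∑ a p • δ_p)‖ ≤ ‖a‖`. -/
theorem iso_of_nc [Infinite Γ] (hnc : ∃ h : Γ → ℝ, Harm h ∧ Dir h ∧ ∃ x, h x ≠ h 1) :
    ∃ c : ℝ, 0 < c ∧ ∀ A : Finset Γ, c * A.card ≤
      (((A ×ˢ (Cay.T : Finset Γ)).filter fun p => p.1 * p.2 ∉ A).card : ℝ) := sorry

/-- Project `grad f` on the closure `𝓑` of the gradients of finitely supported functions: the projection is
a gradient `grad w` (limit of gradients), `f - w` is harmonic (`harm_of_ip`), hence constant, so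
`grad f ∈ 𝓑`. -/
theorem approx_of_const (H : ∀ h : Γ → ℝ, Harm h → Dir h → ∀ x, h x = h 1) {f : Γ → ℝ} (hf : Dir f)
    {ε : ℝ} (hε : 0 < ε) : ∃ u : Γ → ℝ, (Function.support u).Finite ∧ En (f - u) < ε := sorry

end Crest.Agent.R224
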