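import Crest.Agent.R224.BHarm

/-! Row 224 B: construction of the mean.

`P φ x = (∑_t φ (x t)) / |T|`, `A n φ x = (∑_{k<n} P^k φ x) / n`, `m x φ = lim` of `A (n+1) φ x` along
`hyperfilter ℕ` (bounded sequences converge along an ultrafilter; define with `limUnder`; `equiv` holds
termwise).  `harm`: `|A n (P φ) - A n φ| ≤ 2M/n` and `P` commutes with `A n`.
Green function bound: for `w ≥ 0` square summable let `u n = ∑_{k<n} P^k w`; `P` is a symmetric contraction
of `ℓ²`, `En u = 2|T| ⟪u, u - P u⟫`, `u n - P (u n) = w - P^n w`, so `En (u n) ≤ 2|T| ⟪u n, w⟫`; `Poin` extends to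
square summable functions (truncate), hence `‖u n‖ ≤ C' ‖w‖`: `G w = ∑_k P^k w` converges pointwise and is square
summable (finite partial sums).  `est`: with `w x = (∑_t |φ (x t) - φ x|)/|T|` and `v = |φ - φ y|`, `P v ≤ v + w`, so
`P^k v y ≤ G w y`.  `fin`: `P^k |φ| x → 0` since `G |φ| x < ∞`, so the Cesàro means tend to `0`. -/

set_option autoImplicit false

open Set Filter Pointwise

namespace Crest.Agent.R224

variable {Γ : Type} [Group Γ] [Cay Γ]

theorem exists_mean [Infinite Γ] (hP : Poin Γ) : Nonempty (Mean Γ) := sorry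

end Crest.Agent.R224
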