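import Crest.Agent.R224.BPot
import Crest.Agent.R224.BIso
import Crest.Agent.R224.BMean

/-! Row 224 B: the unfolding operation `theta` and the construction of `Ctx`.
Write `S l = thS g K y0 l` (increasing in `l`, contains `y0` for `l ≥ l1`), `R l = thR g K y0 y1 l` (decreasing,
contains `y1` for `l ≤ l2`). -/

set_option autoImplicit false

open Set Filter Pointwise

namespace Crest.Agent.R224

variable {Γ : Type} [Group Γ] [Cay Γ]

section
variable {g : Γ → ℝ} {K : Set Γ} {y0 y1 : Γ} {l1 l2 : ℝ}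

theorem theta_mem (h : l1 < l2) (y : Γ) : theta g K y0 y1 l1 l2 y ∈ Icc l1 l2 := sorry
theorem theta_eq_left (h : l1 < l2) {y : Γ} (hy : y ∈ thS g K y0 l1) :
    theta g K y0 y1 l1 l2 y = l1 := sorry
theorem theta_eq_right (h : l1 < l2) {y : Γ} (hy : y ∈ thR g K y0 y1 l2) :
    theta g K y0 y1 l1 l2 y = l2 := sorry
/-- If `θ x < l < θ y` for neighbours `x, y` then `y ∈ R l`, `x ∉ R l`, so `x ∈ S l`, `g x < l`, and `y ∈ K` or
`l ≤ g y`.  Hence `|θ y - θ x| ≤ |g y - g x|` off `nbhd 1 K`. -/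
theorem theta_dir (hg : Dir g) (hK : K.Finite) (h : l1 < l2) : Dir (theta g K y0 y1 l1 l2) := sorry
/-- `{θ < t}` is empty, everything, or `⋃_{l1 ≤ l < t} (R l)ᶜ`; `(R l)ᶜ` is connected and contains `y0` (every other
component of `(S l)ᶜ` is adjacent to `S l`); `{t < θ}` is empty, everything or `⋃_{t < l ≤ l2} R l ∋ y1`. -/
theorem theta_loc (h : l1 < l2) (h0 : g y0 < l1) (hK : y0 ∉ K) (h1 : y1 ∉ thS g K y0 l2) :
    Loc (theta g K y0 y1 l1 l2) := sorry
end

theorem Loc.neg {g : Γ → ℝ} (hg : Loc g) : Loc (-g) := sorry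
theorem Loc.tr {g : Γ → ℝ} (hg : Loc g) (γ : Γ) : Loc (tr γ g) := sorry

/-- `𝒜 = ⋃ₙ 𝒜ₙ`, `𝒜₀ = range F`, `𝒜ₙ₊₁` adds negatives, translates and admissible `theta`s (countably many
parameters, `countable_of_cay`). -/
theorem exists_ctx [Infinite Γ] (hc : Coarse Γ)
    (hnc : ∃ h : Γ → ℝ, Harm h ∧ Dir h ∧ ∃ x, h x ≠ h 1) : Nonempty (Ctx Γ) := sorry

end Crest.Agent.R224
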