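import Crest.Agent.R224.BEnr

/-! Row 224 B: free potentials. -/

set_option autoImplicit false

open Set Filter Pointwise

namespace Crest.Agent.R224

variable {Γ : Type} [Group Γ] [Cay Γ]

/-- The gradients of Dirichlet functions form a closed subspace `𝓖` of `lp (fun _ : Γ × T => ℝ) 2` (normalise
`f 1 = 0`, induction along edges); `grad g ↦ g y - g 1` is a bounded functional (`|·| ≤ wl y * ‖·‖`); Riesz. -/
theorem exists_pot : ∃ F : Γ → Γ → ℝ, IsPot F := sorry

variable {F : Γ → Γ → ℝ}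

theorem IsPot.symm (hF : IsPot F) (x y : Γ) : F x y = F y x := sorry
theorem IsPot.en (hF : IsPot F) (y : Γ) : En (F y) = F y y := sorry
/-- extremality: `En (G - F y) = En G - 2 (G y - G 1) + En (F y) ≤ 0` -/
theorem IsPot.eq_of_le (hF : IsPot F) (y : Γ) {G : Γ → ℝ} (h1 : G 1 = 0) (hy : G y = F y y)
    (h : ∀ p, |grad G p| ≤ |grad (F y) p|) : G = F y := sorry
/-- clamp to `[0, F y y]` -/
theorem IsPot.nonneg (hF : IsPot F) (y x : Γ) : 0 ≤ F y x := sorry
theorem IsPot.le (hF : IsPot F) (y x : Γ) : F y x ≤ F y y := sorry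
theorem IsPot.bdd (hF : IsPot F) (y : Γ) : Bdd (F y) := sorry
/-- A component `U` of `{t < F y}` (`t ≥ 0`) not containing `y` can be flattened to the value `t`, which does not
increase any gradient; similarly every component of `{F y < t}` (`t ≤ F y y`) contains `1`. -/
theorem IsPot.loc (hF : IsPot F) (y : Γ) : Loc (F y) := sorry
/-- `(grad φ)² ≤ grad φ * grad F` for `φ = min F M` -/
theorem IsPot.en_min (hF : IsPot F) (y : Γ) {M : ℝ} (hM : 0 ≤ M) :
    Dir (fun x => min (F y x) M) ∧ En (fun x => min (F y x) M) ≤ M := sorry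
/-- the cocycle identity, from `rep` and `ip_tr`: `F (h z) = F h + tr h (F z) + const` -/
theorem IsPot.cocycle (hF : IsPot F) (h z x : Γ) :
    F (h * z) x = F h x + F z (h⁻¹ * x) - F z h⁻¹ := sorry
/-- `‖c x - c y‖² = ψ (x⁻¹ y)` -/
theorem IsPot.dist (hF : IsPot F) (x y : Γ) :
    F (x⁻¹ * y) (x⁻¹ * y) = F x x - 2 * F x y + F y y := sorry

end Crest.Agent.R224
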