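import Crest.Agent.R224.BHm
import Crest.Agent.R224.BPot

/-! Row 224 B: points at infinity; no atoms. -/

set_option autoImplicit false

open Set Filter Pointwise

namespace Crest.Agent.R224

variable {Γ : Type} [Group Γ] [Cay Γ] [Ctx Γ]

theorem actP_mul (γ γ' : Γ) (q : Pt Γ) : actP (γ * γ') q = actP γ (actP γ' q) := sorry
theorem actP_one (q : Pt Γ) : actP 1 q = q := sorry
theorem actP_inj (γ : Γ) : Function.Injective (actP γ : Pt Γ → Pt Γ) := sorry
theorem Conv.mono {W W' : Set Γ} {q : Pt Γ} (h : Conv W q) (hW : (W' \ W).Finite) : Conv W' q := sorry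
theorem Conv.union {W W' : Set Γ} {q : Pt Γ} (h : Conv W q) (h' : Conv W' q) : Conv (W ∪ W') q := sorry
theorem Conv.nbhd {W : Set Γ} {q : Pt Γ} (h : Conv W q) (R : ℕ) : Conv (nbhd R W) q := sorry
theorem Conv.smul {W : Set Γ} {q : Pt Γ} (h : Conv W q) (γ : Γ) : Conv (γ • W) (actP γ q) := sorry
theorem Conv.unique {W : Set Γ} {q q' : Pt Γ} (h : Conv W q) (h' : Conv W q') (hW : W.Infinite) :
    q = q' := sorry
theorem Conv.neg {W : Set Γ} {q : Pt Γ} (h : Conv W q) (hW : W.Infinite) (g : AA Γ) :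
    q ⟨-g.1, Ctx.neg _ g.2⟩ = - q g := sorry
theorem Conv.inter_finite {W W' : Set Γ} {q q' : Pt Γ} (h : Conv W q) (h' : Conv W' q') (hq : q ≠ q') :
    (W ∩ W').Finite := sorry
/-- sequential compactness (`AA Γ` is countable and consists of bounded functions): take the limit `q` along a
free ultrafilter containing `U`, then choose new points in smaller and smaller neighbourhoods -/
theorem exists_conv {U : Set Γ} (hU : U.Infinite) : ∃ (q : Pt Γ) (W : Set Γ), W ⊆ U ∧ W.Infinite ∧
    Conv W q := sorry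
/-- No atoms.  Enumerate `AA Γ`; `N q n = {x | ∀ i < n, |gᵢ x - q gᵢ| < 1/(n+1)}`.  If the claim fails for `q`,
`idem` (hypothesis by `est_far` and `Mean.fin`) gives `z_j` with `hm N (z_j) ≥ 1 - 1/j` for all basic neighbourhoods `N` of
`q`, i.e. `hm N 1 ≥ 1 - 1/j` for all basic neighbourhoods of `q_j = actP z_j⁻¹ q`.  Two different points have
disjoint neighbourhoods, so all `q_j` (`j ≥ 3`) coincide with some `p` all of whose neighbourhoods have full
measure from every `x` (`hm_zero`).  Then `mn x (F y) = p (F y)`, so `F y - p (F y)` is square summable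
(`Mean.est`), and for the harmonic `h` of `Ctx.nc`: `h y - h 1 = ip h (F y) = 0` (`ip_harm_sq`). -/
theorem nonatomic (q : Pt Γ) {η : ℝ} (hη : 0 < η) : ∃ (J : Finset (AA Γ)) (ε : ℝ), 0 < ε ∧
    hm {x | ∀ g ∈ J, |g.1 x - q g| < ε} 1 < η := sorry
theorem Conv.null {W : Set Γ} {q : Pt Γ} (h : Conv W q) (x : Γ) : hm W x = 0 := sorry
/-- apply `K_lemma` to `φ y = - max_{g ∈ J} |g y - q g|` (`Dir.sup'`) -/
theorem reg_of_conv {C : Set Γ} {q : Pt Γ} (h : Conv (Wall C) q) : Reg C := sorry
/-- balanced points converge: `K_lemma` for `g` and `-g` -/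
theorem conv_balanced {C : Set Γ} {q : Pt Γ} (h : Conv (Wall C) q) {δ : ℝ} (hδ : 0 < δ) :
    Conv {x | δ ≤ |C.indicator (fun _ => (1 : ℝ)) x - hm C x|} q := sorry
/-- two different limit points exist (otherwise `univ` converges to a point, an atom) -/
theorem exists_two : ∃ (a b : Pt Γ) (Wa Wb : Set Γ), a ≠ b ∧ Wa.Infinite ∧ Wb.Infinite ∧
    Conv Wa a ∧ Conv Wb b := sorry

end Crest.Agent.R224
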