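import Crest.Agent.R224.BMet

/-! Row 224 B: Švarc-Milnor type lemmas. -/

set_option autoImplicit false

open Set Filter Pointwise

namespace Crest.Agent.R224

variable {Γ : Type} [Group Γ] [Cay Γ]

/-- A maximal `D`-connected subset `T₀ ∋ x₀` of `X` meeting each `H`-orbit at most once has at most `N` points; every
`z ∈ X` within `D` of `T₀` is `h • t` with `t ∈ T₀`, `h ∈ H`, `d x₀ (h x₀) ≤ (2N+1) D`.  So `⟨S⟩ T₀` is closed under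
`D`-steps in `X`, one generator per step. -/
theorem sm_gen (H : Subgroup Γ) {X : Set Γ} (hX : ∀ h ∈ H, ∀ x ∈ X, h * x ∈ X) {T1 : Finset Γ}
    (hT : ∀ x ∈ X, ∃ h ∈ H, ∃ t ∈ T1, x = h * t) (D : ℕ) {x0 : Γ} (hx0 : x0 ∈ X) :
    ∃ (S T0 : Finset Γ), (∀ s ∈ S, s ∈ H ∧ s⁻¹ ∈ S ∧ d x0 (s * x0) ≤ (2 * T1.card + 1) * D) ∧ 1 ∈ S ∧
      T0.card ≤ T1.card ∧ (∀ t ∈ T0, d x0 t ≤ T1.card * D) ∧ x0 ∈ T0 ∧
      ∀ (l : List Γ), (∀ t ∈ l, t ∈ S) → ∀ t ∈ T0, ∀ z ∈ X, d (l.prod * t) z ≤ D →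
        ∃ s ∈ S, ∃ t' ∈ T0, z = l.prod * s * t' := sorry

/-- Apply `sm_gen` to `X = H Ω`; after conjugating by `x₀` the group `⟨S⟩` is a finite group generated by a subset of
a fixed ball, and there are finitely many such subsets. -/
theorem sm_finite (N D : ℕ) : ∃ L : ℕ, ∀ (H : Subgroup Γ), (H : Set Γ).Finite → ∀ (Ω : Set Γ), Conn D Ω →
    ∀ T1 : Finset Γ, T1.card ≤ N → (∀ x ∈ Ω, ∃ h ∈ H, ∃ t ∈ T1, x = h * t) →
    ∀ x ∈ Ω, ∀ y ∈ Ω, d x y ≤ L := sorry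

end Crest.Agent.R224
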