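import Crest.Agent.R224.BEss
import Crest.Agent.R224.BSM

/-! Row 224 B: small balls give colourings (minimal separators); otherwise cubic growth. -/

set_option autoImplicit false

open Set Filter Pointwise

namespace Crest.Agent.R224

variable {Γ : Type} [Group Γ] [Cay Γ]

/-- points reachable from `x` by at most `n` steps of length `≤ D` inside `X` -/
def pball (D : ℕ) (X : Set Γ) (x : Γ) : ℕ → Set Γ
  | 0 => {x}
  | n + 1 => pball D X x n ∪ {z | ∃ y ∈ pball D X x n, Step D X y z}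

theorem pball_finite (D : ℕ) (X : Set Γ) (x : Γ) (n : ℕ) : (pball D X x n).Finite := sorry

/-- One separator step for finite `Y ⊆ X`.  Call `Z ⊆ Y` separating if each `D`-component of `Y \ Z` lies in
`pball D X x (6m)` for each of its points `x`.  Take `Z` separating of minimal cardinality.  For `x ∈ X`, `r < r' ≤ 3m`, the set
`(Z \ pball x (r'-1)) ∪ (Y ∩ sphere x r')` is separating too (components inside `pball x (r'-1)` are small, the others are
contained in old ones; `pball` is a ball of a graph metric), so `|Z ∩ pball x r| ≤ |Y ∩ sphere x r'|`; average over `r'`. -/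
theorem separator (D m : ℕ) {X Y : Set Γ} (hY : Y.Finite) (hYX : Y ⊆ X) :
    ∃ Z ⊆ Y, (∀ x, comp D (Y \ Z) x ⊆ pball D X x (6 * m)) ∧
      ∀ x ∈ X, ∀ r, r + m ≤ 3 * m →
        m * (Z ∩ pball D X x r).ncard ≤ (Y ∩ pball D X x (r + m)).ncard := sorry

/-- three separators `Y ⊇ Z₁ ⊇ Z₂ ⊇ Z₃ = ∅`; then compactness of `Γ → Fin 3` (or an ultrafilter limit of colourings
of `X ∩ ball 1 k`).  Components are coloured independently, with their own `m`. -/
theorem col3_of_small (D M : ℕ) {X : Set Γ}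
    (h : ∀ x ∈ X, ∃ m ≤ M, ∀ y ∈ comp D X x, (pball D X y (3 * m)).ncard < m ^ 3) :
    Col3 D (6 * M * D) X := sorry

/-- If no colouring exists, some `t ∈ T1 ∩ X` (replace `T1` by orbit representatives in `X`) has for every `m` a point `y` of its
component with `m³ ≤ |pball y (3m)|`.  With `S, T0` from `sm_gen` at `x0 = t`: `y = a * t'` with `a ∈ ⟨S⟩` and
`pball y k ⊆ a * S^k * T0`, so `m³ ≤ |T1| * |S^(3m)|`. -/
theorem growth_of_not_col (H : Subgroup Γ) {X : Set Γ} (hX : ∀ h ∈ H, ∀ x ∈ X, h * x ∈ X)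
    {T1 : Finset Γ} (hT : ∀ x ∈ X, ∃ h ∈ H, ∃ t ∈ T1, x = h * t) (D : ℕ) (hn : ∀ n, ¬ Col3 D n X) :
    ∃ (S : Finset Γ) (L : ℕ), (∀ s ∈ S, s ∈ H ∧ s⁻¹ ∈ S) ∧ 1 ∈ S ∧
      ∀ m : ℕ, m ^ 3 ≤ L * ((S : Set Γ) ^ (3 * m)).ncard := sorry

end Crest.Agent.R224
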