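import Crest.Agent.R224.BMet

/-! Row 224 B: consequences of `Coarse`. -/

set_option autoImplicit false

open Set Filter Pointwise

namespace Crest.Agent.R224

variable {Γ : Type} [Group Γ] [Cay Γ]

/-- `Fill 1` with `R' = 1` applied to `φ [x,y] = 1_A x + 1_A y` (supported within `R` of the wall): `1_A + η` is
constant along edges. -/
theorem oneEnd (hc : Coarse Γ) {A : Set Γ} (hA : (Wall A).Finite) : A.Finite ∨ Aᶜ.Finite := sorry

/-- curried form of `Fill 2` -/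
theorem fill2 (hc : Coarse Γ) (R' : ℕ) : ∃ R : ℕ, ∀ s : ℕ, ∃ ρ : ℕ, ∀ (x : Γ) (ψ : Γ → Γ → Γ → ZMod 2),
    (∀ a b c e, Sm R [a, b, c, e] → ψ b c e + ψ a c e + ψ a b e + ψ a b c = 0) →
    (∀ a b c, Sm R [a, b, c] → ψ a b c ≠ 0 → d x a ≤ s) →
    ∃ η : Γ → Γ → ZMod 2, (∀ a b c, Sm R' [a, b, c] → ψ a b c = η b c + η a c + η a b) ∧
      ∀ a b, η a b ≠ 0 → d x a ≤ ρ ∧ d x b ≤ ρ := sorry

/-- Part of a wall, exactly.  With `R₁` from `P1inf`, `R = 5 R₁ + 5`, `B = nbhd (2R₁) V`,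
`ω x y = (1_A x + 1_A y) 1_B x`: `δω (x,y,z) = (1_A y + 1_A z)(1_B x + 1_B y)`; if `y, z` are separated by `A`
there is `w ∈ Wall A` within `R₁` of `y` (`exists_cross`), and `x, y` are both in `B` (if `w ∈ V`) or both not. -/
theorem wall_part (hc : Coarse Γ) : ∃ R : ℕ, 1 ≤ R ∧ ∀ (A V : Set Γ), V ⊆ Wall A →
    (∀ v ∈ V, ∀ w ∈ Wall A, d v w ≤ R → w ∈ V) →
    ∃ D : Set Γ, ∀ x, ∀ t ∈ (Cay.T : Finset Γ), (Cross D x t ↔ Cross A x t ∧ x ∈ V) := sorry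

/-- take `V` a component in `wall_part`: `D` is constant on `A` and on `Aᶜ` -/
theorem wall_conn (hc : Coarse Γ) : ∃ R : ℕ, 1 ≤ R ∧ ∀ A : Set Γ, Conn 1 A → Conn 1 Aᶜ →
    Conn R (Wall A) := sorry

/-- Part of a wall, up to finitely many edges.  `R₁` from `P1inf`, `R₀ ≥ R₁` from `fill2` with `R' = R₁`,
`R = 5R₀+5`, `B = nbhd (2R₀) P`, `ω` as above: `δω` is a 2-cocycle which vanishes at scale `R₀` far from `K`;
fill it by `η` (finite), `ω + η` is a cocycle at scale `R₁`. -/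
theorem wall_piece (hc : Coarse Γ) : ∃ R : ℕ, 1 ≤ R ∧ ∀ (A K P : Set Γ), K.Finite → P ⊆ Wall A →
    (∀ v ∈ P, ∀ w ∈ Wall A, w ∉ K → d v w ≤ R → w ∈ P) →
    ∃ C : Set Γ, {x | ∃ t ∈ (Cay.T : Finset Γ), ¬ (Cross C x t ↔ Cross A x t ∧ x ∈ P)}.Finite := sorry

end Crest.Agent.R224
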