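import Crest.Agent.R224.ACore

/-! # Row 224, part B: definitions.  DO NOT CHANGE (owner helper97).

Overview of the proof (`no_ctx` in `BMain`): `Ctx Γ` packages the hypotheses (coarse fillings, a
nonconstant harmonic function of finite energy) and the objects built from them (a harmonic mean `m`,
free potentials `F y`, a countable invariant family `𝒜` of bounded "local" Dirichlet functions).
Points at infinity are functions `q : 𝒜 → ℝ`; a true cut at `q` is a straightened nontrivial set whose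
wall converges to `q`.  See the headers of the files `B*.lean`. -/

set_option autoImplicit false

open Set Filter Pointwise

namespace Crest.Agent.R224

variable {Γ : Type} [Group Γ] [Cay Γ]

/-- closed ball -/
def ball (x : Γ) (n : ℕ) : Set Γ := {y | d x y ≤ n}

/-- `R`-neighbourhood -/
def nbhd (R : ℕ) (A : Set Γ) : Set Γ := {y | ∃ x ∈ A, d x y ≤ R}

/-- an `R`-step inside `A` -/
def Step (R : ℕ) (A : Set Γ) (a b : Γ) : Prop := a ∈ A ∧ b ∈ A ∧ d a b ≤ R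

/-- `R`-connected (the empty set is connected) -/
def Conn (R : ℕ) (A : Set Γ) : Prop := ∀ x ∈ A, ∀ y ∈ A, Relation.ReflTransGen (Step R A) x y

/-- `R`-component of `x` in `A` (empty if `x ∉ A`) -/
def comp (R : ℕ) (A : Set Γ) (x : Γ) : Set Γ := {y | x ∈ A ∧ Relation.ReflTransGen (Step R A) x y}

/-- endpoints of edges leaving or entering `A` -/
def Wall (A : Set Γ) : Set Γ := {x | ∃ t ∈ (Cay.T : Finset Γ), ¬ (x ∈ A ↔ x * t ∈ A)}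

/-- the edge `x — x * t` crosses `A` -/
def Cross (A : Set Γ) (x t : Γ) : Prop := ¬ (x ∈ A ↔ x * t ∈ A)

/-- finite core: finitely many short pairs from `B` to the complement of `B'` -/
def FC (B B' : Set Γ) : Prop := ∀ R : ℕ, {p : Γ × Γ | p.1 ∈ B ∧ p.2 ∉ B' ∧ d p.1 p.2 ≤ R}.Finite

/-- nested sets -/
def Nested (A B : Set Γ) : Prop := A ⊆ B ∨ B ⊆ A ∨ A ∩ B = ∅ ∨ A ∪ B = univ

/-- gradient -/
def grad (f : Γ → ℝ) (p : Γ × (Cay.T : Finset Γ)) : ℝ := f (p.1 * (p.2 : Γ)) - f p.1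

/-- finite energy -/
def Dir (f : Γ → ℝ) : Prop := Summable fun p => grad f p ^ 2

/-- energy -/
noncomputable def En (f : Γ → ℝ) : ℝ := ∑' p, grad f p ^ 2

/-- energy pairing -/
noncomputable def ip (f g : Γ → ℝ) : ℝ := ∑' p, grad f p * grad g p

/-- left translate -/
def tr (γ : Γ) (f : Γ → ℝ) : Γ → ℝ := fun x => f (γ⁻¹ * x)

/-- harmonic -/
def Harm (f : Γ → ℝ) : Prop :=
  ∀ x, ∑ t ∈ (Cay.T : Finset Γ), f (x * t) = ((Cay.T : Finset Γ).card : ℝ) * f x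

/-- bounded -/
def Bdd (f : Γ → ℝ) : Prop := ∃ M : ℝ, ∀ x, |f x| ≤ M

/-- "local": all strict sublevel and superlevel sets are connected -/
def Loc (g : Γ → ℝ) : Prop := ∀ t : ℝ, Conn 1 {x | g x < t} ∧ Conn 1 {x | t < g x}

/-- total variation of `g` on the `R`-ball around `x`, seen from `x` -/
noncomputable def wv (R : ℕ) (g : Γ → ℝ) (x : Γ) : ℝ :=
  ∑ᶠ u ∈ ball (1 : Γ) R, |g (x * u) - g x|

/-- Poincaré inequality (nonamenability) -/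
def Poin (Γ : Type) [Group Γ] [Cay Γ] : Prop :=
  ∃ C : ℝ, ∀ u : Γ → ℝ, (Function.support u).Finite → ∑' x, u x ^ 2 ≤ C * En u

/-- Sobolev inequality at the identity for steps in `S` (transience of `⟨S⟩`) -/
def Sob (S : Finset Γ) : Prop :=
  ∃ C : ℝ, ∀ u : Γ → ℝ, (Function.support u).Finite →
    u 1 ^ 2 ≤ C * ∑' x, ∑ s ∈ S, (u (x * s) - u x) ^ 2

/-- a harmonic, equivariant family of means on bounded functions -/
structure Mean (Γ : Type) [Group Γ] [Cay Γ] where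
  m : Γ → (Γ → ℝ) → ℝ
  add : ∀ x φ ψ, Bdd φ → Bdd ψ → m x (φ + ψ) = m x φ + m x ψ
  smul : ∀ x (c : ℝ) φ, Bdd φ → m x (c • φ) = c * m x φ
  mono : ∀ x φ ψ, Bdd φ → Bdd ψ → φ ≤ ψ → m x φ ≤ m x ψ
  const : ∀ x (c : ℝ), m x (fun _ => c) = c
  harm : ∀ φ, Bdd φ → Harm fun x => m x φ
  fix : ∀ x φ, Bdd φ → Harm φ → m x φ = φ x
  equiv : ∀ γ x φ, m (γ * x) (tr γ φ) = m x φ
  est : ∀ φ, Bdd φ → Dir φ → Summable fun y => (m y fun z => |φ z - φ y|) ^ 2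
  fin : ∀ x φ, Bdd φ → (Function.support φ).Finite → m x φ = 0

/-- free potentials -/
structure IsPot (F : Γ → Γ → ℝ) : Prop where
  dir : ∀ y, Dir (F y)
  one : ∀ y, F y 1 = 0
  rep : ∀ y g, Dir g → ip g (F y) = g y - g 1

/-- component of `y0` in `{g < l} \ K` -/
def thS (g : Γ → ℝ) (K : Set Γ) (y0 : Γ) (l : ℝ) : Set Γ := comp 1 ({x | g x < l} \ K) y0

/-- component of `y1` in the complement of `thS` -/
def thR (g : Γ → ℝ) (K : Set Γ) (y0 y1 : Γ) (l : ℝ) : Set Γ := comp 1 (thS g K y0 l)ᶜ y1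

/-- the unfolded function: the last level at which `y` is on the side of `y1` -/
noncomputable def theta (g : Γ → ℝ) (K : Set Γ) (y0 y1 : Γ) (l1 l2 : ℝ) (y : Γ) : ℝ :=
  sSup (insert l1 {l | l1 ≤ l ∧ l ≤ l2 ∧ y ∈ thR g K y0 y1 l})

/-- the standing hypotheses and objects of part B -/
class Ctx (Γ : Type) [Group Γ] [Cay Γ] where
  inf : Infinite Γ
  coarse : Coarse Γ
  nc : ∃ h : Γ → ℝ, Harm h ∧ Dir h ∧ ∃ x, h x ≠ h 1
  mean : Mean Γ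
  rk : Γ → ℕ
  rk_inj : Function.Injective rk
  rk_one : rk 1 = 0
  F : Γ → Γ → ℝ
  pot : IsPot F
  𝒜 : Set (Γ → ℝ)
  cnt : 𝒜.Countable
  bdd : ∀ g ∈ 𝒜, Bdd g
  dir : ∀ g ∈ 𝒜, Dir g
  loc : ∀ g ∈ 𝒜, Loc g
  neg : ∀ g ∈ 𝒜, -g ∈ 𝒜
  trans : ∀ g ∈ 𝒜, ∀ γ, tr γ g ∈ 𝒜
  potA : ∀ y, F y ∈ 𝒜
  thetaA : ∀ g ∈ 𝒜, ∀ (K : Finset Γ) (y0 y1 : Γ) (l1 l2 : ℚ), l1 < l2 → g y0 < l1 → y0 ∉ K →
    y1 ∉ thS g K y0 l2 → theta g K y0 y1 l1 l2 ∈ 𝒜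

variable [Ctx Γ]

/-- the family of test functions -/
abbrev AA (Γ : Type) [Group Γ] [Cay Γ] [Ctx Γ] : Set (Γ → ℝ) := Ctx.𝒜

/-- the mean -/
noncomputable abbrev mn (x : Γ) (φ : Γ → ℝ) : ℝ := (Ctx.mean (Γ := Γ)).m x φ

/-- harmonic measure of a set -/
noncomputable def hm (A : Set Γ) (x : Γ) : ℝ := mn x (A.indicator fun _ => 1)

/-- straightening (ties are broken lexicographically along `rk`) -/
def St (A : Set Γ) : Set Γ :=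
  {x | ∃ u, 1 / 2 < hm A (x * u) ∧ ∀ v, Ctx.rk v < Ctx.rk u → hm A (x * v) = 1 / 2}

/-- regular sets -/
def Reg (A : Set Γ) : Prop := ∀ x, mn x (fun z => |A.indicator (fun _ => (1 : ℝ)) z - hm A z|) = 0

/-- points at infinity -/
def Pt (Γ : Type) [Group Γ] [Cay Γ] [Ctx Γ] : Type := AA Γ → ℝ

/-- translate of a point -/
def actP (γ : Γ) (q : Pt Γ) : Pt Γ := fun g => q ⟨tr γ⁻¹ g.1, Ctx.trans _ g.2 _⟩

/-- `W` converges to `q` (vacuous for finite `W`) -/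
def Conv (W : Set Γ) (q : Pt Γ) : Prop :=
  ∀ (g : AA Γ) (ε : ℝ), 0 < ε → {x | x ∈ W ∧ ε ≤ |g.1 x - q g|}.Finite

/-- `q` lies on the side `C` -/
def In (C : Set Γ) (q : Pt Γ) : Prop := ∀ W, Conv W q → (W \ C).Finite

/-- true cut at `q` -/
structure TC (q : Pt Γ) (c : Set Γ) : Prop where
  st : St c = c
  conv : Conv (Wall c) q
  pos : ∃ x, 0 < hm c x
  lt : ∃ x, hm c x < 1

/-- cut points -/
def QQ (Γ : Type) [Group Γ] [Cay Γ] [Ctx Γ] : Set (Pt Γ) := {q | ∃ c, TC q c}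

/-- union of the walls of all true cuts at `q` -/
def VV (q : Pt Γ) : Set Γ := {x | ∃ c, TC q c ∧ x ∈ Wall c}

/-- far side of `q` seen from `p` -/
def Fs (q p : Pt Γ) : Set Γ := {x | ∃ c, TC q c ∧ In cᶜ p ∧ x ∈ c}

/-- the nested family -/
def NN (Γ : Type) [Group Γ] [Cay Γ] [Ctx Γ] : Set (Set Γ) :=
  {N | ∃ q ∈ QQ Γ, ∃ p ∈ QQ Γ, q ≠ p ∧ (N = Fs q p ∨ N = (Fs q p)ᶜ)}

/-- `r` separates `p` from `q` -/
def Sep (r p q : Pt Γ) : Prop := ∃ c, TC r c ∧ In c p ∧ In cᶜ q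

/-- uniform nullity: along the walls, Dirichlet functions converge uniformly -/
def UN (Γ : Type) [Group Γ] [Cay Γ] [Ctx Γ] : Prop :=
  ∃ val : Pt Γ → (Γ → ℝ) → ℝ, (∀ q ∈ QQ Γ, ∀ g : AA Γ, val q g.1 = q g) ∧
    ∀ g, Dir g → ∀ ε : ℝ, 0 < ε → {x | ∃ q ∈ QQ Γ, x ∈ VV q ∧ ε ≤ |g x - val q g|}.Finite

/-- a family of disjoint far sides such that every true cut (or its complement) lies in one of them -/
structure IsAdj (𝒥 : Set (Set Γ)) (pt : Set Γ → Pt Γ) : Prop where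
  mem : ∀ F ∈ 𝒥, F ∈ NN Γ
  tc : ∀ F ∈ 𝒥, TC (pt F) F
  disj : ∀ F ∈ 𝒥, ∀ F' ∈ 𝒥, F ≠ F' → Disjoint F F' ∧ pt F ≠ pt F'
  atom : ∀ q c, TC q c → ∃ F ∈ 𝒥, c ⊆ F ∨ cᶜ ⊆ F
  two : 𝒥 = ∅ ∨ ∃ F ∈ 𝒥, ∃ F' ∈ 𝒥, F ≠ F'

/-- points outside all far sides or on one of their walls -/
def Om1 (𝒥 : Set (Set Γ)) : Set Γ := {y | (∀ F ∈ 𝒥, y ∉ F) ∨ ∃ F ∈ 𝒥, y ∈ Wall F}

/-- seen from `y`, `C` is big, even after removing one far side -/
def Big (𝒥 : Set (Set Γ)) (δ : ℝ) (y : Γ) (C : Set Γ) : Prop :=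
  δ ≤ hm C y ∧ ∀ F ∈ 𝒥, δ ≤ hm (C \ F) y

/-- relative hole -/
def Hole (𝒥 : Set (Set Γ)) (δ : ℝ) (y : Γ) (C : Set Γ) : Prop := Big 𝒥 δ y C ∧ Big 𝒥 δ y Cᶜ

/-- saturated -/
def Sat (𝒥 : Set (Set Γ)) (C : Set Γ) : Prop := ∀ F ∈ 𝒥, F ⊆ C ∨ Disjoint F C

/-- saturation -/
def flat (𝒥 : Set (Set Γ)) (pt : Set Γ → Pt Γ) (C : Set Γ) : Set Γ :=
  {y | ((∀ F ∈ 𝒥, y ∉ F) ∧ y ∈ C) ∨ ∃ F ∈ 𝒥, In C (pt F) ∧ y ∈ F}

/-- relative straightening -/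
def sharp (𝒥 : Set (Set Γ)) (δ : ℝ) (C : Set Γ) : Set Γ :=
  {y | ((∀ F ∈ 𝒥, y ∉ F) ∧ Big 𝒥 δ y C) ∨ ∃ F ∈ 𝒥, F ⊆ C ∧ y ∈ F}

/-- far along the wall of `F`, bigness of `C` is decided by the side of `F` -/
def Tame (𝒥 : Set (Set Γ)) (δ : ℝ) (C F : Set Γ) : Prop :=
  {z | z ∈ Wall F ∧ ¬ (Big 𝒥 δ z C ↔ F ⊆ C)}.Finite

/-- the constants used in the end game: `δ` for bigness, `δ'` for holes, `R` for walls -/
structure Consts (𝒥 : Set (Set Γ)) (δ δ' : ℝ) (R : ℕ) : Prop where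
  pos : 0 < δ'
  le : δ' ≤ δ
  one : 1 ≤ R
  dich : ∀ y ∈ Om1 𝒥, ∀ C, Big 𝒥 δ y C ∨ Big 𝒥 δ y Cᶜ
  harn : ∀ y y' C, d y y' ≤ R → Big 𝒥 δ y' C → Big 𝒥 δ' y C
  winf : ∀ N ∈ NN Γ, ∀ x ∈ Wall N, (comp R (Wall N) x).Infinite

end Crest.Agent.R224
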