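import Crest.Agent.R224.BEnr0

/-! Row 224 B: energy API (sums over `Γ × T`; Cauchy-Schwarz for `tsum`: `2|ab| ≤ a²+b²` for
summability, `Real.inner_le_Lp_mul_Lq_tsum`-type or `lp`/discriminant argument for the bound). -/

set_option autoImplicit false

open Set Filter Pointwise

namespace Crest.Agent.R224

variable {Γ : Type} [Group Γ] [Cay Γ]

/-- harmonic functions are orthogonal to `ℓ²` (finite support: summation by parts, using the symmetry of
`T`; then truncate `u`, `En v ≤ 4 |T| ∑ v²`) -/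
theorem ip_harm_sq {h u : Γ → ℝ} (hh : Harm h) (hd : Dir h) (hu : Summable fun x => u x ^ 2) :
    ip h u = 0 := sorry
/-- conversely -/
theorem harm_of_ip {h : Γ → ℝ} (hd : Dir h)
    (H : ∀ u : Γ → ℝ, (Function.support u).Finite → ip h u = 0) : Harm h := sorry
theorem wv_nonneg (R : ℕ) (g : Γ → ℝ) (x : Γ) : 0 ≤ wv R g x := sorry
theorem le_wv {R : ℕ} (g : Γ → ℝ) {x y : Γ} (h : d x y ≤ R) : |g y - g x| ≤ wv R g x := sorry
theorem wv_tr (R : ℕ) (g : Γ → ℝ) (γ x : Γ) : wv R (tr γ g) x = wv R g (γ⁻¹ * x) := sorry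
/-- for each `u`, `x ↦ g (x u) - g x` is square summable (induction on a word for `u`) -/
theorem Dir.summable_shift {g : Γ → ℝ} (hg : Dir g) (u : Γ) :
    Summable fun x => (g (x * u) - g x) ^ 2 := sorry
theorem Dir.summable_wv {g : Γ → ℝ} (hg : Dir g) (R : ℕ) : Summable fun x => wv R g x ^ 2 := sorry
theorem Dir.far {g : Γ → ℝ} (hg : Dir g) (R : ℕ) {ε : ℝ} (hε : 0 < ε) :
    {x | ∃ y, d x y ≤ R ∧ ε ≤ |g y - g x|}.Finite := sorry
theorem shift_le (u : Γ) : ∃ C : ℝ, ∀ g : Γ → ℝ, Dir g →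
    ∑' x, (g (x * u) - g x) ^ 2 ≤ C * En g := sorry
/-- matrix coefficients of the regular representation vanish at infinity (split both functions into a
finite part and a small tail) -/
theorem mixing {a b : Γ → ℝ} (ha : Summable fun x => a x ^ 2) (hb : Summable fun x => b x ^ 2)
    {ε : ℝ} (hε : 0 < ε) : {γ : Γ | ε ≤ ∑' x, |a x| * |b (γ⁻¹ * x)|}.Finite := sorry
theorem ip_mixing {f g : Γ → ℝ} (hf : Dir f) (hg : Dir g) {ε : ℝ} (hε : 0 < ε) :
    {γ : Γ | ε ≤ |ip (tr γ f) g|}.Finite := sorry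

end Crest.Agent.R224
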