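import Crest.Agent.R224.BMet

/-! Row 224 B: energy API (sums over `Γ × T`; Cauchy-Schwarz for `tsum`: `2|ab| ≤ a²+b²` for
summability, `Real.inner_le_Lp_mul_Lq_tsum`-type or `lp`/discriminant argument for the bound). -/

set_option autoImplicit false

open Set Filter Pointwise

namespace Crest.Agent.R224

variable {Γ : Type} [Group Γ] [Cay Γ]

theorem Dir.add {f g : Γ → ℝ} (hf : Dir f) (hg : Dir g) : Dir (f + g) := sorry
theorem Dir.neg {f : Γ → ℝ} (hf : Dir f) : Dir (-f) := sorry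
theorem Dir.sub {f g : Γ → ℝ} (hf : Dir f) (hg : Dir g) : Dir (f - g) := sorry
theorem Dir.smul {f : Γ → ℝ} (hf : Dir f) (c : ℝ) : Dir (c • f) := sorry
theorem dir_const (c : ℝ) : Dir (fun _ : Γ => c) := sorry
theorem Dir.tr {f : Γ → ℝ} (hf : Dir f) (γ : Γ) : Dir (tr γ f) := sorry
theorem dir_of_sq {u : Γ → ℝ} (hu : Summable fun x => u x ^ 2) : Dir u := sorry
theorem dir_of_finite {u : Γ → ℝ} (hu : (Function.support u).Finite) : Dir u := sorry
/-- comparison off a finite set -/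
theorem Dir.of_le {f g : Γ → ℝ} (hg : Dir g) (L : ℝ) {K : Set Γ} (hK : K.Finite)
    (h : ∀ x, x ∉ K → ∀ t ∈ (Cay.T : Finset Γ), |f (x * t) - f x| ≤ L * |g (x * t) - g x|) :
    Dir f := sorry
theorem Dir.sup' {ι : Type} {J : Finset ι} (hJ : J.Nonempty) {g : ι → Γ → ℝ} (h : ∀ i ∈ J, Dir (g i)) :
    Dir fun x => J.sup' hJ fun i => g i x := sorry
theorem Dir.abs {f : Γ → ℝ} (hf : Dir f) : Dir fun x => |f x| := sorry
/-- the cut-off function of the `K`-lemma -/
theorem dir_cut {g : Γ → ℝ} (hg : Dir g) {C : Set Γ} {β ε : ℝ} (hε : 0 < ε)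
    (hC : {x | x ∈ Wall C ∧ g x < β}.Finite) :
    Dir (C.indicator fun x => min (max (β - g x) 0) ε) := sorry
theorem summable_ip {f g : Γ → ℝ} (hf : Dir f) (hg : Dir g) :
    Summable fun p => grad f p * grad g p := sorry
theorem ip_comm (f g : Γ → ℝ) : ip f g = ip g f := sorry
theorem ip_self (f : Γ → ℝ) : ip f f = En f := sorry
theorem En_nonneg (f : Γ → ℝ) : 0 ≤ En f := sorry
theorem ip_add_left {f g h : Γ → ℝ} (hf : Dir f) (hg : Dir g) (hh : Dir h) :
    ip (f + g) h = ip f h + ip g h := sorry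
theorem ip_sub_left {f g h : Γ → ℝ} (hf : Dir f) (hg : Dir g) (hh : Dir h) :
    ip (f - g) h = ip f h - ip g h := sorry
theorem ip_smul_left (c : ℝ) (f h : Γ → ℝ) : ip (c • f) h = c * ip f h := sorry
theorem ip_const_left (c : ℝ) (h : Γ → ℝ) : ip (fun _ => c) h = 0 := sorry
theorem ip_sq_le {f g : Γ → ℝ} (hf : Dir f) (hg : Dir g) : ip f g ^ 2 ≤ En f * En g := sorry
theorem ip_tr (γ : Γ) (f g : Γ → ℝ) : ip (tr γ f) (tr γ g) = ip f g := sorry
theorem En_tr (γ : Γ) (f : Γ → ℝ) : En (tr γ f) = En f := sorry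
theorem tr_tr (γ γ' : Γ) (f : Γ → ℝ) : tr γ (tr γ' f) = tr (γ * γ') f := sorry
theorem tr_one (f : Γ → ℝ) : tr 1 f = f := sorry
theorem const_of_En {f : Γ → ℝ} (hf : Dir f) (h : En f = 0) (x : Γ) : f x = f 1 := sorry

end Crest.Agent.R224
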