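import Crest.Agent.R224.BMet

/-! Row 224 B: an essential wall has no 3-colouring with bounded components (Čech zig-zag). -/

set_option autoImplicit false

open Set Filter Pointwise

namespace Crest.Agent.R224

variable {Γ : Type} [Group Γ] [Cay Γ]

/-- colourings of `X` whose monochromatic `D`-components have diameter at most `n` -/
def Col3 (D n : ℕ) (X : Set Γ) : Prop :=
  ∃ χ : Γ → Fin 3, ∀ i, ∀ x, comp D (X ∩ {y | χ y = i}) x ⊆ ball x n

/-- Scales: `Ra` from `Fill 1` with `R' = 1`, `Rb` from `Fill 2` with `R' = Ra`, `R` from `Fill 3` with `R' = Rb` (we may assume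
`1 ≤ Ra ≤ Rb ≤ R`), `D = 40R+40` (constants indicative).  Index set `I` = monochromatic `D`-components `U` of `Wall A`; `ι x ∈ I` the component of
a wall point within `5R` of `x` (if any), `χ_U l = 1` iff `ι (head l) = U`.  Families `a : Finset I → List Γ → ZMod 2`,
`(∂a) τ l = ∑ᶠ i ∉ τ, a (insert i τ) l`, `(h a) σ l = ∑_{i ∈ σ} χ_i l * a (σ.erase i) l`; `∂h + h∂ = id` on `R`-small lists whose
head is within `5R` of the wall.  `ω l = 1_A l₀ + 1_A l₁` placed at `σ = ∅`; `ω⁰ = hω`, `ω¹ = h δω⁰`, `ω² = h δω¹`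
(all truncated to `R`-small lists) satisfy `∂ω⁰ = ω`, `∂ω¹ = δω⁰`, `∂ω² = δω¹`; `ω^j σ l ≠ 0` forces every `U ∈ σ` to come within
`9R` of the head of `l`, so the members of `σ` have different colours; `h δω² = 0` (no 4 colours) and `∂δω² = 0` give
`δω² = 0`.  Fill each `ω² σ = δη² σ` (`Fill 3`, support near the bounded set `U ∈ σ`; `η² σ = 0` unless the members of `σ` are
within `18R` of each other), then `ω¹ + ∂η² = δη¹` (`Fill 2`), `ω⁰ + ∂η¹ = δη⁰` (`Fill 1`), and `ω = δ(∂η⁰)` on edges, with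
`∂η⁰` supported within `ρ` of the wall.  So `1_A + ∂η⁰` is constant.  (An equivalent formulation with the three colours
written out, indices `U`, `(U,V)`, `(U,V,W)`, is fine.) -/
theorem essential (hc : Coarse Γ) : ∃ D : ℕ, 1 ≤ D ∧ ∀ n : ℕ, ∃ ρ : ℕ, ∀ A : Set Γ,
    Col3 D n (Wall A) → A ⊆ nbhd ρ (Wall A) ∨ Aᶜ ⊆ nbhd ρ (Wall A) := sorry

end Crest.Agent.R224
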