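import Crest.Agent.R224.BCor
import Crest.Agent.R224.BEnr

/-! Row 224 B: coarea and the Far lemma. -/

set_option autoImplicit false

open Set Filter Pointwise

namespace Crest.Agent.R224

variable {Γ : Type} [Group Γ] [Cay Γ]

open MeasureTheory in
/-- `x ∈ Wall {g < l}` forces `l` into an interval with endpoints `g x`, `g (x t)`; the set of such `l` has measure at most
`∑_t |g (x t) - g x| ≤ wv 1 g x`; `lintegral_tsum`. -/
theorem coarea (g : Γ → ℝ) (w : Γ → ℝ) (hw : ∀ x, 0 ≤ w x) :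
    ∫⁻ l : ℝ, ∑' x : Γ, (Wall {y | g y < l}).indicator (fun x => ENNReal.ofReal (w x)) x ≤
      ∑' x : Γ, ENNReal.ofReal (wv 1 g x * w x) := sorry

/-- a good level with small total weight on the wall (Markov; countable sets are null) -/
theorem exists_level {g w : Γ → ℝ} (hw : ∀ x, 0 ≤ w x) (hs : Summable fun x => wv 1 g x * w x)
    {a b η : ℝ} (hab : a < b) (hη : ∑' x, wv 1 g x * w x < η * (b - a)) {Z : Set ℝ} (hZ : Z.Countable) :
    ∃ l ∈ Ioo a b, l ∉ Z ∧ ∀ J : Finset Γ, (∀ x ∈ J, x ∈ Wall {y | g y < l}) → ∑ x ∈ J, w x ≤ η := sorry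

/-- a good level for countably many weights at once -/
theorem exists_level' {g : Γ → ℝ} (hg : Dir g) {𝒜 : Set (Γ → ℝ)} (hc : 𝒜.Countable)
    (hd : ∀ f ∈ 𝒜, Dir f) (R : ℕ) {a b : ℝ} (hab : a < b) {Z : Set ℝ} (hZ : Z.Countable) :
    ∃ l ∈ Ioo a b, l ∉ Z ∧ ∀ f ∈ 𝒜, Summable ((Wall {y | g y < l}).indicator (wv R f)) := sorry

/-- oscillation on a connected set is bounded by the total variation (take a path without repetitions) -/
theorem osc_le {R : ℕ} {W : Set Γ} (hW : Conn R W) {f : Γ → ℝ} {η : ℝ}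
    (h : ∀ J : Finset Γ, (∀ x ∈ J, x ∈ W) → ∑ x ∈ J, wv R f x ≤ η) {x y : Γ} (hx : x ∈ W) (hy : y ∈ W) :
    |f x - f y| ≤ η := sorry

/-- Far lemma.  `G = tr γ g₁`, `o = G 1`.  If `{β ≤ g}` is empty only the ball matters (`Dir.far`).  Let `K₀` be a finite connected
set joining a point of `{g < α}` to a point of `{β ≤ g}`, `B ⊇ K₀ ∪ ball 1 D` a ball around `1`; `K₁` contains one point of each nonempty set
`{t < g₁}`, `{g₁ < t}`, `t ∈ (ε/4)ℤ` bounded.  For `γ` outside a finite set: `|G - o| < ε/8` on `B`, `g < (α+β)/2` on `γ K₁`, and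
(`mixing`, `exists_level`) there is `l ∈ ((α+β)/2, β)` outside the range of `g` with `∑ wv R G ≤ ε/8` on `W = Wall {g < l}`, which is
`R`-connected (`wall_conn`) and meets `K₀`; so `|G - o| ≤ ε/4` on `W`.  If `β ≤ g z`, `o + ε ≤ G z`, take `t` in the grid with
`o + ε/4 < t < o + ε`: the connected set `{t < G}` contains `z` and a point of `γ K₁`, hence meets `W`. -/
theorem far (hc : Coarse Γ) {g g₁ : Γ → ℝ} (hg : Dir g) (hl : Loc g) (hg₁ : Dir g₁) (hl₁ : Loc g₁)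
    (hb₁ : Bdd g₁) {α β ε : ℝ} (hαβ : α < β) (hε : 0 < ε) (D : ℕ) :
    ∃ Λ : ℕ, ∀ γ : Γ, Λ ≤ d 1 γ → g γ < α → ∀ z, (β ≤ g z ∨ d 1 z ≤ D) →
      |g₁ (γ⁻¹ * z) - g₁ γ⁻¹| < ε := sorry

end Crest.Agent.R224
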