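import Crest.Agent.R224.BMain

/-! Row 224 B: the group-theoretic theorem in the form of the statement. -/

set_option autoImplicit false

open Set Filter Pointwise

namespace Crest.Agent.R224

variable {Γ : Type} [Group Γ] [Cay Γ]

theorem approx_of_coarse (hc : Coarse Γ) {f : Γ → ℝ} (hf : Dir f) {ε : ℝ} (hε : 0 < ε) :
    ∃ u : Γ → ℝ, (Function.support u).Finite ∧ En (f - u) < ε := by
  rcases finite_or_infinite Γ with hΓ | hΓ
  · exact ⟨f, Set.toFinite _, by simpa [En, grad] using hε⟩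
  · refine approx_of_const (fun h hh hd x => ?_) hf hε
    by_contra hx
    obtain ⟨C⟩ := exists_ctx hc ⟨h, hh, hd, x, hx⟩
    exact no_ctx Γ

omit [Cay Γ] in
/-- `T = S ∪ S⁻¹` (`Subgroup.closure_induction` or `Subgroup.mem_closure_iff...` for `gen`); the `T`-energy is at most twice the
`S`-energy (reindex `x ↦ x s⁻¹`), the `S`-energy is at most the `T`-energy. -/
theorem final (hc : ∀ _ : Cay Γ, Coarse Γ) (S : Finset Γ) (hS : Subgroup.closure (S : Set Γ) = ⊤)
    (f : Γ → ℝ) (hf : Summable fun p : Γ × S => (f (p.1 * (p.2 : Γ)) - f p.1) ^ 2)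
    (ε : ℝ) (hε : 0 < ε) :
    ∃ u : Γ → ℝ, (Function.support u).Finite ∧
      ∃ E : ℝ, HasSum (fun p : Γ × S => ((f - u) (p.1 * (p.2 : Γ)) - (f - u) p.1) ^ 2) E ∧ E < ε := sorry

end Crest.Agent.R224
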