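import Crest.Agent.R224.BAdj

/-! Row 224 B: saturation and relative straightening. -/

set_option autoImplicit false

open Set Filter Pointwise

namespace Crest.Agent.R224

variable {Γ : Type} [Group Γ] [Cay Γ] [Ctx Γ]

variable {𝒥 : Set (Set Γ)} {pt : Set Γ → Pt Γ} {δ δ' : ℝ} {R : ℕ}

theorem sat_flat (h : IsAdj 𝒥 pt) (C : Set Γ) : Sat 𝒥 (flat 𝒥 pt C) := sorry
theorem flat_empty (C : Set Γ) : flat ∅ pt C = C := sorry
theorem subset_flat (h : IsAdj 𝒥 pt) {C F : Set Γ} (hF : F ∈ 𝒥) :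
    F ⊆ flat 𝒥 pt C ↔ In C (pt F) := sorry
/-- An edge crossing `flat C` either crosses `C` or has an endpoint `z ∈ F ∩ Wall F` with `¬ (z ∈ C ↔ In C (pt F))`.  By `un` for `g`,
`pt F g < (β₁+β₂)/2` up to finitely many `z`; then `nprime` applies, and `un` for `φ = dir_cut` (whose limit `val` along `VV (pt F)` is
determined by the side) leaves finitely many `z`. -/
theorem wall_flat (h : IsAdj 𝒥 pt) (g : AA Γ) {C : Set Γ} {β₁ β₂ : ℝ} (hβ : β₂ < β₁)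
    (hC : {x | x ∈ Wall C ∧ g.1 x < β₁}.Finite) :
    {x | x ∈ Wall (flat 𝒥 pt C) ∧ g.1 x < β₂}.Finite := sorry
/-- on `Om1`, where `hm C` is close to `1_C`, bigness is membership -/
theorem big_iff (hc : Consts 𝒥 δ δ' R) {C : Set Γ} {z : Γ} (hz : z ∈ Om1 𝒥)
    (h : |C.indicator (fun _ => (1 : ℝ)) z - hm C z| < δ) : Big 𝒥 δ z C ↔ z ∈ C := sorry
/-- `K_lemma`, `big_iff`; a wall point of `F` off `Wall C` is on the same side of `C` as `F` -/
theorem tame_of (h : IsAdj 𝒥 pt) (hc : Consts 𝒥 δ δ' R) (g : AA Γ) {C F : Set Γ} {β : ℝ} (hs : Sat 𝒥 C)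
    (hC : {x | x ∈ Wall C ∧ g.1 x < β}.Finite) (hF : F ∈ 𝒥) (hq : pt F g < β) : Tame 𝒥 δ C F := sorry
theorem sharp_diff (h : IsAdj 𝒥 pt) (hc : Consts 𝒥 δ δ' R) {g : Γ → ℝ} (hg : Dir g) {C : Set Γ} {β₁ β₂ : ℝ}
    (hβ : β₂ < β₁) (hs : Sat 𝒥 C) (hC : {x | x ∈ Wall C ∧ g x < β₁}.Finite) :
    {x | x ∈ symmDiff (sharp 𝒥 δ C) C ∧ g x ≤ β₂}.Finite := sorry

/-- Wall of the relative straightening.  `K'` does not depend on `𝒥`'s position: it is stated for every centre `x₀`.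
View from `x₀`.  Let `K₁ ⊇ K` also contain the exceptional sets of `un` (for `g, ε`) and of `Dir.far g R ε`, `B` a ball around `1`
containing `nbhd R K₁`, and `K'` the 1-neighbourhood of the union of `B` and of all finite `R`-components of `Wall N \ B`, over the finitely many `N ∈ NN`
whose wall meets `nbhd R B` and whose component is adjacent to `B` (`NN_locFin`, `comp_diff_near`).  An edge crossing `sharp C` has both ends in
`Om1`; either bigness changes along it (a hole at one end, `Consts.dich`, `harn`), or one end `z ∈ F ∩ Wall F` has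
`¬ (Big z C ↔ F ⊆ C)`.  If `F` is tame and the `R`-component `U` of `z` in `Wall F \ x₀B` is infinite, bigness changes inside `U`
(`Conn.exists_change`): a hole `y' ∈ U`, and `G z ≈ val ≈ G y' ≈ o` by `un`; if `U` is finite, `z ∈ x₀K'` (`Consts.winf`). -/
theorem wall_sharp (h : IsAdj 𝒥 pt) (hc : Consts 𝒥 δ δ' R) (g : AA Γ) {ε : ℝ} (hε : 0 < ε)
    {K : Set Γ} (hK : K.Finite) : ∃ K' : Set Γ, K'.Finite ∧ ∀ (x₀ : Γ) (o : ℝ) (C : Set Γ),
      (∀ y, Hole 𝒥 δ' y C → x₀⁻¹ * y ∉ K → |g.1 (x₀⁻¹ * y) - o| < ε) →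
      (∀ F ∈ 𝒥, Tame 𝒥 δ C F ∨ ∀ z ∈ Wall F, x₀⁻¹ * z ∉ K → |g.1 (x₀⁻¹ * z) - o| < ε) →
      ∀ z ∈ Wall (sharp 𝒥 δ C), x₀⁻¹ * z ∉ K' → |g.1 (x₀⁻¹ * z) - o| < 4 * ε := sorry

end Crest.Agent.R224
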