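import Crest.Agent.R224.BEnr

/-! Row 224 B: harmonic functions (easy) and the Cheeger inequality. -/

set_option autoImplicit false

open Set Filter Pointwise

namespace Crest.Agent.R224

variable {Γ : Type} [Group Γ] [Cay Γ]

theorem Harm.add {f g : Γ → ℝ} (hf : Harm f) (hg : Harm g) : Harm (f + g) := sorry
theorem Harm.smul {f : Γ → ℝ} (hf : Harm f) (c : ℝ) : Harm (c • f) := sorry
theorem Harm.const_sub {f : Γ → ℝ} (hf : Harm f) (c : ℝ) : Harm fun x => c - f x := sorry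
theorem harm_const (c : ℝ) : Harm fun _ : Γ => c := sorry
theorem Harm.tr {f : Γ → ℝ} (hf : Harm f) (γ : Γ) : Harm (tr γ f) := sorry
theorem harm_of_tendsto {ι : Type} {l : Filter ι} [l.NeBot] {f : ι → Γ → ℝ} {g : Γ → ℝ}
    (hf : ∀ i, Harm (f i)) (h : ∀ x, Tendsto (fun i => f i x) l (nhds (g x))) : Harm g := sorry
/-- maximum principle on a finite set: a maximum `> s` would propagate along edges to all of `Γ` -/
theorem maxP [Infinite Γ] {h : Γ → ℝ} {U : Set Γ} (hU : U.Finite) {s : ℝ}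
    (hh : ∀ x ∈ U, ∑ t ∈ (Cay.T : Finset Γ), h (x * t) = ((Cay.T : Finset Γ).card : ℝ) * h x)
    (hb : ∀ x ∈ U, ∀ t ∈ (Cay.T : Finset Γ), x * t ∉ U → h (x * t) ≤ s) :
    ∀ x ∈ U, h x ≤ s := sorry
theorem harnack [Infinite Γ] {h : Γ → ℝ} (hh : Harm h) (h0 : ∀ x, 0 ≤ h x) {x y : Γ} {R : ℕ}
    (hd : d x y ≤ R) : h x ≤ ((Cay.T : Finset Γ).card : ℝ) ^ R * h y := sorry
theorem harm_eq_zero [Infinite Γ] {h : Γ → ℝ} (hh : Harm h) (h0 : ∀ x, 0 ≤ h x) {x : Γ}
    (hx : h x = 0) (y : Γ) : h y = 0 := sorry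
theorem comp_lt_infinite [Infinite Γ] {h : Γ → ℝ} (hh : Harm h) {s : ℝ} {z : Γ} (hz : h z < s) :
    (comp 1 {x | h x < s} z).Infinite := sorry

open Classical in
/-- Cheeger: for `u` finitely supported apply the layer-cake formula to `v = u²`:
`c ∑ v ≤ ∑_{x,t} |v (x t) - v x|` (induction on the number of values of `v`, or integrate the
isoperimetric inequality for `{v > s}`), then
`∑ |u(xt)² - u(x)²| ≤ (En u)^{1/2} (∑ (|u(xt)|+|u x|)²)^{1/2} ≤ (En u)^{1/2} (4|T| ∑ u²)^{1/2}`. -/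
theorem poin_of_iso {c : ℝ} (hc : 0 < c)
    (h : ∀ A : Finset Γ, c * A.card ≤
      (((A ×ˢ (Cay.T : Finset Γ)).filter fun p => p.1 * p.2 ∉ A).card : ℝ)) : Poin Γ := sorry

end Crest.Agent.R224
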