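import Crest.Agent.R224.BFar

/-! Row 224 B: the Leaf lemma.  `(gs j, es j)` is a sequence of test functions and tolerances. -/

set_option autoImplicit false

open Set Filter Pointwise

namespace Crest.Agent.R224

variable {Γ : Type} [Group Γ] [Cay Γ] [Ctx Γ]

/-- `y` sees the far points of `κ` at the same place as `e`, for the first `M` tests -/
def Good (gs : ℕ → Γ → ℝ) (es : ℕ → ℝ) (L : ℕ → ℕ) (M : ℕ) (κ : Set Γ) (e y : Γ) : Prop :=
  ∀ j < M, ∀ y' ∈ κ, L j ≤ d y y' → |gs j (y⁻¹ * y') - gs j (y⁻¹ * e)| < es j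

/-- `Q L M g α β D Λ`: in the context (centre `x`, function `tr x g`, levels `α < β`) -/
def LeafQ (gs : ℕ → Γ → ℝ) (es : ℕ → ℝ) (L : ℕ → ℕ) (M : ℕ) (g : Γ → ℝ) (α β : ℝ) (D Λ : ℕ) : Prop :=
  ∀ (κ : Set Γ), κ.Finite → ∀ (x e y : Γ), (e = x ∨ β ≤ g (x⁻¹ * e)) → y ∈ κ → g (x⁻¹ * y) < α →
    Λ ≤ d x y → ∃ y' ∈ κ, D ≤ d x y' ∧ g (x⁻¹ * y') < β ∧ Good gs es L M κ e y'

/-- Define (independently of `L`) `Λ g α β 0 D = D`, `Λ g α β (j+1) D = Λ g α m j (max (D+1) (Far g m β (gs j) (es j / 8) D))` with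
`m = (α+β)/2`, and `L j = max` of `Λ (±gs j) (k e) ((k+1) e) (j+1) 0` over the finitely many `k ∈ ℤ` with `|k e| ≤ sup |gs j| + es j`,
`e = es j / 4`.  Prove `LeafQ .. (j+1)` for all contexts by strong induction on `(κ ∩ {tr x g < β} \ {x}).ncard`: the case `j` for
`(g, α, m)` gives `y₁`, good up to `j`, with `g (x⁻¹y₁) < m`, far from `x`.  If `y₁` is bad at `j` through `y'`, say
`G y' ≥ G e + es j` with `G = tr y₁ (gs j)`, then `|G - G e| < es j / 4` on `O = {β ≤ tr x g} ∪ ball x D ∋ e, x` (`far`), and the context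
`(y₁, -gs j, α', β')` with consecutive grid points `-G e - es j < α' < β' ≤ -G e - es j / 4` has `{tr y₁ (-gs j) < β'} ⊆ Oᶜ` and smaller
measure (it loses `y₁`). -/
theorem leaf (gs : ℕ → Γ → ℝ) (es : ℕ → ℝ) (hg : ∀ j, gs j ∈ AA Γ) (he : ∀ j, 0 < es j) :
    ∃ L : ℕ → ℕ, ∀ M, ∀ g ∈ AA Γ, ∀ α β : ℝ, α < β → ∀ D, ∃ Λ, LeafQ gs es L M g α β D Λ := sorry

end Crest.Agent.R224
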