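import Crest.Agent.R224.BTC

/-! Row 224 B: limits of sets whose walls concentrate at a point. -/

set_option autoImplicit false

open Set Filter Pointwise

namespace Crest.Agent.R224

variable {Γ : Type} [Group Γ] [Cay Γ] [Ctx Γ]

/-- `c = {x | ∀ᶠ n in 𝒰, x ∈ D n}`.  A wall point of `c` is a wall point of `D n` for `𝒰`-most `n`.  For `t < q g` the set
`U = {g < t}` is connected, `U \ K` has finitely many components (`Conn.finite_comps`), on each of which `D n` (eventually) and `c` are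
constant.  The complement of a basic neighbourhood of `q` is covered by finitely many sets `{g < t}`, `{t < g}` (both connected by
`Ctx.loc`), so the measure statement follows from `nonatomic`. -/
theorem lim_cut (𝒰 : Ultrafilter ℕ) (D : ℕ → Set Γ) (q : Pt Γ)
    (h : ∀ (g : AA Γ) (ε : ℝ), 0 < ε → ∃ K : Set Γ, K.Finite ∧
      ∀ᶠ n in (𝒰 : Filter ℕ), ∀ x ∈ Wall (D n), x ∉ K → |g.1 x - q g| < ε) :
    ∃ c : Set Γ, Conv (Wall c) q ∧
      (∀ (g : AA Γ) (t : ℝ), t < q g →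
        ∀ᶠ n in (𝒰 : Filter ℕ), ∀ x, g.1 x < t → (x ∈ D n ↔ x ∈ c)) ∧
      (∀ (g : AA Γ) (t : ℝ), q g < t →
        ∀ᶠ n in (𝒰 : Filter ℕ), ∀ x, t < g.1 x → (x ∈ D n ↔ x ∈ c)) ∧
      ∀ η : ℝ, 0 < η → ∀ᶠ n in (𝒰 : Filter ℕ), hm (symmDiff (D n) c) 1 < η := sorry

end Crest.Agent.R224
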