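import Crest.Agent.R224.BFlat
import Crest.Agent.R224.BLim
import Crest.Agent.R224.BLeaf

/-! Row 224 B: finitely many relative holes. -/

set_option autoImplicit false

open Set Filter Pointwise

namespace Crest.Agent.R224

variable {Γ : Type} [Group Γ] [Cay Γ] [Ctx Γ]

variable {𝒥 : Set (Set Γ)} {pt : Set Γ → Pt Γ} {δ δ' : ℝ} {R : ℕ}

/-- One step.  `α < β₀ < β₁ < β`.  For a far hole `y` of `C`, `κ` = holes of `C` in `{g < β₁}` is finite (`K_lemma`); `leaf` in the context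
`(1, g, α, β₀)`, `e = 1`, gives `y' ∈ κ`, as far as we like.  On `{β₁ ≤ g} ∪ ball 1 D` use `far` (levels `β₀ < β₁`); walls of `F` with
`β ≤ pt F g` lie in `{β₁ ≤ g} ∪ ball 1 D` by `un`; the other `F` are tame; `sharp_diff` and `est_far` give the last claim. -/
theorem hole_step (h : IsAdj 𝒥 pt) (hc : Consts 𝒥 δ δ' R) (g : AA Γ) {α β : ℝ} (hαβ : α < β)
    (hinf : {y | g.1 y < α ∧ ∃ C, Sat 𝒥 C ∧ {x | x ∈ Wall C ∧ g.1 x < β}.Finite ∧ Hole 𝒥 δ' y C}.Infinite)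
    (gs : ℕ → Γ → ℝ) (es : ℕ → ℝ) (hg : ∀ j, gs j ∈ AA Γ) (he : ∀ j, 0 < es j) :
    ∃ L : ℕ → ℕ, ∀ (M : ℕ) (η : ℝ), 0 < η → ∃ (y : Γ) (C : Set Γ), Hole 𝒥 δ' y C ∧
      (∀ j < M, ∀ z, Hole 𝒥 δ' z C → L j ≤ d y z → |gs j (y⁻¹ * z) - gs j y⁻¹| < es j) ∧
      (∀ F ∈ 𝒥, Tame 𝒥 δ C F ∨ ∀ j < M, ∀ z ∈ Wall F, |gs j (y⁻¹ * z) - gs j y⁻¹| < es j) ∧
      hm (symmDiff (sharp 𝒥 δ C) C) y < η := sorry

/-- Enumerate `AA Γ × {1/(k+1)}` by `(gs j, es j)`; take `(y M, C M)` from `hole_step` with `η = 1/(M+1)`, `𝒰 = hyperfilter ℕ`,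
`q g = lim_𝒰 g (y M)⁻¹`, `D M = (y M)⁻¹ • sharp (C M)`.  `wall_sharp` gives the hypothesis of `lim_cut`; the limit `c` has
`δ' ≤ hm c 1 ≤ 1 - δ'`, so `St c` is a true cut, `y M • St c` or its complement lies in some `F ∈ 𝒥` (`atom`), and
`hm (C M \ F) (y M) → 0` (or the same for the complement) contradicts `Hole`. -/
theorem holes_finite (h : IsAdj 𝒥 pt) (hc : Consts 𝒥 δ δ' R) (g : AA Γ) {α β : ℝ} (hαβ : α < β) :
    {y | g.1 y < α ∧ ∃ C, Sat 𝒥 C ∧ {x | x ∈ Wall C ∧ g.1 x < β}.Finite ∧ Hole 𝒥 δ' y C}.Finite := sorry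

end Crest.Agent.R224
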