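import Crest.Agent.R224.BHm0

/-! Row 224 B: harmonic measure of sets, the `E` and `K` estimates, idempotents, straightening.
(`Ctx.inf` gives `Infinite Γ`; the fields of `Ctx.mean` are the rules for `mn`.) -/

set_option autoImplicit false

open Set Filter Pointwise

namespace Crest.Agent.R224

variable {Γ : Type} [Group Γ] [Cay Γ] [Ctx Γ]

/-- idempotents: `k = ⨅ n, hm (N n)` is harmonic (`harm_of_tendsto`), `k x = mn x k ≤ mn x (1_{N n} k) +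
mn x (1_{(N n)ᶜ} hm (N (n+1))) ≤ (sup k) hm (N n) x`, so `k ≤ (sup k) k`. -/
theorem idem (N : ℕ → Set Γ) (hN : Antitone N)
    (h : ∀ n x, mn x ((N n)ᶜ.indicator (hm (N (n + 1)))) = 0) {x0 : Γ} {δ : ℝ} (hδ : 0 < δ)
    (h0 : ∀ n, δ ≤ hm (N n) x0) :
    ∃ k : Γ → ℝ, Harm k ∧ (∀ x, 0 ≤ k x) ∧ (∀ n x, k x ≤ hm (N n) x) ∧
      (∀ x (a : ℝ), (∀ n, a ≤ hm (N n) x) → a ≤ k x) ∧ ∀ η : ℝ, 0 < η → ∃ z, 1 - η < k z := sorry
theorem Reg.compl {A : Set Γ} (h : Reg A) : Reg Aᶜ := sorry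
theorem Reg.ind {A B : Set Γ} (h : Reg B) (hBA : B ⊆ A) (x : Γ) : mn x (Aᶜ.indicator (hm B)) = 0 := sorry
theorem Reg.deep {A : Set Γ} (h : Reg A) (hp : ∃ x, 0 < hm A x) {η : ℝ} (hη : 0 < η) :
    ∃ z, 1 - η < hm A z := sorry
theorem mem_St {A : Set Γ} {x : Γ} (h : 1 / 2 < hm A x) : x ∈ St A := sorry
theorem le_of_mem_St {A : Set Γ} {x : Γ} (h : x ∈ St A) : 1 / 2 ≤ hm A x := sorry
theorem le_of_not_mem_St {A : Set Γ} {x : Γ} (h : x ∉ St A) : hm A x ≤ 1 / 2 := sorry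
theorem St_mono {A B : Set Γ} (h : ∀ x, hm A x ≤ hm B x) : St A ⊆ St B := sorry
/-- `hm A` is not identically `1/2` for regular `A`; look at the `rk`-least `u` with `hm A (x u) ≠ 1/2` -/
theorem St_compl {A : Set Γ} (h : Reg A) : St Aᶜ = (St A)ᶜ := sorry
theorem St_smul (γ : Γ) (A : Set Γ) : St (γ • A) = γ • St A := sorry
/-- on `symmDiff A (St A)` we have `|1_A - hm A| ≥ 1/2` -/
theorem hm_St_symmDiff {A : Set Γ} (h : Reg A) (x : Γ) : hm (symmDiff A (St A)) x = 0 := sorry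
theorem hm_St {A : Set Γ} (h : Reg A) : hm (St A) = hm A := sorry
theorem St_St {A : Set Γ} (h : Reg A) : St (St A) = St A := sorry
theorem St_null {A : Set Γ} {x : Γ} (h : hm A x = 0) : St A = ∅ := sorry
/-- wall points of a straightened set are balanced (Harnack for one step) -/
theorem exists_kappa : ∃ κ : ℝ, 0 < κ ∧ κ ≤ 1 / 2 ∧ ∀ (A : Set Γ), ∀ x ∈ Wall (St A),
    κ ≤ hm A x ∧ hm A x ≤ 1 - κ := sorry

end Crest.Agent.R224
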