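import Crest.Agent.R224.BHarm

/-! Row 224 B: harmonic measure of sets, the `E` and `K` estimates, idempotents, straightening.
(`Ctx.inf` gives `Infinite Γ`; the fields of `Ctx.mean` are the rules for `mn`.) -/

set_option autoImplicit false

open Set Filter Pointwise

namespace Crest.Agent.R224

variable {Γ : Type} [Group Γ] [Cay Γ] [Ctx Γ]

theorem hm_nonneg (A : Set Γ) (x : Γ) : 0 ≤ hm A x := sorry
theorem hm_le_one (A : Set Γ) (x : Γ) : hm A x ≤ 1 := sorry
theorem hm_mono {A B : Set Γ} (h : A ⊆ B) (x : Γ) : hm A x ≤ hm B x := sorry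
theorem hm_compl (A : Set Γ) (x : Γ) : hm Aᶜ x = 1 - hm A x := sorry
theorem hm_univ (x : Γ) : hm (univ : Set Γ) x = 1 := sorry
theorem hm_union_le (A B : Set Γ) (x : Γ) : hm (A ∪ B) x ≤ hm A x + hm B x := sorry
theorem hm_union {A B : Set Γ} (h : Disjoint A B) (x : Γ) : hm (A ∪ B) x = hm A x + hm B x := sorry
theorem hm_biUnion_le {ι : Type} (J : Finset ι) (A : ι → Set Γ) (x : Γ) :
    hm (⋃ i ∈ J, A i) x ≤ ∑ i ∈ J, hm (A i) x := sorry
theorem sum_hm_le {ι : Type} (J : Finset ι) (A : ι → Set Γ)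
    (h : ∀ i ∈ J, ∀ j ∈ J, i ≠ j → Disjoint (A i) (A j)) (x : Γ) : ∑ i ∈ J, hm (A i) x ≤ 1 := sorry
theorem hm_finite {A : Set Γ} (hA : A.Finite) (x : Γ) : hm A x = 0 := sorry
theorem hm_le_symmDiff (A B : Set Γ) (x : Γ) : hm A x ≤ hm B x + hm (symmDiff A B) x := sorry
theorem hm_congr {A B : Set Γ} (h : ∀ x, hm (symmDiff A B) x = 0) : hm A = hm B := sorry
theorem hm_harm (A : Set Γ) : Harm (hm A) := sorry
theorem hm_smul (γ : Γ) (A : Set Γ) (x : Γ) : hm (γ • A) (γ * x) = hm A x := sorry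
theorem hm_zero {A : Set Γ} {x : Γ} (h : hm A x = 0) (y : Γ) : hm A y = 0 := sorry
/-- (E) seen from far points, `g` is concentrated at its value: apply `Mean.est` to the bounded truncations
of `g` (a Dirichlet function need not be bounded: here it is). -/
theorem est_far {g : Γ → ℝ} (hb : Bdd g) (hg : Dir g) {ε η : ℝ} (hε : 0 < ε) (hη : 0 < η) :
    {y | η ≤ hm {z | ε ≤ |g z - g y|} y}.Finite := sorry
/-- (K) use `dir_cut` for `C` and for `Cᶜ`, and `est_far` -/
theorem K_lemma {g : Γ → ℝ} (hg : Dir g) {C : Set Γ} {β ε η : ℝ} (hε : 0 < ε) (hη : 0 < η)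
    (hC : {x | x ∈ Wall C ∧ g x < β}.Finite) :
    {y | g y ≤ β - ε ∧ η ≤ |C.indicator (fun _ => (1 : ℝ)) y - hm C y|}.Finite := sorry

end Crest.Agent.R224
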