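import Crest.Agent.R224.BTC
import Crest.Agent.R224.BFar

/-! Row 224 B: the König chain of wall pieces. -/

set_option autoImplicit false

open Set Filter Pointwise

namespace Crest.Agent.R224

variable {Γ : Type} [Group Γ] [Cay Γ]

/-- `C` has the wall piece `P` of `A` up to finitely many edges -/
def Piece (A P C : Set Γ) : Prop :=
  {x | ∃ t ∈ (Cay.T : Finset Γ), ¬ (Cross C x t ↔ Cross A x t ∧ x ∈ P)}.Finite

theorem Piece.compl {A P C : Set Γ} (h : Piece A P C) : Piece A P Cᶜ := sorry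
theorem Piece.wall {A P C : Set Γ} (h : Piece A P C) : (Wall C \ P).Finite := sorry

/-- Purely combinatorial.  `R` = max of the constants of `wall_conn`, `wall_piece`.  Say `P` separates if some `C` has `Piece A P C`,
`Wa ⊆* C`, `Wb ⊆* Cᶜ`.  `Wall A` separates (`C = A`).  If `P` separates, `P = P₁ ∪ P₂` up to a finite set, disjointly, and `Cᵢ` are pieces
for `Pᵢ`, then `C ∆ C₁ ∆ C₂` has finite wall, so is finite or cofinite (`oneEnd`), and by `hd` one of `P₁, P₂` separates; finite sets do not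
separate.  `P (n+1)` is a separating component of `P n \ ball 1 n` (finitely many components, `Conn.finite_comps`; unions of
components of `Wall A \ ball 1 n` satisfy the hypothesis of `wall_piece`). -/
theorem koenig (hc : Coarse Γ) : ∃ R : ℕ, ∀ (A Wa Wb : Set Γ), Conn 1 A → Conn 1 Aᶜ → Wa.Infinite →
    Wb.Infinite → (Wa \ A).Finite → (Wb \ Aᶜ).Finite →
    (∀ C, (Wall C \ Wall A).Finite → ((Wa \ C).Finite ∨ (Wa \ Cᶜ).Finite) ∧
      ((Wb \ C).Finite ∨ (Wb \ Cᶜ).Finite)) →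
    ∃ (P C : ℕ → Set Γ), Antitone P ∧ ∀ n, P n ⊆ Wall A ∧ Conn R (P n) ∧ (P n).Infinite ∧
      Disjoint (P (n + 1)) (ball 1 n) ∧ (Wall (C n) \ P n).Finite ∧ (Wa \ C n).Finite ∧
      (Wb \ (C n)ᶜ).Finite := sorry

variable [Ctx Γ]

/-- the pieces converge: the oscillation of `g` on `P (n+1)` is at most the tail of a convergent series (`osc_le`) -/
theorem chain_limit {R : ℕ} {W : Set Γ} {P : ℕ → Set Γ} (hP : Antitone P)
    (h : ∀ n, P n ⊆ W ∧ Conn R (P n) ∧ (P n).Infinite ∧ Disjoint (P (n + 1)) (ball 1 n))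
    (hs : ∀ g ∈ AA Γ, Summable (W.indicator (wv R g))) :
    ∃ q : Pt Γ, ∀ (g : AA Γ) (ε : ℝ), 0 < ε → ∀ᶠ n in atTop, ∀ x ∈ P n, |g.1 x - q g| < ε := sorry

end Crest.Agent.R224
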