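import Crest.Agent.R224.BHfin
import Crest.Agent.R224.BKon

/-! Row 224 B: the contradiction. -/

set_option autoImplicit false

open Set Filter Pointwise

namespace Crest.Agent.R224

variable {Γ : Type} [Group Γ] [Cay Γ] [Ctx Γ]

variable {𝒥 : Set (Set Γ)} {pt : Set Γ → Pt Γ} {δ δ' : ℝ} {R : ℕ}

/-- test sequences: `exists_two` if `𝒥 = ∅`, else `Wa = Wall F ∩ F`, `Wb = Wall F' ∩ F'` (`subset_flat`, `sat_flat`) -/
theorem exists_tests (h : IsAdj 𝒥 pt) : ∃ (a b : Pt Γ) (Wa Wb : Set Γ), a ≠ b ∧ Wa.Infinite ∧ Wb.Infinite ∧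
    Conv Wa a ∧ Conv Wb b ∧ (∀ C, In C a → (Wa \ flat 𝒥 pt C).Finite) ∧
    (∀ C, In Cᶜ a → (Wa \ (flat 𝒥 pt C)ᶜ).Finite) ∧
    (∀ C, In C b → (Wb \ flat 𝒥 pt C).Finite) ∧
    (∀ C, In Cᶜ b → (Wb \ (flat 𝒥 pt C)ᶜ).Finite) := sorry

/-- the walls of `D n = sharp (flat (C n))` concentrate at `q`.  For `g, ε` and large `n`, `wall_flat` for `g` and `-g` shows that the wall of
`flat (C n)` is finite in `{g < q g - ε/2}` and `{-g < -q g - ε/2}`; `holes_finite` gives `K`; every `F` is tame (`tame_of` with `f` or `-f`,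
`pt F f ≠ r`, `Conv.neg`); `wall_sharp` with `x₀ = 1`. -/
theorem walls_conc (h : IsAdj 𝒥 pt) (hc : Consts 𝒥 δ δ' R) (f : AA Γ) {r : ℝ}
    (hr : ∀ p ∈ QQ Γ, p f ≠ r) (C : ℕ → Set Γ) (q : Pt Γ)
    (hf : ∀ n (ε : ℝ), 0 < ε → {x | x ∈ Wall (C n) ∧ ε ≤ |f.1 x - r|}.Finite)
    (hC : ∀ (g : AA Γ) (ε : ℝ), 0 < ε → ∀ᶠ n in atTop,
      {x | x ∈ Wall (C n) ∧ ε ≤ |g.1 x - q g|}.Finite) (g : AA Γ) {ε : ℝ} (hε : 0 < ε) :
    ∃ K : Set Γ, K.Finite ∧ ∀ᶠ n in atTop, ∀ x ∈ Wall (sharp 𝒥 δ (flat 𝒥 pt (C n))), x ∉ K →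
      |g.1 x - q g| < ε := sorry

/-- Choose `f ∈ 𝒜` with `a f < b f` (`Conv.neg`), `r ∈ (a f, b f)` by `exists_level'` outside `range f ∪ {p f | p ∈ QQ}`, `A = {f < r}`.
On `Wall A`, `|f - r| ≤ wv 1 f → 0`, so `nprime` (with `f` at `a`, `-f` at `b`) gives the hypothesis of `koenig`; `q` from `chain_limit` has
`q f = r`.  `lim_cut` for `D n = sharp (flat (C n))` along `hyperfilter ℕ` gives `c` with `Wa ⊆* c`, `Wb ⊆* cᶜ` (`sharp_diff`, `wall_flat`);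
`K_lemma` shows `0 < hm c` far along `Wa` and `hm c < 1` far along `Wb`, so `q ∈ QQ` (`tc_St`): contradiction. -/
theorem no_ctx (Γ : Type) [Group Γ] [Cay Γ] [Ctx Γ] : False := sorry

end Crest.Agent.R224
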