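import Crest.Agent.R224.BMet0

/-! Row 224 B: word metric, components, walls (easy API; `wl` is attained by `Nat.sInf_mem` and `Cay.gen`). -/

set_option autoImplicit false

open Set Filter Pointwise

namespace Crest.Agent.R224

variable {Γ : Type} [Group Γ] [Cay Γ]

theorem conn_univ : Conn 1 (univ : Set Γ) := sorry
theorem Conn.mono {R R' : ℕ} {A : Set Γ} (h : Conn R A) (hR : R ≤ R') : Conn R' A := sorry
theorem Conn.smul {R : ℕ} {A : Set Γ} (h : Conn R A) (γ : Γ) : Conn R (γ • A) := sorry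
/-- a union of connected sets through a common point -/
theorem conn_of_forall {R : ℕ} {A : Set Γ} (y0 : Γ)
    (h : ∀ x ∈ A, ∃ B ⊆ A, Conn R B ∧ x ∈ B ∧ y0 ∈ B) : Conn R A := sorry
theorem comp_subset (R : ℕ) (A : Set Γ) (x : Γ) : comp R A x ⊆ A := sorry
theorem mem_comp_self {R : ℕ} {A : Set Γ} {x : Γ} (hx : x ∈ A) : x ∈ comp R A x := sorry
theorem comp_eq_of_mem {R : ℕ} {A : Set Γ} {x y : Γ} (hy : y ∈ comp R A x) :
    comp R A y = comp R A x := sorry
theorem comp_step {R : ℕ} {A : Set Γ} {x y z : Γ} (hy : y ∈ comp R A x) (hz : z ∈ A)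
    (h : d y z ≤ R) : z ∈ comp R A x := sorry
theorem conn_comp (R : ℕ) (A : Set Γ) (x : Γ) : Conn R (comp R A x) := sorry
theorem comp_mono {R R' : ℕ} {A B : Set Γ} (hR : R ≤ R') (h : A ⊆ B) (x : Γ) :
    comp R A x ⊆ comp R' B x := sorry
theorem Conn.subset_comp {R : ℕ} {A B : Set Γ} (h : Conn R B) (hBA : B ⊆ A) {x : Γ} (hx : x ∈ B) :
    B ⊆ comp R A x := sorry
theorem comp_smul (R : ℕ) (A : Set Γ) (γ x : Γ) : comp R (γ • A) (γ * x) = γ • comp R A x := sorry
/-- removing a finite set from a connected set leaves finitely many components (each component is all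
of `A` or contains a point within `R` of `K`) -/
theorem Conn.finite_comps {R : ℕ} {A K : Set Γ} (h : Conn R A) (hK : K.Finite) :
    {U | ∃ x ∈ A \ K, U = comp R (A \ K) x}.Finite := sorry
/-- a component of `A \ K` which is not the whole component of `A` comes within `R` of `K ∩ A` -/
theorem comp_diff_near {R : ℕ} {A K : Set Γ} {x : Γ} (hx : x ∈ A \ K)
    (h : comp R (A \ K) x ≠ comp R A x) :
    ∃ y ∈ comp R (A \ K) x, ∃ k ∈ K ∩ A, d y k ≤ R := sorry
/-- a property which changes along a connected set changes at some step -/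
theorem Conn.exists_change {R : ℕ} {A : Set Γ} (h : Conn R A) {P : Γ → Prop} {x y : Γ}
    (hx : x ∈ A) (hy : y ∈ A) (hPx : P x) (hPy : ¬ P y) :
    ∃ a ∈ A, ∃ b ∈ A, d a b ≤ R ∧ P a ∧ ¬ P b := sorry
theorem Conn.subset_or {U A : Set Γ} (h : Conn 1 U) (hU : Disjoint U (Wall A)) :
    U ⊆ A ∨ U ⊆ Aᶜ := sorry
/-- two points of a connected set lie in a finite connected subset -/
theorem Conn.exists_finite {R : ℕ} {A : Set Γ} (h : Conn R A) {x y : Γ} (hx : x ∈ A) (hy : y ∈ A) :
    ∃ P ⊆ A, P.Finite ∧ Conn R P ∧ x ∈ P ∧ y ∈ P := sorry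
/-- pigeonhole: an infinite subset of `A \ K` meets one component infinitely often -/
theorem exists_comp_infinite {R : ℕ} {A W : Set Γ}
    (h : {U | ∃ x ∈ A, U = comp R A x}.Finite) (hW : W.Infinite) (hWA : W ⊆ A) :
    ∃ x ∈ A, (W ∩ comp R A x).Infinite := sorry
theorem FC.mono {A A' B B' : Set Γ} (h : FC B B') (h1 : A ⊆ B) (h2 : B' ⊆ A') : FC A A' := sorry
theorem FC.smul {B B' : Set Γ} (h : FC B B') (γ : Γ) : FC (γ • B) (γ • B') := sorry

end Crest.Agent.R224
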