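import Crest.Agent.R224.BDefs

/-! Row 224 B: word metric, components, walls (easy API; `wl` is attained by `Nat.sInf_mem` and `Cay.gen`). -/

set_option autoImplicit false

open Set Filter Pointwise

namespace Crest.Agent.R224

variable {Γ : Type} [Group Γ] [Cay Γ]

theorem d_self (x : Γ) : d x x = 0 := sorry
theorem d_eq_zero {x y : Γ} (h : d x y = 0) : x = y := sorry
theorem d_comm (x y : Γ) : d x y = d y x := sorry
theorem d_tri (x y z : Γ) : d x z ≤ d x y + d y z := sorry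
theorem d_mul (γ x y : Γ) : d (γ * x) (γ * y) = d x y := sorry
theorem d_one_inv_mul (x y : Γ) : d 1 (x⁻¹ * y) = d x y := sorry
theorem d_T (x : Γ) {t : Γ} (ht : t ∈ (Cay.T : Finset Γ)) : d x (x * t) ≤ 1 := sorry
theorem d_le_one {x y : Γ} (h : d x y ≤ 1) : y = x ∨ ∃ t ∈ (Cay.T : Finset Γ), y = x * t := sorry
/-- first step of a geodesic -/
theorem d_succ {x y : Γ} {n : ℕ} (h : d x y = n + 1) :
    ∃ t ∈ (Cay.T : Finset Γ), d (x * t) y = n := sorry
theorem ball_finite (x : Γ) (n : ℕ) : (ball x n).Finite := sorry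
theorem nbhd_finite (R : ℕ) {A : Set Γ} (hA : A.Finite) : (nbhd R A).Finite := sorry
theorem finite_subset_ball {A : Set Γ} (hA : A.Finite) (x : Γ) : ∃ n, A ⊆ ball x n := sorry
theorem countable_of_cay : Countable Γ := sorry
theorem exists_rk : ∃ rk : Γ → ℕ, Function.Injective rk ∧ rk 1 = 0 := sorry
theorem T_nonempty [Infinite Γ] : (Cay.T : Finset Γ).Nonempty := sorry
/-- induction along edges -/
theorem cay_induction {P : Γ → Prop} (x : Γ) (hx : P x)
    (h : ∀ y, ∀ t ∈ (Cay.T : Finset Γ), P y → P (y * t)) (y : Γ) : P y := sorry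
theorem Sm.mono {R R' : ℕ} {l : List Γ} (h : Sm R l) (hR : R ≤ R') : Sm R' l := sorry
theorem Sm.eraseIdx {R : ℕ} {l : List Γ} (h : Sm R l) (i : ℕ) : Sm R (l.eraseIdx i) := sorry

theorem wall_compl (A : Set Γ) : Wall Aᶜ = Wall A := sorry
theorem wall_smul (γ : Γ) (A : Set Γ) : Wall (γ • A) = γ • Wall A := sorry
theorem mem_wall_of_le_one {A : Set Γ} {x y : Γ} (h : d x y ≤ 1) (hx : x ∈ A) (hy : y ∉ A) :
    x ∈ Wall A ∧ y ∈ Wall A := sorry
/-- a geodesic from `A` to its complement crosses the wall -/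
theorem exists_cross {A : Set Γ} {x y : Γ} (hx : x ∈ A) (hy : y ∉ A) :
    ∃ w, ∃ t ∈ (Cay.T : Finset Γ), w ∈ A ∧ w * t ∉ A ∧ d x w + 1 + d (w * t) y = d x y := sorry
theorem wall_inter (A B : Set Γ) : Wall (A ∩ B) ⊆ (Wall A ∩ nbhd 1 B) ∪ (Wall B ∩ nbhd 1 A) := sorry
theorem wall_symmDiff (A B : Set Γ) :
    Wall (symmDiff A B) ⊆ {x | ∃ t ∈ (Cay.T : Finset Γ), ¬ (Cross A x t ↔ Cross B x t)} := sorry
theorem wall_finite {A : Set Γ} (hA : A.Finite) : (Wall A).Finite := sorry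

end Crest.Agent.R224
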