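import Crest.Agent.R224.BUN

/-! Row 224 B: the members of `NN Γ` are true cuts; local finiteness, balance, infinite walls. -/

set_option autoImplicit false

open Set Filter Pointwise

namespace Crest.Agent.R224

variable {Γ : Type} [Group Γ] [Cay Γ] [Ctx Γ]

/-- `F = Fs q p` has wall in `VV q → q`, contains a true cut and misses `Fs p q`, so `St F` is a true cut (`tc_St`).  It is
disjoint from every true cut `e ⊆ Fs p q` (`St_mono`, `St_compl`), so `In (St F)ᶜ p` (else `(St F)ᶜ ⊆ F`), `St F ⊆ F`; and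
`c = St c ⊆ St F` for `c ⊆ F`. -/
theorem Fs_tc {q p : Pt Γ} (hq : q ∈ QQ Γ) (hp : p ∈ QQ Γ) (hne : q ≠ p) :
    TC q (Fs q p) ∧ In (Fs q p)ᶜ p := sorry
theorem NN_tc {N : Set Γ} (h : N ∈ NN Γ) : ∃ q, TC q N := sorry
/-- finitely many `q` (`Q_finite`); for fixed `q` the sets `(Fs q p)ᶜ` are equal or disjoint and must meet `ball x 1` -/
theorem NN_locFin (x : Γ) : {N | N ∈ NN Γ ∧ x ∈ Wall N}.Finite := sorry
theorem NN_sep_finite (x y : Γ) : {N | N ∈ NN Γ ∧ x ∈ N ∧ y ∉ N}.Finite := sorry
/-- Otherwise the set `𝓘` of `N ∈ NN` with `1 ∉ N`, `δ ≤ hm N 1` is infinite.  Any two members are disjoint or comparable, each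
point lies in finitely many members (`NN_sep_finite`), so in any infinite `𝓘' ⊆ 𝓘` each member is below a maximal one, there are
at most `1/δ` maximal ones (`sum_hm_le`) and one has infinitely many members strictly below it.  This gives a strictly
decreasing chain, and `idem` a point `z` with `hm (N n) z > 1/2`, i.e. `z ∈ N n`, for all `n`. -/
theorem balanced_finite {δ : ℝ} (hδ : 0 < δ) :
    {N | N ∈ NN Γ ∧ δ ≤ hm N 1 ∧ hm N 1 ≤ 1 - δ}.Finite := sorry
/-- Fix a true cut `N`, `x ∈ Wall N`, points `z₁, z₀` with `hm N z₁ > 1/2 > hm N z₀`.  If `V = comp k (Wall N) x` is finite for all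
`k`, take `k` large (`≥ R` of `wall_part`, and all wall points on a fixed path from `z₀` to `z₁` in `V`); `D` from `wall_part`, finite
after complementing (`oneEnd`).  `maxP` on `D ∩ N` and `D \ N` shows `z₁, z₀ ∉ D`, but `D` separates them.  Uniformity:
translate `x` to `1`, `NN_locFin`. -/
theorem wall_inf : ∃ R : ℕ, 1 ≤ R ∧ ∀ N ∈ NN Γ, ∀ x ∈ Wall N, (comp R (Wall N) x).Infinite := sorry

end Crest.Agent.R224
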