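import Crest.Agent.R224.BTC

/-! Row 224 B: cuts at different points are nested; the far sides `Fs`. -/

set_option autoImplicit false

open Set Filter Pointwise

namespace Crest.Agent.R224

variable {Γ : Type} [Group Γ] [Cay Γ] [Ctx Γ]

/-- `Wall (c ∩ c')` is finite (`wall_inter`; `Wall c ∩ nbhd 1 c'` converges to `q`, and its 1-neighbourhood too, which lies
in `c'ᶜ` up to a finite set), so `c ∩ c'` is finite (`oneEnd`; `cᶜ` is infinite), hence null, and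
`TC.subset_of_null` gives `c ⊆ c'ᶜ`. -/
theorem corner {q q' : Pt Γ} {c c' : Set Γ} (h : TC q c) (h' : TC q' c') (h1 : In cᶜ q')
    (h2 : In c'ᶜ q) : Disjoint c c' := sorry
theorem tc_nested {q q' : Pt Γ} {c c' : Set Γ} (h : TC q c) (h' : TC q' c') (hne : q ≠ q') :
    Nested c c' := sorry
/-- a pair from `c` to `c'ᶜ` of length `≤ R` starts within `R` of both walls -/
theorem tc_FC {q q' : Pt Γ} {c c' : Set Γ} (h : TC q c) (h' : TC q' c') (hne : q ≠ q')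
    (hs : c ⊆ c') : FC c c' := sorry
/-- which sides: use `corner` and the two points `x, y` -/
theorem tc_sides {q q' : Pt Γ} {c c' : Set Γ} (h : TC q c) (h' : TC q' c') (hne : q ≠ q')
    (hs : c ⊆ c') : In cᶜ q' ∧ In c' q := sorry
theorem subset_Fs {q p : Pt Γ} {c : Set Γ} (h : TC q c) (hp : In cᶜ p) : c ⊆ Fs q p := sorry
theorem Fs_disjoint (q p : Pt Γ) : Disjoint (Fs q p) (Fs p q) := sorry
theorem Fs_nonempty {q p : Pt Γ} (hq : q ∈ QQ Γ) (hp : p ∈ QQ Γ) (hne : q ≠ p) :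
    ∃ c, TC q c ∧ c ⊆ Fs q p := sorry
theorem Fs_smul (γ : Γ) (q p : Pt Γ) : Fs (actP γ q) (actP γ p) = γ • Fs q p := sorry
theorem wall_Fs (q p : Pt Γ) : Wall (Fs q p) ⊆ VV q := sorry
theorem Sep.symm {r p q : Pt Γ} (h : Sep r p q) : Sep r q p := sorry
theorem Fs_eq_of_not_sep {r p q : Pt Γ} (hr : r ∈ QQ Γ) (hp : p ∈ QQ Γ) (hq : q ∈ QQ Γ) (h1 : r ≠ p)
    (h2 : r ≠ q) (h : ¬ Sep r p q) : Fs r p = Fs r q := sorry
/-- `c` with `p ∈ c`, `q ∉ c`: `(Fs r p)ᶜ ⊆ c ⊆ Fs r q` -/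
theorem Sep.compl_subset {r p q : Pt Γ} (h : Sep r p q) : (Fs r p)ᶜ ⊆ Fs r q := sorry
theorem NN_compl {N : Set Γ} (h : N ∈ NN Γ) : Nᶜ ∈ NN Γ := sorry
theorem NN_smul {N : Set Γ} (h : N ∈ NN Γ) (γ : Γ) : γ • N ∈ NN Γ := sorry
/-- same point: the sets `(Fs q p)ᶜ` are equal or disjoint.  Different points `q ≠ q'`: one side of `Fs q p` lies in
`Fs q q'`, one side of `Fs q' p'` lies in `Fs q' q`, and these are disjoint. -/
theorem NN_nested {N N' : Set Γ} (h : N ∈ NN Γ) (h' : N' ∈ NN Γ) : Nested N N' := sorry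
/-- if `r` separates `p` from `q` by `c` then `Fs p q ⊆ c`: `Fs p r ⊆ c` since `cᶜ ⊆ Fs r p`; if `Sep p q r` then some
`e` at `p` with `q ∈ e`, `r ∉ e` has `e ⊆ Fs p r ⊆ c`, contradicting `q ∉ c`. -/
theorem Fs_subset_of_sep {r p q : Pt Γ} {c : Set Γ} (hp : p ∈ QQ Γ) (hq : q ∈ QQ Γ) (hpq : p ≠ q)
    (h1 : r ≠ p) (h : TC r c) (hcp : In c p) (hcq : In cᶜ q) :
    Fs p q = Fs p r ∧ Fs p q ⊆ c := sorry

end Crest.Agent.R224
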