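import Crest.Agent.R224.BSob
import Crest.Agent.R224.BPot

/-! Row 224 B: tightness of the cocycle along a random walk implies boundedness; fixed vectors. -/

set_option autoImplicit false

open Set Filter Pointwise

namespace Crest.Agent.R224

variable {Γ : Type} [Group Γ] [Cay Γ]

variable {F : Γ → Γ → ℝ}

/-- `exp (-t ‖c x - c y‖²) = e^{-tψ x} e^{-tψ y} ∑_k (2t)^k (F x y)^k / k!`; the matrix `F x y = ip (F x) (F y)` is positive
semidefinite and so are its Hadamard powers (`Matrix.PosSemidef.hadamard`). -/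
theorem gauss_psd (hF : IsPot F) {t : ℝ} (ht : 0 ≤ t) (J : Finset Γ) (a : Γ → ℝ) :
    0 ≤ ∑ x ∈ J, ∑ y ∈ J, a x * a y * Real.exp (-t * F (x⁻¹ * y) (x⁻¹ * y)) := sorry

/-- `φ h = exp (-t F h h)` with `t` small, `Q(a,b) = ∑ a x b y φ(x⁻¹y)` a left invariant semi-inner product on
`Γ →₀ ℝ` with `‖δ_x‖ = 1`; `μ` from `exists_law`, `v n = (∑_{k<n} μ k)/n`, `(s • a) x = a (s⁻¹ x)`.  `Q(v n, δ₁) ≥ 1 - η`, `‖v n‖ ≤ 1`, `‖avg_s (s • v n) - v n‖ ≤ 2/n`, so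
`avg_s ‖s v n - v n‖² ≤ 4/n` and `‖h v n - v n‖ → 0` for `h ∈ ⟨S⟩`; `‖δ₁ - v n‖² ≤ 2η`; hence `2 - 2φ h ≤ 8η`. -/
theorem bdd_of_tight (hF : IsPot F) {S : Finset Γ} (hS : ∀ s ∈ S, s⁻¹ ∈ S) (h1 : 1 ∈ S)
    (h : ∀ η : ℝ, 0 < η → ∃ M : ℝ, ∀ k : ℕ,
      wk S k (fun x => if M ≤ F x x then 1 else 0) ≤ η) :
    ∃ B : ℝ, ∀ h ∈ Subgroup.closure (S : Set Γ), F h h ≤ B := sorry

/-- circumcentre of the bounded orbit `{F h | h ∈ H}` of the affine isometric action `h • V = F h + tr h V` on Dirichlet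
functions modulo constants (complete: `lp`, or directly: a minimising sequence for `V ↦ sup_h En (V - F h)`, normalised by
`V 1 = 0`, is Cauchy by the parallelogram law) -/
theorem exists_fixed (hF : IsPot F) (H : Subgroup Γ) {B : ℝ} (hB : ∀ h ∈ H, F h h ≤ B) :
    ∃ V : Γ → ℝ, Dir V ∧ ∀ h ∈ H, ∀ g, Dir g → g h - g 1 = ip g V - ip (tr h⁻¹ g) V := sorry

end Crest.Agent.R224
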