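import Crest.Agent.R224.BEnr

/-! Row 224 B: cubic growth gives a Sobolev inequality. -/

set_option autoImplicit false

open Set Filter Pointwise

namespace Crest.Agent.R224

variable {Γ : Type} [Group Γ] [Cay Γ]

omit [Cay Γ] in
/-- Let `B k = S ^ (3 * 2^k)` and `(R k u) y = avg_{z ∈ B k} u (y z)`, `E = ∑' x, ∑ s ∈ S, (u (x s) - u x)²`.  For a product `z` of `r`
elements of `S`, `‖u(· z) - u‖₂ ≤ r √E`, so `‖R k u - u‖₂ ≤ 3·2^k √E`; each `R k` is a contraction of `ℓ²` and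
`|R k v y| ≤ |B k|^{-1/2} ‖v‖₂ ≤ √L 2^{-3k/2} ‖v‖₂`.  With `M k = R 0 ∘ ⋯ ∘ R k` (`R j` is also a sup-norm contraction):
`|M k u 1 - M (k+1) u 1| ≤ sup |R k (u - R (k+1) u)| ≤ 6 √L 2^{-k/2} √E`, `|u 1 - M 0 u 1| ≤ 3 √E`, `M k u 1 → 0`. -/
theorem sob_of_growth {S : Finset Γ} {L : ℕ}
    (h : ∀ m : ℕ, m ^ 3 ≤ L * ((S : Set Γ) ^ (3 * m)).ncard) : Sob S := sorry

omit [Cay Γ] in
theorem Sob.mono {S S' : Finset Γ} (h : Sob S) (hS : S ⊆ S') : Sob S' := sorry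

omit [Cay Γ] in
/-- test on the indicator function of `⟨S⟩` -/
theorem Sob.infinite {S : Finset Γ} (h : Sob S) : (Subgroup.closure (S : Set Γ) : Set Γ).Infinite := sorry

/-- one step of the random walk with steps in `S` -/
noncomputable def PS (S : Finset Γ) (u : Γ → ℝ) (x : Γ) : ℝ := (∑ s ∈ S, u (x * s)) / S.card

/-- expectation of `u` at time `k` of the walk started at `1` -/
noncomputable def wk (S : Finset Γ) (k : ℕ) (u : Γ → ℝ) : ℝ := (PS S)^[k] u 1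

omit [Cay Γ] in
/-- the law `μ k` of the walk at time `k` (`μ (k+1) = μ k * μ 1 = μ 1 * μ k`) -/
theorem exists_law {S : Finset Γ} (hS : ∀ s ∈ S, s⁻¹ ∈ S) (h1 : 1 ∈ S) : ∃ μ : ℕ → Γ →₀ ℝ,
    (∀ k x, 0 ≤ μ k x) ∧ (∀ k x, μ k x ≠ 0 → x ∈ Subgroup.closure (S : Set Γ)) ∧
    (∀ k x, μ k x⁻¹ = μ k x) ∧ (∀ k, (μ k).sum (fun _ a => a) = 1) ∧
    (∀ k x, μ (k + 1) x = (∑ s ∈ S, μ k (s * x)) / S.card) ∧
    (∀ k x, μ (k + 1) x = (∑ s ∈ S, μ k (x * s)) / S.card) ∧ μ 0 = Finsupp.single 1 1 ∧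
    ∀ k u, wk S k u = (μ k).sum (fun x a => a * u x) := sorry

/-- Let `G = ∑_{j<k} μ j` (finitely supported), `Q(a,b) = ∑' x, ∑ s ∈ S, (a (x s) - a x)(b (x s) - b x) = 2|S| ⟪a, b - PS b⟫` when
`a` is finitely supported.  `G - PS G = δ₁ - μ k`, so `Q(G,G) ≤ 2|S| G 1 ≤ 2|S| (C Q(G,G))^{1/2}`, and
`u 1 - wk k u = ∑ G (u - PS u) = Q(G,u) / (2|S|)`; finally `Q(u,u) ≤ C' En u` (`shift_le`). -/
theorem walk_est {S : Finset Γ} (hS : ∀ s ∈ S, s⁻¹ ∈ S) (h1 : 1 ∈ S) (h : Sob S) :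
    ∃ C : ℝ, ∀ u : Γ → ℝ, Dir u → ∀ k : ℕ, (wk S k u - u 1) ^ 2 ≤ C * En u := sorry

end Crest.Agent.R224
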