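import Crest.Agent.R224.BAtom
import Crest.Agent.R224.BCor
import Crest.Agent.R224.BAlg

/-! Row 224 B: true cuts and Lemma N'. -/

set_option autoImplicit false

open Set Filter Pointwise

namespace Crest.Agent.R224

variable {Γ : Type} [Group Γ] [Cay Γ] [Ctx Γ]

theorem TC.reg {q : Pt Γ} {c : Set Γ} (h : TC q c) : Reg c := sorry
theorem TC.compl {q : Pt Γ} {c : Set Γ} (h : TC q c) : TC q cᶜ := sorry
theorem TC.smul {q : Pt Γ} {c : Set Γ} (h : TC q c) (γ : Γ) : TC (actP γ q) (γ • c) := sorry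
theorem TC.pos' {q : Pt Γ} {c : Set Γ} (h : TC q c) (x : Γ) : 0 < hm c x ∧ hm c x < 1 := sorry
theorem TC.infinite {q : Pt Γ} {c : Set Γ} (h : TC q c) : c.Infinite := sorry
theorem TC.wall_infinite {q : Pt Γ} {c : Set Γ} (h : TC q c) : (Wall c).Infinite := sorry
theorem TC.wall_inter_infinite {q : Pt Γ} {c : Set Γ} (h : TC q c) : (Wall c ∩ c).Infinite := sorry
theorem TC.unique {q q' : Pt Γ} {c : Set Γ} (h : TC q c) (h' : TC q' c) : q = q' := sorry
theorem tc_St {q : Pt Γ} {C : Set Γ} (h : Conv (Wall C) q) (hp : ∃ x, 0 < hm C x)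
    (hl : ∃ x, hm C x < 1) : TC q (St C) := sorry
/-- inclusion up to a null set is inclusion -/
theorem TC.subset_of_null {q q' : Pt Γ} {c c' : Set Γ} (h : TC q c) (h' : TC q' c') {x : Γ}
    (hx : hm (c \ c') x = 0) : c ⊆ c' := sorry
theorem QQ_smul {q : Pt Γ} (h : q ∈ QQ Γ) (γ : Γ) : actP γ q ∈ QQ Γ := sorry
theorem VV_smul (q : Pt Γ) (γ : Γ) : VV (actP γ q) = γ • VV q := sorry
theorem In.mono {C C' : Set Γ} {q : Pt Γ} (h : In C q) (hC : (C \ C').Finite) : In C' q := sorry
theorem In.inter {C C' : Set Γ} {q : Pt Γ} (h : In C q) (h' : In C' q) : In (C ∩ C') q := sorry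
theorem In.smul {C : Set Γ} {q : Pt Γ} (h : In C q) (γ : Γ) : In (γ • C) (actP γ q) := sorry
theorem In.not_compl {C W : Set Γ} {q : Pt Γ} (h : In C q) (hW : W.Infinite) (hq : Conv W q) :
    ¬ In Cᶜ q := sorry
theorem In.not_compl' {C : Set Γ} {q : Pt Γ} (h : In C q) (hq : q ∈ QQ Γ) : ¬ In Cᶜ q := sorry
/-- Lemma N'.  Otherwise there are infinite `W₁ ⊆ C`, `W₂ ⊆ Cᶜ` converging to `q`.  `K = {x ∈ Wall C | g x < β}`;
rationals `q g < l1 < l2` and a real `l3 ∈ (l2, β)` outside the (countable) range of `g`.  `{g < l1}` is connected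
(`Ctx.loc`), so one component of `{g < l1} \ K` contains infinitely many points of `W₁` (`Conn.finite_comps`,
`exists_comp_infinite`); `y0` one of them.  `S = thS g K y0 l3 ⊆ C` (`Conn.subset_or`).  `Sᶜ` has finitely many
components: each meets `K` or `{l3 < g}` (connected), since otherwise it is adjacent to `S` inside `{g < l3} \ K`.
One of them contains infinitely many points of `W₂`; `y1` one of them.  `θ = theta g K y0 y1 l1 l2 ∈ 𝒜` equals `l1` on
infinitely many points of `W₁` and `l2` on infinitely many points of `W₂`. -/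
theorem nprime {C : Set Γ} {q : Pt Γ} (g : AA Γ) {β : ℝ} (hq : q g < β)
    (hC : {x | x ∈ Wall C ∧ g.1 x < β}.Finite) : In C q ∨ In Cᶜ q := sorry
/-- N' when the wall converges to another point -/
theorem in_or_in {C : Set Γ} {q p : Pt Γ} (hC : Conv (Wall C) q) (hq : q ∈ QQ Γ) (hp : p ∈ QQ Γ)
    (hne : q ≠ p) : In C p ∨ In Cᶜ p := sorry

end Crest.Agent.R224
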