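import Crest.Agent.R224.BTStab
import Crest.Agent.R224.BSM
import Crest.Agent.R224.BCor

/-! Row 224 B: abstract T-lemma, part 2. -/

set_option autoImplicit false

open Set Filter Pointwise

namespace Crest.Agent.R224

variable {Γ : Type} [Group Γ] [Cay Γ]

variable {𝒩 : Set (Set Γ)} {F : ℕ → Set Γ}

/-- middle points of `n`-triples of diameter `≤ R` -/
def Mid (F : ℕ → Set Γ) (R n : ℕ) : Set Γ := {w | ∃ u v, Trip F n u w v ∧ Sm R [u, w, v]}

/-- Clusters are bounded.  `N = |ball 1 R|²` types `(w⁻¹u, w⁻¹v)`, `L` from `sm_finite N D`, `n0` from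
`no_jump` with diameter `2L + 2D + 2R`.  If the component of `w` left `ball w L`, the component `Ω` of `w` in
`Mid ∩ ball w (L+D)` would contain a point at distance `> L`; but two points of `Ω` whose chosen triples have the same
type differ by an element of the finite group `chStab F n` (`mem_chStab`). -/
theorem cluster_bdd (h : Chain 𝒩 F) (R D : ℕ) : ∃ L n0, ∀ n ≥ n0, ∀ w ∈ Mid F R n,
    comp D (Mid F R n) w ⊆ ball w L := sorry

/-- T-lemma.  `R₁` from `P1inf`, `R ≥ R₁` from `fill2` with `R' = R₁`, `D = 3R`, `L` from `cluster_bdd`, `ρ` for `s = L+R`.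
`φ x y = 1` iff one of `x, y` is in `F n` and the other outside `A`.  `ψ = δφ` is nonzero exactly on the permutations of
`n`-triples; `Mid F R n` is finite (`FC`).  For each cluster `κ`, `ψ_κ a b c = ψ a b c` if one of `a,b,c` is in `κ`, else `0`, is a
cocycle at scale `R` (the middle points of the faces of a small 4-tuple are in one cluster); fill it by `η_κ`.
`φ + ∑ η_κ` is a cocycle at scale `R₁`, `= δ1_E` on edges with finite wall, so `E` or `Eᶜ` is finite (`oneEnd`).  On the
edges of `Ω₋`, `Ω₊` (taken for `ρ + R + 1`) it vanishes, so both lie on the infinite side.  On a fixed path from `Ω₋` to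
`Ω₊` it equals `δ1_A` for large `n` (the clusters leave every ball): contradiction. -/
theorem no_chain (hc : Coarse Γ) (h : Chain 𝒩 F)
    (h1 : ∀ ρ, ∃ Ω : Set Γ, Ω.Infinite ∧ Conn 1 Ω ∧ nbhd ρ Ω ⊆ F 0)
    (h2 : ∀ ρ, ∃ Ω : Set Γ, Ω.Infinite ∧ Conn 1 Ω ∧ ∀ m, Disjoint (nbhd ρ Ω) (F m)) : False := sorry

end Crest.Agent.R224
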