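import Crest.Agent.R224.BTFill
import Crest.Agent.R224.BNest

/-! Row 224 B: finitely many cut points through a point. -/

set_option autoImplicit false

open Set Filter Pointwise

namespace Crest.Agent.R224

variable {Γ : Type} [Group Γ] [Cay Γ] [Ctx Γ]

/-- An increasing sequence of true cuts at distinct points missing `y` is impossible: `F n = Fs (q (2n)) (q (2n+1))`
satisfies `A (2n) ⊆ F n ⊆ A (2n+1)` (`tc_sides`, `Fs_disjoint`), so it is a `Chain (NN Γ)` (`tc_FC` for `A (2n+1) ⊆ A (2n+2)`).
Deep sets: `Ω₋` a component of `{hm (A 0)ᶜ < η}` (`Reg.deep`, `comp_lt_infinite`, `harnack`, `mem_St`); `Ω₊` a component of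
`{1 - k < η}` with `k` from `idem` for `N n = (A n)ᶜ` (`hm (A n)ᶜ y ≥ 1/2`, `Reg.ind`). -/
theorem no_tc_chain (A : ℕ → Set Γ) (q : ℕ → Pt Γ) (h : ∀ n, TC (q n) (A n))
    (hq : Function.Injective q) (hA : Monotone A) {y : Γ} (hy : ∀ n, y ∉ A n) : False := sorry

/-- cuts at distinct points containing `x` and missing `y` are totally ordered; take a monotone subsequence
(`exists_increasing_or_nonincreasing_subseq`), pass to complements if it decreases -/
theorem Q_pair_finite (x y : Γ) : {q : Pt Γ | ∃ c, TC q c ∧ x ∈ c ∧ y ∉ c}.Finite := sorry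
theorem Q_finite (x : Γ) : {q : Pt Γ | x ∈ VV q}.Finite := sorry
theorem QQ_countable : (QQ Γ).Countable := sorry

end Crest.Agent.R224
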