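import Crest.Agent.R224.BMet

/-! Row 224 B: abstract T-lemma, part 1.  A strictly increasing chain `F n` in an invariant nested family
with finite cores, `A = ⋃ F n`. -/

set_option autoImplicit false

open Set Filter Pointwise

namespace Crest.Agent.R224

variable {Γ : Type} [Group Γ] [Cay Γ]

/-- a chain in an invariant nested family -/
structure Chain (𝒩 : Set (Set Γ)) (F : ℕ → Set Γ) : Prop where
  smul : ∀ N ∈ 𝒩, ∀ γ : Γ, γ • N ∈ 𝒩
  nested : ∀ N ∈ 𝒩, ∀ N' ∈ 𝒩, Nested N N'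
  mem : ∀ n, F n ∈ 𝒩
  mono : StrictMono F
  fc : ∀ n, FC (F n) (F (n + 1))

/-- an `n`-triple: `u ∈ F n`, `w ∈ A \ F n`, `v ∉ A` -/
def Trip (F : ℕ → Set Γ) (n : ℕ) (u w v : Γ) : Prop :=
  u ∈ F n ∧ w ∉ F n ∧ (∃ m, w ∈ F m) ∧ ∀ m, v ∉ F m

/-- a jump between `w` and `w'` -/
def Jump (𝒩 : Set (Set Γ)) (u v w w' : Γ) : Prop :=
  ∃ B ∈ 𝒩, ∃ B' ∈ 𝒩, B ⊆ B' ∧ u ∈ B ∧ w ∈ B ∧ w' ∉ B' ∧ v ∉ B' ∧ FC B B'

/-- the stabiliser of the chain from `n` on -/
def chStab (F : ℕ → Set Γ) (n : ℕ) : Subgroup Γ := ⨅ m ∈ Ici n, MulAction.stabilizer Γ (F m)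

variable {𝒩 : Set (Set Γ)} {F : ℕ → Set Γ}

/-- it permutes freely the finite set of pairs in `F n × (F (n+1))ᶜ` of length `≤ d u v` -/
theorem chStab_finite (h : Chain 𝒩 F) {n : ℕ} {u w v : Γ} (ht : Trip F n u w v) :
    (chStab F n : Set Γ).Finite := sorry

/-- Write `(u₂,w₂,v₂) = g (u,w,v)`, `A = ⋃ F m`.  For `m, m' ≥ n` the sets `g F m`, `F m'` contain `u₂` and miss `v₂`, so
they are comparable.  Hence `gA = A`, or `gA ⊆ F M` for some `M`, or `g⁻¹A ⊆ F M` (symmetric: exchange the triples).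
If a power orbit of `(u,v)` stays in a set `B × B'ᶜ` with `FC B B'` then `g` has finite order.
(a) `gA = A`: `g F n ⊆ F n` or `⊇`, so `g^{±k}(u,v) ∈ F n × Aᶜ`; finite order and comparability give `g F m = F m`.
(b) `gA ⊆ F M ⊊ A` (so `g` has infinite order).  If `F n ⊆ g F n`, `g^{-k}(u,v) ∈ F n × Aᶜ`: contradiction.  So
`g F n ⊆ F n`.  By induction `w ∈ g^k A` and `F n ⊆ g^k A`: if `w ∈ g^{k-1} A` then `w₂ ∈ g^k F m` for large `m`; `g^k F m` is
nested with `F n`, meets it (`⊇ g^k F n`), misses `v₂` and contains `w₂ ∉ F n`, so contains `F n`; if `w ∉ g^k A` then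
`(g^k F m, g^k F (m+1))` is a jump `u₂ v₂ w₂ w`.  Then `g^{-k} u ∈ g^{-k} F n ⊆ gA ⊆ F M` and `g^{-k} v ∉ g^{-k} A ⊇ A`:
finite order, contradiction. -/
theorem mem_chStab (h : Chain 𝒩 F) {n : ℕ} {u w v g : Γ} (ht : Trip F n u w v)
    (ht' : Trip F n (g * u) (g * w) (g * v))
    (hj : ¬ Jump 𝒩 (g * u) (g * v) (g * w) w) (hj' : ¬ Jump 𝒩 u v w (g * w)) :
    g ∈ chStab F n := sorry

/-- No jumps for large `n`.  Up to translation there are finitely many configurations `(u,v,w,w')` of diameter `≤ D`;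
fix for each jump configuration a pair `(B,B')` and let `L` bound the distance from `u` of the first coordinates of the
pairs in `B × B'ᶜ` of length `≤ 1`.  For an `n`-triple with `w' ∈ A`, nestedness gives `F n ⊆ B`, `B' ⊆ A`, so a fixed edge
`(x₁,y₁)` from `A` to `Aᶜ` (`exists_cross`; `x₁ ∈ F n` for large `n`) is such a pair and `d u x₁ ≤ L`.  But then `w` lies in a
fixed ball, and `A ∩ ball ⊆ F n` for large `n`. -/
theorem no_jump (h : Chain 𝒩 F) (D : ℕ) : ∃ n0, ∀ n ≥ n0, ∀ u w v w', Trip F n u w v →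
    (∃ m, w' ∈ F m) → Sm D [u, v, w, w'] → ¬ Jump 𝒩 u v w w' := sorry

end Crest.Agent.R224
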