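import Crest.Agent.R224.BPsd
import Crest.Agent.R224.BCol
import Crest.Agent.R224.BTLem

/-! Row 224 B: horofunction lemma and uniform nullity. -/

set_option autoImplicit false

open Set Filter Pointwise

namespace Crest.Agent.R224

variable {Γ : Type} [Group Γ] [Cay Γ] [Ctx Γ]

/-- stabiliser of a point -/
def stabP (q : Pt Γ) : Subgroup Γ where
  carrier := {h | actP h q = q}
  one_mem' := actP_one q
  mul_mem' := by
    intro a b ha hb
    show actP (a * b) q = q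
    rw [actP_mul, show actP b q = q from hb]; exact ha
  inv_mem' := by
    intro a ha
    show actP a⁻¹ q = q
    have : actP a⁻¹ (actP a q) = q := by rw [← actP_mul, inv_mul_cancel, actP_one]
    rwa [show actP a q = q from ha] at this

/-- `VV q` is `stabP q`-invariant with finitely many orbits (`x ↦ actP x⁻¹ q ∈ {p | 1 ∈ VV p}`, `Q_finite`).  If it had a
colouring, `essential` would put `c` or `cᶜ` in a neighbourhood of `Wall c`, which is null (`Conv.nbhd`, `Conv.null`). -/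
theorem exists_sob {q : Pt Γ} (hq : q ∈ QQ Γ) : ∃ S : Finset Γ, (∀ s ∈ S, s ∈ stabP q ∧ s⁻¹ ∈ S) ∧
    1 ∈ S ∧ Sob S := sorry

/-- Horofunction lemma.  `a x = q (F x) = lim_{z → q} F z x ≥ 0`, `a 1 = 0`, `En (min a M) ≤ M` (Fatou on finite sums,
`IsPot.en_min`), and `a h + a h⁻¹ = F h h` for `h ∈ stabP q` (`IsPot.cocycle`: `F h (h z) = F h h - F h⁻¹ z`, and `h • W → q`).
By `walk_est`, `μ k {a ≥ M} ≤ (C/M)^{1/2}`; `μ k` (`exists_law`) is invariant under inversion, nonnegative and supported in `⟨S⟩`. -/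
theorem horo {q : Pt Γ} (hq : q ∈ QQ Γ) {S : Finset Γ} (hS : ∀ s ∈ S, s ∈ stabP q ∧ s⁻¹ ∈ S)
    (h1 : 1 ∈ S) (h : Sob S) :
    ∃ B : ℝ, ∀ h ∈ Subgroup.closure (S : Set Γ), Ctx.F h h ≤ B := sorry

/-- `V` from `⟨S⟩`; for `h ∈ stabP q` use `S ∪ {h, h⁻¹}` to get `V'`; `W = V' - V` has `ip g W = ip (tr k⁻¹ g) W` for `k` in the infinite
group `⟨S⟩`, so `ip g W = 0` (`ip_mixing`). -/
theorem exists_vec {q : Pt Γ} (hq : q ∈ QQ Γ) : ∃ V : Γ → ℝ, Dir V ∧ ∀ h ∈ stabP q, ∀ g, Dir g →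
    g h - g 1 = ip g V - ip (tr h⁻¹ g) V := sorry

/-- For `x = h xⱼ`: `g x = g 1 + ip g V + ip (tr h⁻¹ g) (F xⱼ - V)`, so `g → val q g := g 1 + ip g V_q` along the infinite set
`VV q`.  By uniqueness of limits `val q g = val (actP x⁻¹ q) (tr x⁻¹ g) = g x + ip (tr x⁻¹ g) V_p` with `p` in the finite set
`{p | 1 ∈ VV p}`. -/
theorem un : UN Γ := sorry

theorem conv_VV {q : Pt Γ} (hq : q ∈ QQ Γ) : Conv (VV q) q := sorry

end Crest.Agent.R224
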