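import Crest.Agent.R224.Defs

/-! R224, task Bas: elementary facts on the word metric, chains and walls.

`geo_d`: `C.geo` for `x⁻¹ * y`.  `ch_geo`: induction on `d x y` with `geo_d`.
`fin_comp`: if `A ∩ K = ∅` take one point of `A`; otherwise `R` = points of `A \ K` adjacent to `K`: follow a
chain in `A` from `x` to a point of `K` up to the last point before it first meets `K`.
`inf_comp`: if the component `B` of `x` in `A \ K` is finite, it is smaller than the component in `A`, so some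
point of `B` is `D`-close to `K`; there are finitely many such points `z`, and `x` lies in the (finite) component
of `z` (`Set.Finite.biUnion`). -/

set_option autoImplicit false

namespace Crest.Agent.R224

open Set Filter Pointwise

namespace Cay

variable {Γ : Type} [Group Γ] (C : Cay Γ)

theorem len_one : C.len 1 = 0 := by
  exact (C.len_zero 1).2 rfl

theorem d_self (x : Γ) : C.d x x = 0 := by
  simp [d, len_one]

theorem d_comm (x y : Γ) : C.d x y = C.d y x := by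
  unfold d; rw [← C.len_inv]; simp

theorem d_tri (x y z : Γ) : C.d x z ≤ C.d x y + C.d y z := by
  have := C.len_mul (x⁻¹ * y) (y⁻¹ * z)
  simpa [d, mul_assoc] using this

theorem d_mul (g x y : Γ) : C.d (g * x) (g * y) = C.d x y := by
  simp [d, mul_assoc]

theorem d_one (x : Γ) : C.d 1 x = C.len x := by
  simp [d]

theorem d_mul_right (x s : Γ) : C.d x (x * s) = C.len s := by
  simp [d]

theorem d_eq_zero {x y : Γ} : C.d x y = 0 ↔ x = y := by
  unfold d; rw [C.len_zero, inv_mul_eq_one]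

theorem finite_ball (x : Γ) (n : ℕ) : {y | C.d x y ≤ n}.Finite := by
  refine ((C.fin n).image fun s => x * s).subset fun y hy => ⟨x⁻¹ * y, hy, by simp⟩

include C in
theorem countable : Countable Γ := by
  rw [← Set.countable_univ_iff]
  refine (Set.countable_iUnion fun n : ℕ => (C.fin n).countable).mono fun g _ => ?_
  exact mem_iUnion.2 ⟨C.len g, Nat.le_refl (C.len g)⟩

theorem mem_T {s : Γ} : s ∈ C.T ↔ C.len s ≤ 1 := by
  simp [T]

theorem tendsto_len {ι : Type} {l : Filter ι} {g : ι → Γ} :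
    Tendsto g l cofinite ↔ Tendsto (fun i => C.len (g i)) l atTop := by
  constructor
  · intro h
    refine tendsto_atTop.2 fun n => ?_
    have := h.eventually (C.fin n).compl_mem_cofinite
    filter_upwards [this] with i hi
    exact (not_le.1 hi).le
  · intro h s hs
    have hs' : sᶜ.Finite := hs
    obtain ⟨n, hn⟩ := (hs'.image C.len).bddAbove
    have := tendsto_atTop.1 h (n + 1)
    rw [mem_map]
    filter_upwards [this] with i hi
    by_contra hc
    have := hn ⟨g i, hc, rfl⟩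
    omega

theorem subset_N (r : ℕ) (A : Set Γ) : A ⊆ C.N r A := by
  exact fun x hx => ⟨x, hx, by simp [d_self]⟩

theorem N_mono {r r' : ℕ} {A B : Set Γ} (hr : r ≤ r') (h : A ⊆ B) : C.N r A ⊆ C.N r' B := by
  exact fun x ⟨a, ha, hd⟩ => ⟨a, h ha, hd.trans hr⟩

theorem N_N (r r' : ℕ) (A : Set Γ) : C.N r (C.N r' A) ⊆ C.N (r + r') A := by
  exact fun x ⟨a, ⟨b, hb, hab⟩, hd⟩ => ⟨b, hb, (C.d_tri x a b).trans (add_le_add hd hab)⟩

theorem finite_N (r : ℕ) {A : Set Γ} (h : A.Finite) : (C.N r A).Finite := by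
  refine (h.biUnion fun a _ => C.finite_ball a r).subset fun x ⟨a, ha, hd⟩ => ?_
  exact mem_biUnion ha (by rw [C.d_comm] at hd; exact hd)

theorem geo_d {x y : Γ} {n : ℕ} (h : C.d x y = n + 1) : ∃ z, C.d x z = n ∧ C.d z y ≤ 1 := by
  obtain ⟨k, hk, hk'⟩ := C.geo _ _ h
  exact ⟨x * k, by rw [d_mul_right, hk], by simpa [d, mul_assoc] using hk'⟩

variable {C}

theorem Ch.symm {D : ℕ} {A : Set Γ} {x y : Γ} (h : C.Ch D A x y) : C.Ch D A y x := by
  induction h with
  | refl => exact Relation.ReflTransGen.refl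
  | tail _ hbc ih =>
    exact Relation.ReflTransGen.head ⟨hbc.2.1, hbc.1, by rw [C.d_comm]; exact hbc.2.2⟩ ih

theorem Ch.trans {D : ℕ} {A : Set Γ} {x y z : Γ} (h : C.Ch D A x y) (h' : C.Ch D A y z) :
    C.Ch D A x z := by
  exact Relation.ReflTransGen.trans h h'

theorem Ch.mono {D D' : ℕ} {A B : Set Γ} {x y : Γ} (h : C.Ch D A x y) (hD : D ≤ D')
    (hA : A ⊆ B) : C.Ch D' B x y := by
  induction h with
  | refl => exact Relation.ReflTransGen.refl
  | tail _ hbc ih =>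
    exact Relation.ReflTransGen.tail ih ⟨hA hbc.1, hA hbc.2.1, hbc.2.2.trans hD⟩

theorem Ch.mem {D : ℕ} {A : Set Γ} {x y : Γ} (h : C.Ch D A x y) (hx : x ∈ A) : y ∈ A := by
  induction h with
  | refl => exact hx
  | tail _ hbc _ => exact hbc.2.1

theorem Ch.smul {D : ℕ} {A : Set Γ} {x y : Γ} (h : C.Ch D A x y) (g : Γ) :
    C.Ch D (g • A) (g * x) (g * y) := by
  induction h with
  | refl => exact Relation.ReflTransGen.refl
  | tail _ hbc ih =>
    exact Relation.ReflTransGen.tail ih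
      ⟨smul_mem_smul_set hbc.1, smul_mem_smul_set hbc.2.1, by rw [d_mul]; exact hbc.2.2⟩

/-- A chain stays in the component of its first point. -/
theorem Ch.comp {D : ℕ} {A : Set Γ} {x y : Γ} (h : C.Ch D A x y) :
    C.Ch D {w | C.Ch D A x w} x y := by
  induction h with
  | refl => exact Relation.ReflTransGen.refl
  | tail hab hbc ih =>
    exact Relation.ReflTransGen.tail ih ⟨hab, Relation.ReflTransGen.tail hab hbc, hbc.2.2⟩

theorem Ch.exists_finite {D : ℕ} {A : Set Γ} {x y : Γ} (h : C.Ch D A x y) (hx : x ∈ A) :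
    ∃ P ⊆ A, P.Finite ∧ x ∈ P ∧ y ∈ P ∧ C.Ch D P x y := by
  induction h with
  | refl => exact ⟨{x}, by simpa using hx, finite_singleton x, rfl, rfl, Relation.ReflTransGen.refl⟩
  | @tail b c _ hbc ih =>
    obtain ⟨P, hP, hf, hxP, hbP, hch⟩ := ih
    refine ⟨insert c P, insert_subset hbc.2.1 hP, hf.insert c, Or.inr hxP, Or.inl rfl, ?_⟩
    exact Relation.ReflTransGen.tail (hch.mono le_rfl (subset_insert c P))
      ⟨Or.inr hbP, Or.inl rfl, hbc.2.2⟩

/-- A property that is constant on steps is constant on chains. -/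
theorem Ch.const {D : ℕ} {A : Set Γ} {x y : Γ} (h : C.Ch D A x y) {α : Sort*} (φ : Γ → α)
    (hφ : ∀ a ∈ A, ∀ b ∈ A, C.d a b ≤ D → φ a = φ b) : φ x = φ y := by
  induction h with
  | refl => rfl
  | tail _ hbc ih => exact ih.trans (hφ _ hbc.1 _ hbc.2.1 hbc.2.2)

theorem Ch.same {A U : Set Γ} {x y : Γ} (h : C.Ch 1 A x y) (hA : Disjoint A (C.W U)) :
    x ∈ U ↔ y ∈ U := by
  have := h.const (fun z => z ∈ U) fun a ha b _ hab => by
    by_contra hc
    exact disjoint_left.1 hA ha ⟨b, hab, fun h => hc (propext h)⟩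
  exact Iff.of_eq this

variable (C)

theorem ch_geo (x y : Γ) : C.Ch 1 {z | C.d x z ≤ C.d x y ∧ C.d z y ≤ C.d x y} x y := by
  suffices H : ∀ (n : ℕ) (y : Γ), C.d x y = n →
      C.Ch 1 {z | C.d x z ≤ n ∧ C.d z y + C.d x z ≤ n} x y by
    exact (H _ y rfl).mono le_rfl fun z hz => ⟨hz.1, le_trans (Nat.le_add_right _ _) hz.2⟩
  intro n
  induction n with
  | zero =>
    intro y h
    obtain rfl := C.d_eq_zero.1 h
    exact Relation.ReflTransGen.refl
  | succ n ih =>
    intro y h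
    obtain ⟨z, hz, hzy⟩ := C.geo_d h
    refine Relation.ReflTransGen.tail ((ih z hz).mono le_rfl fun w hw => ?_) ⟨?_, ?_, hzy⟩
    · have := C.d_tri w z y
      obtain ⟨h1, h2⟩ := hw
      exact ⟨by omega, by omega⟩
    · exact ⟨by omega, by omega⟩
    · exact ⟨by omega, by rw [d_self]; omega⟩

theorem conn_univ : C.Conn univ := by
  exact fun x _ y _ => (C.ch_geo x y).mono le_rfl (subset_univ _)

theorem conn_ball (n : ℕ) : C.Conn {g | C.len g ≤ n} := by
  have H : ∀ x, C.len x ≤ n → C.Ch 1 {g | C.len g ≤ n} 1 x := fun x hx =>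
    (C.ch_geo 1 x).mono le_rfl fun z hz => by
      have := hz.1
      rw [d_one, d_one] at this
      exact this.trans hx
  exact fun x hx y hy => (H x hx).symm.trans (H y hy)

theorem conn_comp (A : Set Γ) (x : Γ) : C.Conn {y | C.Ch 1 A x y} := by
  exact fun y hy z hz => (Ch.comp hy).symm.trans (Ch.comp hz)

theorem conn_smul {A : Set Γ} (h : C.Conn A) (g : Γ) : C.Conn (g • A) := by
  rintro _ ⟨x, hx, rfl⟩ _ ⟨y, hy, rfl⟩
  exact (h x hx y hy).smul g

theorem conn_union {A B : Set Γ} (hA : C.Conn A) (hB : C.Conn B) (h : (A ∩ B).Nonempty) :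
    C.Conn (A ∪ B) := by
  obtain ⟨p, hpA, hpB⟩ := h
  have H : ∀ x ∈ A ∪ B, C.Ch 1 (A ∪ B) p x := by
    rintro x (hx | hx)
    · exact (hA p hpA x hx).mono le_rfl subset_union_left
    · exact (hB p hpB x hx).mono le_rfl subset_union_right
  exact fun x hx y hy => (H x hx).symm.trans (H y hy)

theorem conn_iUnion {ι : Type} {A : Set Γ} {B : ι → Set Γ} (hA : C.Conn A)
    (hB : ∀ i, C.Conn (B i)) (h : ∀ i, (A ∩ B i).Nonempty) : C.Conn (A ∪ ⋃ i, B i) := by
  have H : ∀ x ∈ A ∪ ⋃ i, B i, ∃ a ∈ A, C.Ch 1 (A ∪ ⋃ i, B i) a x := by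
    rintro x (hx | hx)
    · exact ⟨x, hx, Relation.ReflTransGen.refl⟩
    · obtain ⟨i, hi⟩ := mem_iUnion.1 hx
      obtain ⟨p, hpA, hpB⟩ := h i
      exact ⟨p, hpA, (hB i p hpB x hi).mono le_rfl
        ((subset_iUnion B i).trans subset_union_right)⟩
  intro x hx y hy
  obtain ⟨a, ha, hax⟩ := H x hx
  obtain ⟨b, hb, hby⟩ := H y hy
  exact (hax.symm.trans ((hA a ha b hb).mono le_rfl subset_union_left)).trans hby

theorem W_compl (U : Set Γ) : C.W Uᶜ = C.W U := by
  ext x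
  simp only [W, mem_ofPred_eq, mem_compl_iff, not_iff_not]

theorem W_smul (g : Γ) (U : Set Γ) : C.W (g • U) = g • C.W U := by
  ext x
  rw [mem_smul_set_iff_inv_smul_mem]
  simp only [W, mem_ofPred_eq, mem_smul_set_iff_inv_smul_mem, smul_eq_mul]
  constructor
  · rintro ⟨y, hd, h⟩
    exact ⟨g⁻¹ * y, by rwa [d_mul], h⟩
  · rintro ⟨y, hd, h⟩
    refine ⟨g * y, ?_, by simpa using h⟩
    rw [← C.d_mul g⁻¹]; simpa using hd

theorem mem_N_W {U : Set Γ} {r : ℕ} {x y : Γ} (hd : C.d x y ≤ r) (h : ¬(x ∈ U ↔ y ∈ U)) :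
    x ∈ C.N r (C.W U) := by
  by_contra hc
  refine h ((C.ch_geo x y).same (disjoint_left.2 fun z hz hw => hc ⟨z, hw, hz.1.trans hd⟩))

theorem W_nonempty {U : Set Γ} (h : U.Nonempty) (h' : Uᶜ.Nonempty) : (C.W U).Nonempty := by
  obtain ⟨x, hx⟩ := h
  obtain ⟨y, hy⟩ := h'
  obtain ⟨z, hz, _⟩ := C.mem_N_W (U := U) (le_refl (C.d x y)) fun e => hy (e.1 hx)
  exact ⟨z, hz⟩

theorem Rb_subset {r : ℕ} {A U : Set Γ} (h : A ⊆ U) : C.Rb r A U ⊆ C.N r (C.W U) := by
  rintro x ⟨a, b, c, ha, hb, -, hc, -, hbc, hac, rfl | rfl | rfl⟩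
  · exact C.mem_N_W hac fun e => hc (e.1 (h ha))
  · exact C.mem_N_W hbc fun e => hc (e.1 hb)
  · exact C.mem_N_W (by rwa [d_comm]) fun e => hc (e.2 hb)

variable {C} in
/-- A chain in `A` from a point outside `K` avoids `K` or reaches a point close to `K`. -/
theorem ch_exit {D : ℕ} {A K : Set Γ} {x y : Γ} (h : C.Ch D A x y) (hx : x ∈ A \ K) :
    C.Ch D (A \ K) x y ∨ ∃ z ∈ A \ K, z ∈ C.N D K ∧ C.Ch D (A \ K) x z := by
  induction h with
  | refl => exact Or.inl Relation.ReflTransGen.refl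
  | @tail b c _ hbc ih =>
    rcases ih with h | h
    · by_cases hc : c ∈ K
      · exact Or.inr ⟨b, h.mem hx, ⟨c, hc, hbc.2.2⟩, h⟩
      · exact Or.inl (Relation.ReflTransGen.tail h ⟨h.mem hx, ⟨hbc.2.1, hc⟩, hbc.2.2⟩)
    · exact Or.inr h

theorem fin_comp {A K : Set Γ} (hA : C.Conn A) (hK : K.Finite) :
    ∃ R ⊆ A \ K, R.Finite ∧ ∀ x ∈ A \ K, ∃ z ∈ R, C.Ch 1 (A \ K) z x := by
  by_cases hAK : (A ∩ K).Nonempty
  · obtain ⟨k, hkA, hkK⟩ := hAK
    refine ⟨(A \ K) ∩ C.N 1 K, inter_subset_left, (C.finite_N 1 hK).subset inter_subset_right,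
      fun x hx => ?_⟩
    rcases ch_exit (hA x hx.1 k hkA) hx with h | ⟨z, hz, hzN, h⟩
    · exact absurd hkK (h.mem hx).2
    · exact ⟨z, ⟨hz, hzN⟩, h.symm⟩
  · have e : A \ K = A := by
      ext x
      exact ⟨fun h => h.1, fun h => ⟨h, fun hk => hAK ⟨x, h, hk⟩⟩⟩
    rw [e]
    rcases A.eq_empty_or_nonempty with rfl | ⟨a, ha⟩
    · exact ⟨∅, empty_subset _, finite_empty, fun x hx => hx.elim⟩
    · exact ⟨{a}, by simpa using ha, finite_singleton a, fun x hx => ⟨a, rfl, hA a ha x hx⟩⟩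

theorem inf_comp {D : ℕ} {A K : Set Γ} (hA : ∀ x ∈ A, {y | C.Ch D A x y}.Infinite)
    (hK : K.Finite) : {x | x ∈ A \ K ∧ {y | C.Ch D (A \ K) x y}.Finite}.Finite := by
  have hf : {z | z ∈ C.N D K ∧ {y | C.Ch D (A \ K) z y}.Finite}.Finite :=
    (C.finite_N D hK).subset fun z hz => hz.1
  refine (hf.biUnion fun z hz => hz.2).subset fun x ⟨hx, hfin⟩ => ?_
  obtain ⟨y, hy, hy'⟩ := (hA x hx.1).exists_notMem_finite hfin
  rcases ch_exit hy hx with h | ⟨z, -, hzN, h⟩
  · exact absurd h hy'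
  · exact mem_biUnion (x := z) ⟨hzN, hfin.subset fun w hw => h.trans hw⟩ h.symm

end Cay

end Crest.Agent.R224
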