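import Crest.Agent.R224.ZB2
import Crest.Agent.R224.QC2

/-! R224, task Blk: blocks.

Write `Y = Bd Γ o` (closed: `isClosed_Bd`; preconnected: `preconn`).
`Blk.isQ`: `L` has a point `l ≠ b`, and `QL Y L b = qc Y b l` (`Blk.one`, `qc_eq`).
`Blk.disj`: `b' ∈ QL b`, `b ∈ QL b'`, so the two sets cover `Y` (`cover_of`).
`Blk.QL_sub`: `b ∉ L` gives `b' ∈ L` with `b ∉ QL b'`; `insert b' (QL b')` is connected, avoids `b`, meets `L`.

`retr`: `π y = y` on `L`, `π y = b` for the unique `b ∈ L` with `y ∉ QL b` (`ext`, `Blk.disj`).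
`Y \\ insert b (QL b)` is clopen (`Clo.compl`), so `π` is locally constant off `L`.  At `y ∈ L`: let `u ≠ v` in `L`,
`ε < dist u v / 2`; then each `QL b` (`b ∈ L` a cut point) has a point `ε`-far from `b`, so all but finitely many
`b` have `Y \\ QL b ⊆ ball b ε`; the finitely many other closed sets `Y \\ QL b`, `b ≠ y`, miss a neighbourhood
of `y`.
`cut_blk`: `S = {y ∈ Y | y ≠ p' ∧ π y ∈ H ∧ π y ≠ p'}` is clopen in `Y \\ {p'}` (if `π y ≠ p'` use continuity and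
`LocC`; if `π y = p'`, `y ∉ L` and `π` is locally constant).  So `p'` is a cut point, and `Blk.one` fails for
`ζ, ζ'`. -/

set_option autoImplicit false
set_option linter.unusedSectionVars false

namespace Crest.Agent.R224

open Set Filter Topology Pointwise

variable {Γ : Type} [Group Γ] {C : Cay Γ} {Z : Type} [MetricSpace Z] [CompactSpace Z]
  [MulAction Γ Z] [ContinuousConstSMul Γ Z] {o : Z} {r D : ℕ} {ξ : Fin 3 → Z} {L : Set Z}

namespace Blk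

variable {Y : Set Z} {b b' : Z}

theorem isQ (hL : Blk Y L) (hb : IsCut Y b) : IsQ Y b (QL Y L b) := by
  obtain ⟨v, hv, hvL⟩ := hL.three
  obtain ⟨l, hl, hne⟩ : ∃ l ∈ L, l ≠ b := by
    by_cases h0 : v 0 = b
    · exact ⟨v 1, hvL 1, fun e => absurd (hv (h0.trans e.symm)) (by decide)⟩
    · exact ⟨v 0, hvL 0, h0⟩
  refine ⟨hb, l, hL.sub hl, hne, Set.ext fun y => ⟨?_, fun hy => ⟨l, hl, hne, hy⟩⟩⟩
  rintro ⟨l', hl', hne', hy⟩
  rwa [qc_eq (hL.sub hl) hne (hL.one b hb l hl l' hl' hne hne')] at hy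

theorem mem_QL (hL : Blk Y L) {l : Z} (hl : l ∈ L) (hne : l ≠ b) : l ∈ QL Y L b := by
  exact ⟨l, hl, hne, mem_qc_self (hL.sub hl) hne⟩

theorem disj (hY : IsClosed Y) (hc : IsPreconnected Y) (hL : Blk Y L) (hb : IsCut Y b)
    (hb' : IsCut Y b') (h1 : b ∈ L) (h2 : b' ∈ L) (hne : b ≠ b') :
    Disjoint (Y \ QL Y L b) (Y \ QL Y L b') := by
  have e := IsQ.cover_of hY hc (hL.isQ hb) (hL.isQ hb') (hL.mem_QL h2 hne.symm) (hL.mem_QL h1 hne)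
  refine disjoint_left.2 fun y hy hy' => ?_
  have : y ∈ QL Y L b ∪ QL Y L b' := by rw [e]; exact hy.1
  exact this.elim hy.2 hy'.2

theorem QL_sub (hY : IsClosed Y) (hc : IsPreconnected Y) (hL : Blk Y L) (hb : IsCut Y b)
    (h1 : b ∉ L) : ∃ b' ∈ L, IsCut Y b' ∧ QL Y L b' ⊆ QL Y L b := by
  obtain ⟨b', hb'L, hb', hn⟩ := hL.ext b hb.1 h1
  have hne : b' ≠ b := fun e => h1 (e ▸ hb'L)
  refine ⟨b', hb'L, hb', (subset_insert b' _).trans ((hL.isQ hb).absorb ((hL.isQ hb').conn hY hc)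
    (insert_subset hb'.1 fun y hy => ((hL.isQ hb').subset hy).1) ?_ (mem_insert _ _)
    (hL.mem_QL hb'L hne))⟩
  rintro (e | e)
  · exact hne e.symm
  · exact hn e

theorem Xi_spec (hL : Blk Y L) (z₀ : Z) : Function.Injective (Xi L z₀) ∧ ∀ i, Xi L z₀ i ∈ L := by
  rw [Xi, dif_pos hL.three]
  exact hL.three.choose_spec

end Blk

namespace Cv

/-- All but finitely many branches of a block are small. -/
theorem branch_small (h : Cv C o) (h2 : C.H2) (ht : Tame C o ξ D) (hL : Blk (Bd Γ o) L) {ε : ℝ}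
    (hε : 0 < ε) : {b | b ∈ L ∧ IsCut (Bd Γ o) b ∧
      ∃ y ∈ Bd Γ o \ QL (Bd Γ o) L b, ε ≤ dist y b}.Finite := by
  obtain ⟨v, hv, hvL⟩ := hL.three
  have hd : 0 < dist (v 0) (v 1) := dist_pos.2 fun e => absurd (hv e) (by decide)
  refine Set.Finite.of_finite_image (f := QL (Bd Γ o) L)
    ((ht.small (min ε (dist (v 0) (v 1) / 2)) (by positivity)).subset ?_) ?_
  · rintro _ ⟨b, ⟨-, hb, y, hy, hyd⟩, rfl⟩
    refine ⟨b, hL.isQ hb, ?_, y, hy, (min_le_left _ _).trans hyd⟩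
    obtain ⟨i, hi⟩ : ∃ i, dist (v 0) (v 1) / 2 ≤ dist (v i) b := by
      by_contra hc
      push Not at hc
      linarith [dist_triangle_right (v 0) (v 1) b, hc 0, hc 1]
    refine ⟨v i, hL.mem_QL (hvL i) fun e => ?_, (min_le_right _ _).trans hi⟩
    rw [e, dist_self] at hi
    linarith
  · intro b hb b' hb' e
    exact (hL.isQ hb.2.1).unique h.isClosed_Bd (h.preconn h2) (e ▸ hL.isQ hb'.2.1)

theorem retr (h : Cv C o) (h2 : C.H2) (ht : Tame C o ξ D) (hL : Blk (Bd Γ o) L) :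
    ∃ π : Z → Z, (∀ y ∈ Bd Γ o, π y ∈ L) ∧ (∀ y ∈ L, π y = y) ∧ ContinuousOn π (Bd Γ o) ∧
      ∀ y ∈ Bd Γ o, y ∉ L → ∀ᶠ y' in 𝓝[Bd Γ o] y, π y' = π y := by
  classical
  let π : Z → Z := fun y =>
    if h : ∃ b ∈ L, IsCut (Bd Γ o) b ∧ y ∉ QL (Bd Γ o) L b then h.choose else y
  have hP : ∀ y ∈ Bd Γ o, ∀ b ∈ L, IsCut (Bd Γ o) b → y ∉ QL (Bd Γ o) L b → π y = b := by
    intro y hy b hbL hb hn
    have hex : ∃ b ∈ L, IsCut (Bd Γ o) b ∧ y ∉ QL (Bd Γ o) L b := ⟨b, hbL, hb, hn⟩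
    have e : π y = hex.choose := dif_pos hex
    obtain ⟨a1, a2, a3⟩ := hex.choose_spec
    rw [e]
    by_contra hne
    exact disjoint_left.1 (hL.disj h.isClosed_Bd (h.preconn h2) a2 hb a1 hbL hne) ⟨hy, a3⟩ ⟨hy, hn⟩
  have hid : ∀ y ∈ L, π y = y := by
    intro y hy
    by_cases hex : ∃ b ∈ L, IsCut (Bd Γ o) b ∧ y ∉ QL (Bd Γ o) L b
    · obtain ⟨b, hbL, hb, hn⟩ := hex
      rw [hP y (hL.sub hy) b hbL hb hn]
      by_contra hne
      exact hn (hL.mem_QL hy (Ne.symm hne))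
    · exact dif_neg hex
  have hloc : ∀ y ∈ Bd Γ o, y ∉ L → ∀ᶠ y' in 𝓝[Bd Γ o] y, π y' = π y := by
    intro y hy hyL
    obtain ⟨b, hbL, hb, hn⟩ := hL.ext y hy hyL
    have hne : y ≠ b := fun e => hyL (e ▸ hbL)
    filter_upwards [(ht.opn b _ (hL.isQ hb)).2 y hy hne, self_mem_nhdsWithin] with y' h1 h3
    rw [hP y hy b hbL hb hn, hP y' h3 b hbL hb fun e => hn (h1.1 e)]
  refine ⟨π, fun y hy => ?_, hid, fun y hy => ?_, hloc⟩
  · by_cases hyL : y ∈ L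
    · rwa [hid y hyL]
    · obtain ⟨b, hbL, hb, hn⟩ := hL.ext y hy hyL
      rwa [hP y hy b hbL hb hn]
  by_cases hyL : y ∈ L
  swap
  · exact tendsto_const_nhds.congr' ((hloc y hy hyL).mono fun y' e => e.symm)
  rw [ContinuousWithinAt, hid y hyL, Metric.tendsto_nhds]
  intro ε hε
  have hF := h.branch_small h2 ht hL (half_pos hε)
  have e1 : ∀ᶠ y' in 𝓝[Bd Γ o] y, ∀ b ∈ {b | b ∈ L ∧ IsCut (Bd Γ o) b ∧
      ∃ y ∈ Bd Γ o \ QL (Bd Γ o) L b, ε / 2 ≤ dist y b}, b ≠ y → y' ∈ QL (Bd Γ o) L b := by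
    refine (eventually_all_finite hF).2 fun b hb => ?_
    by_cases hby : b = y
    · exact Eventually.of_forall fun _ h => (h hby).elim
    · filter_upwards [(ht.opn b _ (hL.isQ hb.2.1)).2 y hy (Ne.symm hby)] with y' h1 _
      exact h1.2 (hL.mem_QL hyL (Ne.symm hby))
  have e2 : ∀ᶠ y' in 𝓝[Bd Γ o] y, dist y' y < ε / 2 :=
    mem_nhdsWithin_of_mem_nhds (Metric.ball_mem_nhds y (half_pos hε))
  filter_upwards [e1, e2, self_mem_nhdsWithin] with y' h1 h3 h4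
  by_cases hy'L : y' ∈ L
  · rw [hid y' hy'L]; linarith
  obtain ⟨b, hbL, hb, hn⟩ := hL.ext y' h4 hy'L
  rw [hP y' h4 b hbL hb hn]
  by_cases hby : b = y
  · rwa [hby, dist_self]
  · have : dist y' b < ε / 2 := not_le.1 fun hle => hn (h1 b ⟨hbL, hb, y', ⟨h4, hn⟩, hle⟩ hby)
    linarith [dist_triangle_left b y y']

theorem cut_blk (h : Cv C o) (h2 : C.H2) (ht : Tame C o ξ D) (hL : Blk (Bd Γ o) L) {p' ζ ζ' : Z}
    (hp : p' ∈ Bd Γ o) {H : Set Z} (hH : ∀ y ∈ L, y ≠ p' → LocC L H y) (h1 : ζ ∈ L) (h2' : ζ' ∈ L)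
    (h3 : ζ ≠ p') (h4 : ζ' ≠ p') (h5 : ζ ∈ H) (h6 : ζ' ∉ H) : False := by
  obtain ⟨π, hπL, hid, hcont, hloc⟩ := h.retr h2 ht hL
  let S : Set Z := {y | y ∈ Bd Γ o ∧ y ≠ p' ∧ π y ∈ H ∧ π y ≠ p'}
  have hS : Clo (Bd Γ o) p' S := by
    refine ⟨fun y hy => ⟨hy.1, hy.2.1⟩, fun y hy hne => ?_⟩
    by_cases e : π y = p'
    · have hyL : y ∉ L := fun hyL => hne ((hid y hyL).symm.trans e)
      filter_upwards [hloc y hy hyL] with y' h'
      exact ⟨fun a => (a.2.2.2 (h'.trans e)).elim, fun a => (a.2.2.2 e).elim⟩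
    · have t : Tendsto π (𝓝[Bd Γ o] y) (𝓝[L] (π y)) :=
        tendsto_nhdsWithin_iff.2 ⟨hcont y hy, eventually_mem_nhdsWithin.mono fun y' h' => hπL y' h'⟩
      have e1 : ∀ᶠ y' in 𝓝[Bd Γ o] y, π y' ≠ p' := (hcont y hy).eventually_ne e
      have e2 : ∀ᶠ y' in 𝓝[Bd Γ o] y, y' ≠ p' := mem_nhdsWithin_of_mem_nhds (isOpen_ne.mem_nhds hne)
      filter_upwards [t.eventually (hH _ (hπL y hy) e), e1, e2, self_mem_nhdsWithin] with
        y' a1 a2 a3 a4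
      exact ⟨fun a => ⟨hy, hne, a1.1 a.2.2.1, e⟩, fun a => ⟨a4, a3, a1.2 a.2.2.1, a2⟩⟩
  have hζ : ζ ∈ S := ⟨hL.sub h1, h3, by rwa [hid ζ h1], by rwa [hid ζ h1]⟩
  have hζ' : ζ' ∉ S := fun a => h6 (hid ζ' h2' ▸ a.2.2.1)
  exact hζ' ((hL.one p' ⟨hp, S, hS, ⟨ζ, hζ⟩, ζ', hL.sub h2', h4, hζ'⟩ ζ h1 ζ' h2' h3 h4).2.2 S hS hζ)

end Cv

end Crest.Agent.R224
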