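import Crest.Agent.R224.Blk

/-! R224, task Blk2: existence of a block with a weak cut point.  `Y = Bd Γ o`.

`exists_blk`: cut points are countable, so there is a weak cut point `p` that is not a cut point.  (i) A compact
preconnected `K ⊆ Y` with `p ∉ K` cannot contain both `z, z'` (`LocC.const` for small `ε`).  Let
`𝒬₀ = {Q | IsQ b Q, p ∉ Q}`, `L = Y \\ ⋃ 𝒬₀`.  (ii) `𝒬₀` has no strictly increasing sequence `Q n`: `Q 1` has two
points `u, v`, so for every `ε < dist u v / 2` all but finitely many `n` have `Y \\ Q n ⊆ ball (b n) ε`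
(`Tame.small`); as `p ∈ Y \\ Q n`, for small `ε` both `z, z'` lie in `Q n`, and `insert (b n) (Q n)` contradicts
(i).  So each member lies in a maximal one (`WellFounded`/`RelEmbedding.wellFounded_iff_isEmpty`, or
`Set.WellFoundedOn`).  (iii) For maximal `Q` with point `b`, `b ∈ L`: if `b ∈ Q'` with `Q'` maximal, then
`Q ∩ Q' ≠ ∅` (`b ∈ closure Q`, `Q'` open), `p` is in neither, so `Q = Q'` (`nest`), absurd.  (iv) `one`: for a cut point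
`b`, all points of `L \\ {b}` lie in `qc b p`.  `ext`: `y ∈ Q` maximal, `QL b = qc b p` is disjoint from `Q`.
(v) `z₁ = z` if `z ∈ L`, otherwise the point `b` of a maximal `Q ∋ z`; the same for `z'`.  For small `ε` the set
`H` is constant on `insert b Q`; so `WS L p z₁ z₁'` (use the `H` of `min ε ε₀`), `z₁ ≠ z₁'`, and `p, z₁, z₁'` are
three points of `L`. -/

set_option autoImplicit false
set_option linter.unusedSectionVars false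

namespace Crest.Agent.R224

open Set Filter Topology Pointwise

variable {Γ : Type} [Group Γ] {C : Cay Γ} {Z : Type} [MetricSpace Z] [CompactSpace Z]
  [MulAction Γ Z] [ContinuousConstSMul Γ Z] {o : Z} {r D : ℕ} {ξ : Fin 3 → Z} {L : Set Z}

theorem blk2_inj {α : Type} {a b c : α} (h1 : a ≠ b) (h2 : a ≠ c) (h3 : b ≠ c) :
    Function.Injective ![a, b, c] := by
  intro i j hij
  fin_cases i <;> fin_cases j <;> simp_all [eq_comm]

theorem blk2_far {K : Set Z} {p : Z} (hK : IsClosed K) (hp : p ∉ K) : ∃ e > 0, ∀ y ∈ K, e ≤ dist y p := by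
  obtain ⟨e, he, h⟩ := Metric.isOpen_iff.1 hK.isOpen_compl p hp
  exact ⟨e, he, fun y hy => not_lt.1 fun h' => h h' hy⟩

theorem blk2_const {Y K : Set Z} {p : Z} (hK : IsClosed K) (hc : IsPreconnected K) (hs : K ⊆ Y) (hp : p ∉ K) :
    ∃ e > 0, ∀ H : Set Z, (∀ y ∈ Y, e ≤ dist y p → LocC Y H y) → ∀ u ∈ K, ∀ v ∈ K, (u ∈ H ↔ v ∈ H) := by
  obtain ⟨e, he, h⟩ := blk2_far hK hp
  exact ⟨e, he, fun H hH u hu v hv => LocC.const hc (fun y hy => (hH y (hs hy) (h y hy)).mono hs) hu hv⟩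

theorem blk2_main {Y : Set Z} (hY : IsClosed Y) (hc : IsPreconnected Y)
    (hsm : ∀ ε > 0, {Q | ∃ b, IsQ Y b Q ∧ (∃ y ∈ Q, ε ≤ dist y b) ∧ ∃ y ∈ Y \ Q, ε ≤ dist y b}.Finite)
    {p z z' : Z} (hp : p ∈ Y) (hz : z ∈ Y) (hz' : z' ∈ Y) (hpc : ¬IsCut Y p) (hw : WS Y p z z') :
    ∃ (L : Set Z) (z₁ z₁' : Z), Blk Y L ∧ p ∈ L ∧ z₁ ∈ L ∧ z₁' ∈ L ∧ WS L p z₁ z₁' := by
  have hsub : ∀ {b Q}, IsQ Y b Q → insert b Q ⊆ Y := fun h => insert_subset h.1.1 (h.subset.trans sdiff_subset)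
  have hpK : ∀ {b Q}, IsQ Y b Q → p ∉ Q → p ∉ insert b Q := fun h hQ h1 =>
    h1.elim (fun e => hpc (e ▸ h.1)) hQ
  -- (i)
  have h1 : ∀ {b Q}, IsQ Y b Q → p ∉ Q → z ∈ insert b Q → z' ∈ insert b Q → False := by
    intro b Q h hQ h2 h3
    obtain ⟨e, he, H1⟩ := blk2_const (h.closed hY) (h.conn hY hc) (hsub h) (hpK h hQ)
    obtain ⟨H, h4, h5, h6⟩ := hw.2.2 e he
    exact h5 ((H1 H h6 z h2 z' h3).1 h4)
  -- (ii)
  have h2 : ∀ {b Q}, IsQ Y b Q → p ∉ Q → ∃ b' Q', IsQ Y b' Q' ∧ p ∉ Q' ∧ Q ⊆ Q' ∧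
      ∀ b'' Q'', IsQ Y b'' Q'' → p ∉ Q'' → Q' ⊆ Q'' → Q'' ⊆ Q' := by
    intro b₀ Q₀ h hQ
    obtain ⟨v, hv⟩ := h.nonempty
    have d1 : 0 < dist v b₀ := dist_pos.2 (h.subset hv).2
    have d2 : 0 < dist p z := dist_pos.2 hw.1
    have d3 : 0 < dist p z' := dist_pos.2 hw.2.1
    obtain ⟨ε, hε, e1, e2, e3⟩ : ∃ ε > 0, 2 * ε ≤ dist v b₀ ∧ 2 * ε ≤ dist p z ∧ 2 * ε ≤ dist p z' := by
      refine ⟨min (dist v b₀) (min (dist p z) (dist p z')) / 2, by positivity, ?_, ?_, ?_⟩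
      · linarith [min_le_left (dist v b₀) (min (dist p z) (dist p z'))]
      · linarith [min_le_right (dist v b₀) (min (dist p z) (dist p z')), min_le_left (dist p z) (dist p z')]
      · linarith [min_le_right (dist v b₀) (min (dist p z) (dist p z')), min_le_right (dist p z) (dist p z')]
    have hfin : {Q | (∃ b, IsQ Y b Q) ∧ p ∉ Q ∧ Q₀ ⊆ Q}.Finite := by
      refine ((hsm ε hε).insert Q₀).subset ?_
      rintro Q ⟨⟨b, hb⟩, hpQ, hs⟩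
      rcases hs.eq_or_ssubset with e | hs'
      · exact Or.inl e.symm
      have h3 := h.ssub hY hc hb hs'
      refine Or.inr ⟨b, hb, ?_, ?_⟩
      · by_contra hn
        push Not at hn
        linarith [hn v (hs hv), hn b₀ (h3 (mem_insert _ _)), dist_triangle_right v b₀ b]
      · by_contra hn
        push Not at hn
        have h4 := hn p ⟨hp, hpQ⟩
        refine h1 hb hpQ (Or.inr (by_contra fun h5 => ?_)) (Or.inr (by_contra fun h5 => ?_))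
        · linarith [hn z ⟨hz, h5⟩, dist_triangle_right p z b]
        · linarith [hn z' ⟨hz', h5⟩, dist_triangle_right p z' b]
    obtain ⟨Q', h3, ⟨⟨b', hb'⟩, h4, -⟩, h5⟩ := hfin.exists_le_maximal (a := Q₀) ⟨⟨b₀, h⟩, hQ, subset_rfl⟩
    exact ⟨b', Q', hb', h4, h3, fun b'' Q'' h6 h7 h8 => h5 ⟨⟨b'', h6⟩, h7, h3.trans h8⟩ h8⟩
  set L : Set Z := {y | y ∈ Y ∧ ∀ b Q, IsQ Y b Q → p ∉ Q → y ∉ Q} with hL
  -- (iii)
  have h3 : ∀ y ∈ Y, y ∉ L → ∃ b Q, IsQ Y b Q ∧ p ∉ Q ∧ y ∈ Q ∧ b ∈ L := by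
    intro y hy hyL
    obtain ⟨b₀, Q₀, h, hQ, hyQ⟩ : ∃ b Q, IsQ Y b Q ∧ p ∉ Q ∧ y ∈ Q := by
      by_contra hn
      exact hyL ⟨hy, fun b Q h4 h5 h6 => hn ⟨b, Q, h4, h5, h6⟩⟩
    obtain ⟨b, Q, hb, hpQ, hs, hmax⟩ := h2 h hQ
    refine ⟨b, Q, hb, hpQ, hs hyQ, hb.1.1, fun b' Q' hb' hpQ' hbQ' => ?_⟩
    by_cases h4 : b' ∈ Q
    · have h5 := hb.cover_of hY hc hb' h4 hbQ'
      exact (h5.symm.subset hp).elim hpQ hpQ'
    · have h5 := hb.sub_of hY hc hb' h4 hbQ'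
      exact (hb.subset (hmax b' Q' hb' hpQ' ((subset_insert _ _).trans h5) hbQ')).2 rfl
  have hpL : p ∈ L := ⟨hp, fun _ _ _ h => h⟩
  -- (v)
  have h4 : ∀ y ∈ Y, p ≠ y → ∃ y₁ ∈ L, p ≠ y₁ ∧ ∃ e > 0, ∀ H : Set Z,
      (∀ y ∈ Y, e ≤ dist y p → LocC Y H y) → (y₁ ∈ H ↔ y ∈ H) := by
    intro y hy hpy
    by_cases hyL : y ∈ L
    · exact ⟨y, hyL, hpy, 1, one_pos, fun _ _ => Iff.rfl⟩
    obtain ⟨b, Q, hb, hpQ, hyQ, hbL⟩ := h3 y hy hyL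
    obtain ⟨e, he, H1⟩ := blk2_const (hb.closed hY) (hb.conn hY hc) (hsub hb) (hpK hb hpQ)
    exact ⟨b, hbL, fun e' => hpc (e' ▸ hb.1), e, he, fun H hH => H1 H hH b (mem_insert _ _) y (Or.inr hyQ)⟩
  obtain ⟨z₁, hz₁, hp₁, e, he, H1⟩ := h4 z hz hw.1
  obtain ⟨z₁', hz₁', hp₁', e', he', H1'⟩ := h4 z' hz' hw.2.1
  have hws : WS L p z₁ z₁' := by
    refine ⟨hp₁, hp₁', fun ε hε => ?_⟩
    obtain ⟨H, h5, h6, h7⟩ := hw.2.2 (min ε (min e e')) (lt_min hε (lt_min he he'))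
    refine ⟨H, (H1 H fun y hy hd => h7 y hy ?_).2 h5, fun h8 => h6 ((H1' H fun y hy hd => h7 y hy ?_).1 h8),
      fun y hy hd => (h7 y hy.1 ((min_le_left _ _).trans hd)).mono fun _ h => h.1⟩
    · exact ((min_le_right _ _).trans (min_le_left _ _)).trans hd
    · exact ((min_le_right _ _).trans (min_le_right _ _)).trans hd
  have hne : z₁ ≠ z₁' := by
    rintro rfl
    obtain ⟨H, h5, h6, -⟩ := hws.2.2 1 one_pos
    exact h6 h5
  refine ⟨L, z₁, z₁', ⟨fun _ h => h.1, ⟨![p, z₁, z₁'], ?_, ?_⟩, ?_, ?_⟩, hpL, hz₁, hz₁', hws⟩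
  · exact blk2_inj hp₁ hp₁' hne
  · intro i
    fin_cases i
    exacts [hpL, hz₁, hz₁']
  · intro b hb y hy y' hy' hyb hyb'
    have q1 := hb.isQ hy.1 hyb
    have q2 := hb.isQ hy'.1 hyb'
    have p1 : p ∈ qc Y b y := by_contra fun h => hy.2 b _ q1 h (mem_qc_self hy.1 hyb)
    have p2 : p ∈ qc Y b y' := by_contra fun h => hy'.2 b _ q2 h (mem_qc_self hy'.1 hyb')
    rw [q1.eq_of_mem q2 p1 p2]
    exact mem_qc_self hy'.1 hyb'
  · intro y hy hyL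
    obtain ⟨b, Q, hb, hpQ, hyQ, hbL⟩ := h3 y hy hyL
    refine ⟨b, hbL, hb.1, ?_⟩
    rintro ⟨l, hl, hlb, hyl⟩
    refine hl.2 b Q hb hpQ ?_
    rw [hb.eq_of_mem (hb.1.isQ hl.1 hlb) hyQ hyl]
    exact mem_qc_self hl.1 hlb

namespace Cv

theorem exists_blk (h : Cv C o) (h2 : C.H2) (ht : Tame C o ξ D) (hw : WC (Bd Γ o)) :
    ∃ (L : Set Z) (p z z' : Z), Blk (Bd Γ o) L ∧ p ∈ L ∧ z ∈ L ∧ z' ∈ L ∧ WS L p z z' := by
  obtain ⟨z, hz, z', hz', hn⟩ := hw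
  obtain ⟨p, ⟨hp, hw⟩, hpc⟩ := not_subset.1 fun hs => hn (ht.cnt.mono hs)
  obtain ⟨L, z₁, z₁', H⟩ := blk2_main h.isClosed_Bd (h.preconn h2) ht.small hp hz hz' hpc hw
  exact ⟨L, p, z₁, z₁', H⟩

end Cv

end Crest.Agent.R224
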