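import Crest.Agent.R224.EG1

/-! R224, task EG2: consequences of the coarse hypotheses.

`fill`: `α`, `ω = δα` as in `EG1`; `ω` is a cocycle whose support at scale `r` lies in `Rb r A U`; `H3` gives
`β`, `α + β` is a cocycle at scale `1`, `H1` gives `φ`, `V = {φ = 1}`.
`conn_inner`: let `x₀ ∈ U ∩ W U`, `B` its component in `U ∩ W U`, and `c a b = 1` iff (`a ∈ B`, `b ∉ U`) or
(`b ∈ B`, `a ∉ U`).  In a triangle of adjacent vertices that meets both sides either one vertex lies in `U`, or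
two do and they are adjacent points of `U ∩ W U`; so `c` is a cocycle, `c = δφ`.  `φ` is constant on `U` and on
`Uᶜ`, and `c x₀ y₀ = 1` for an edge leaving `U`; so `c a b = 1` on all edges leaving `U`.
`conn_W`: every point of `W U \ U` is adjacent to a point of `U ∩ W U`.
`ray`: otherwise all components of `W U` are finite.  Let `P` be a finite set joining `x ∈ A` to `x' ∈ A'`,
`T` the (finite) union of the components that meet `P`, `c a b = 1` iff `a ∈ T` and `¬(a ∈ U ↔ b ∈ U)`.  In a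
triangle that meets both sides all three vertices lie in `W U`, in one component.  Apply `eg0`.
`vcyc`: let `F₁ = N (2 * r) F` (finite), so `N (2r) (W U) ⊆ {h ^ m * f | f ∈ F₁}`; `M` bounds `|m|` for the
finitely many `m` with `h ^ m ∈ F₁ * B(r) * F₁⁻¹`.  For finite `K` take `n` large and
`A = U ∩ {h ^ k * f | |k| ≤ n, f ∈ F₁}`.  In a rainbow triple `a, b, c` we have `b ∈ N r (W U)`, so
`b = h ^ l * f'` with `|l| > n`, `a = h ^ k * f` with `|k| ≤ n`, `|l - k| ≤ M`; hence the triple lies within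
`ρ₀` of `h ^ n` or of `h ^ (-n)` (`ρ₀` independent of `n`).  For `n` large these two balls avoid `K` and are
more than `r` apart (`len (h ^ m) → ∞` as `|m| → ∞`), so chains in `Rb` have diameter `≤ 2 ρ₀`.  Apply `eg`. -/

set_option autoImplicit false

namespace Crest.Agent.R224

open Set Filter Pointwise

namespace Cay

variable {Γ : Type} [Group Γ] {C : Cay Γ} {r : ℕ}

open Classical in
/-- the indicator of a proposition -/
noncomputable def eg2i (p : Prop) : ZMod 2 := if p then 1 else 0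

theorem eg2i_one {p : Prop} : eg2i p = 1 ↔ p := by
  by_cases h : p <;> simp [eg2i, h]

theorem eg2i_zero {p : Prop} : eg2i p = 0 ↔ ¬p := by
  by_cases h : p <;> simp [eg2i, h]

theorem eg2i_sum {p q s : Prop} : eg2i p + eg2i q + eg2i s = 0 ↔ (p ↔ ¬(q ↔ s)) := by
  by_cases hp : p <;> by_cases hq : q <;> by_cases hs : s <;> simp only [eg2i, hp, hq, hs] <;> decide

theorem eg2_p1 {a b c u v w : Prop} (hx : a → u) (hy : b → v) (hz : c → w)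
    (h : ¬((b ∧ ¬w) ∨ (c ∧ ¬v) ↔ ¬((a ∧ ¬w) ∨ (c ∧ ¬u) ↔ (a ∧ ¬v) ∨ (b ∧ ¬u)))) :
    (a ∧ v ∧ ¬b ∧ ¬w) ∨ (a ∧ w ∧ ¬c ∧ ¬v) ∨ (b ∧ u ∧ ¬a ∧ ¬w) ∨ (b ∧ w ∧ ¬c ∧ ¬u) ∨
      (c ∧ u ∧ ¬a ∧ ¬v) ∨ (c ∧ v ∧ ¬b ∧ ¬u) := by
  by_cases a <;> by_cases b <;> by_cases c <;> by_cases u <;> by_cases v <;> by_cases w <;> simp_all

theorem eg2_p2 {a b c u v w : Prop} (hx : a → u) (hy : b → v) (hz : c → w)
    (h4 : v → ¬w → a → b) (h5 : u → ¬w → b → a) (h6 : w → ¬v → a → c) (h7 : u → ¬v → c → a)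
    (h8 : w → ¬u → b → c) (h9 : v → ¬u → c → b) :
    (b ∧ ¬w) ∨ (c ∧ ¬v) ↔ ¬((a ∧ ¬w) ∨ (c ∧ ¬u) ↔ (a ∧ ¬v) ∨ (b ∧ ¬u)) := by
  by_cases a <;> by_cases b <;> by_cases c <;> by_cases u <;> by_cases v <;> by_cases w <;> simp_all

theorem eg2_p3 {a b u v w : Prop} (h1 : ¬(v ↔ u) → a → b) (h2 : ¬(v ↔ w) → a → b)
    (h3 : ¬(u ↔ v) → b → a) (h4 : ¬(u ↔ w) → b → a) :
    b ∧ ¬(v ↔ w) ↔ ¬(a ∧ ¬(u ↔ w) ↔ a ∧ ¬(u ↔ v)) := by
  by_cases a <;> by_cases b <;> by_cases u <;> by_cases v <;> by_cases w <;> simp_all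

theorem eg2_eq {a b : ZMod 2} (h : 0 = a + b) : a = b := by
  revert a b
  decide

theorem eg2_len {F : Set Γ} (hF : F.Finite) : ∃ L, ∀ f ∈ F, C.len f ≤ L := by
  obtain ⟨L, hL⟩ := (hF.image C.len).bddAbove
  exact ⟨L, fun f hf => hL ⟨f, hf, rfl⟩⟩

theorem eg2_abs {S : Set ℤ} (hS : S.Finite) : ∃ M : ℕ, ∀ m ∈ S, m.natAbs ≤ M := by
  obtain ⟨L, hL⟩ := (hS.image Int.natAbs).bddAbove
  exact ⟨L, fun f hf => hL ⟨f, hf, rfl⟩⟩

theorem eg2_pow {h : Γ} (hh : Function.Injective fun m : ℤ => h ^ m) (B : ℕ) :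
    ∃ M : ℕ, ∀ m : ℤ, C.len (h ^ m) ≤ B → m.natAbs ≤ M :=
  eg2_abs ((C.fin B).preimage hh.injOn)

theorem fill (hy : C.Hyp r) {A U : Set Γ} (hA : A ⊆ U) (h : (C.Rb r A U).Finite) :
    ∃ V K : Set Γ, K.Finite ∧ ∀ x y, C.d x y ≤ 1 → x ∉ K →
      (¬(x ∈ V ↔ y ∈ V) ↔ (x ∈ A ∧ y ∉ U) ∨ (y ∈ A ∧ x ∉ U)) := by
  set α : Γ → Γ → ZMod 2 := fun a b => eg2i ((a ∈ A ∧ b ∉ U) ∨ (b ∈ A ∧ a ∉ U)) with hα
  obtain ⟨β, K, hK, hβ, hω⟩ := hy.h3 (fun x y z => α y z + α x z + α x y)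
    (fun x y z w _ _ _ _ _ _ => by
      have : ∀ a b c d e f : ZMod 2, a + b + c + (a + d + e) + (b + d + f) + (c + e + f) = 0 := by
        decide
      exact this _ _ _ _ _ _)
    ⟨_, h, fun x y z hxy hyz hxz hne => by
      have hx := @hA x
      have hy := @hA y
      have hz := @hA z
      have hyx := C.d_comm x y ▸ hxy
      have hzy := C.d_comm y z ▸ hyz
      have hzx := C.d_comm x z ▸ hxz
      rw [Ne, hα, eg2i_sum] at hne
      have h6 := eg2_p1 hx hy hz hne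
      rcases h6 with ⟨h1, h2, h3, h4⟩ | ⟨h1, h2, h3, h4⟩ | ⟨h1, h2, h3, h4⟩ | ⟨h1, h2, h3, h4⟩ |
        ⟨h1, h2, h3, h4⟩ | ⟨h1, h2, h3, h4⟩
      · exact ⟨x, y, z, h1, h2, h3, h4, hxy, hyz, hxz, Or.inl rfl⟩
      · exact ⟨x, z, y, h1, h2, h3, h4, hxz, hzy, hxy, Or.inl rfl⟩
      · exact ⟨y, x, z, h1, h2, h3, h4, hyx, hxz, hyz, Or.inr (Or.inl rfl)⟩
      · exact ⟨y, z, x, h1, h2, h3, h4, hyz, hzx, hyx, Or.inr (Or.inr rfl)⟩
      · exact ⟨z, x, y, h1, h2, h3, h4, hzx, hxy, hzy, Or.inr (Or.inl rfl)⟩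
      · exact ⟨z, y, x, h1, h2, h3, h4, hzy, hyx, hzx, Or.inr (Or.inr rfl)⟩⟩
  obtain ⟨φ, hφ⟩ := hy.h1 (fun a b => α a b + β a b) fun x y z hxy hyz hxz => by
    have : ∀ a b c d e f : ZMod 2, a + b + c = d + e + f → a + d + (b + e) + (c + f) = 0 := by
      decide
    exact this _ _ _ _ _ _ (hω x y z hxy hyz hxz)
  refine ⟨{x | φ x = 1}, K, hK, fun x y hxy hx => ?_⟩
  have h1 : β x y = 0 := by_contra fun h => hx (hβ x y h).1
  have h2 := hφ x y hxy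
  rw [h1, add_zero] at h2
  have h3 : ∀ a b : ZMod 2, ¬(a = 1 ↔ b = 1) ↔ a + b = 1 := by decide
  exact (h3 _ _).trans (h2 ▸ eg2i_one)

theorem conn_inner (hy : C.Hyp r) {U : Set Γ} (hU : C.Conn U) (hU' : C.Conn Uᶜ) :
    C.Conn (U ∩ C.W U) := by
  intro x₀ hx₀ y hy₀
  set B : Set Γ := {w | C.Ch 1 (U ∩ C.W U) x₀ w} with hB
  have hBU : ∀ a, a ∈ B → a ∈ U := fun a ha => (Ch.mem ha hx₀).1
  have hstep : ∀ a b c, C.d a b ≤ 1 → C.d b c ≤ 1 → b ∈ U → c ∉ U → a ∈ B → b ∈ B :=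
    fun a b c hab hbc hb hc ha =>
      Relation.ReflTransGen.tail ha ⟨Ch.mem ha hx₀, ⟨hb, c, hbc, fun h => hc (h.1 hb)⟩, hab⟩
  obtain ⟨φ, hφ⟩ := hy.h1 (fun a b => eg2i ((a ∈ B ∧ b ∉ U) ∨ (b ∈ B ∧ a ∉ U)))
    fun x y z hxy hyz hxz => by
      have hyx := C.d_comm x y ▸ hxy
      have hzy := C.d_comm y z ▸ hyz
      have hzx := C.d_comm x z ▸ hxz
      exact eg2i_sum.2 (eg2_p2 (hBU x) (hBU y) (hBU z) (hstep x y z hxy hyz) (hstep y x z hyx hxz)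
        (hstep x z y hxz hzy) (hstep z x y hzx hxy) (hstep y z x hyz hzx) (hstep z y x hzy hyx))
  have hin : ∀ a ∈ U, ∀ b ∈ U, φ a = φ b := fun a ha b hb =>
    (hU a ha b hb).const φ fun a ha b hb hab =>
      eg2_eq ((eg2i_zero.2 fun h => h.elim (fun h => h.2 hb) fun h => h.2 ha).symm.trans (hφ a b hab))
  have hout : ∀ a ∉ U, ∀ b ∉ U, φ a = φ b := fun a ha b hb =>
    (hU' a ha b hb).const φ fun a ha b hb hab =>
      eg2_eq ((eg2i_zero.2 fun h => h.elim (fun h => ha (hBU a h.1)) fun h => hb (hBU b h.1)).symm.trans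
        (hφ a b hab))
  obtain ⟨x', hx', hx''⟩ := hx₀.2
  obtain ⟨y', hy', hy''⟩ := hy₀.2
  have h1 : x' ∉ U := fun h => hx'' (iff_of_true hx₀.1 h)
  have h2 : y' ∉ U := fun h => hy'' (iff_of_true hy₀.1 h)
  have h3 := hφ x₀ x' hx'
  rw [eg2i_one.2 (Or.inl ⟨Relation.ReflTransGen.refl, h1⟩), hin x₀ hx₀.1 y hy₀.1, hout x' h1 y' h2,
    ← hφ y y' hy'] at h3
  rcases eg2i_one.1 h3.symm with h | h
  · exact h.1
  · exact absurd hy₀.1 h.2

theorem conn_W (hy : C.Hyp r) {U : Set Γ} (hU : C.Conn U) (hU' : C.Conn Uᶜ) :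
    C.Conn (C.W U) := by
  have h : ∀ x ∈ C.W U, ∃ x' ∈ U ∩ C.W U, C.Ch 1 (C.W U) x x' := by
    intro x hx
    by_cases hxU : x ∈ U
    · exact ⟨x, ⟨hxU, hx⟩, Relation.ReflTransGen.refl⟩
    · obtain ⟨y, hxy, hy⟩ := id hx
      have h1 : y ∈ C.W U := ⟨x, C.d_comm x y ▸ hxy, fun h => hy h.symm⟩
      exact ⟨y, ⟨by_contra fun h => hy (iff_of_false hxU h), h1⟩, Relation.ReflTransGen.single ⟨hx, h1, hxy⟩⟩
  intro x hx y hy'
  obtain ⟨x', hx', h1⟩ := h x hx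
  obtain ⟨y', hy'', h2⟩ := h y hy'
  exact (h1.trans ((conn_inner hy hU hU' x' hx' y' hy'').mono le_rfl inter_subset_right)).trans h2.symm

theorem ray (hy : C.Hyp r) {U : Set Γ} (hU : C.Deep U) :
    ∃ x ∈ C.W U, {y | C.Ch 1 (C.W U) x y}.Infinite := by
  by_contra hc
  push Not at hc
  obtain ⟨A, A', hA, hA', cA, cA', iA, iA', -, -⟩ := hU 0
  obtain ⟨x, hx⟩ := iA.nonempty
  obtain ⟨x', hx'⟩ := iA'.nonempty
  obtain ⟨P, -, hP, -, -, hch⟩ := (C.conn_univ x trivial x' trivial).exists_finite trivial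
  set T : Set Γ := ⋃ p ∈ P ∩ C.W U, {y | C.Ch 1 (C.W U) p y} with hT
  have hTf : T.Finite := (hP.inter_of_left _).biUnion fun p hp => hc p hp.2
  have hstep : ∀ a b, C.d a b ≤ 1 → b ∈ C.W U → a ∈ T → b ∈ T := by
    intro a b hab hb ha
    obtain ⟨p, hp, h1⟩ := mem_iUnion₂.1 ha
    exact mem_iUnion₂.2 ⟨p, hp, Relation.ReflTransGen.tail h1 ⟨Ch.mem h1 hp.2, hb, hab⟩⟩
  refine eg0 hy (c := fun a b => eg2i (a ∈ T ∧ ¬(a ∈ U ↔ b ∈ U))) (fun x y z hxy hyz hxz => ?_) hTf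
    (fun x y _ h => (not_not.1 (mt eg2i_zero.2 h)).1) cA cA' iA iA'
    (fun a ha b hb _ => eg2i_zero.2 fun h => h.2 (iff_of_true (hA ha) (hA hb)))
    (fun a ha b hb _ => eg2i_zero.2 fun h => h.2 (iff_of_false (hA' ha) (hA' hb))) hx hx' hch
    (U := U) (fun a ha b _ hab => ?_) (hA hx) (hA' hx')
  · have hyx := C.d_comm x y ▸ hxy
    exact eg2i_sum.2 (eg2_p3 (fun h => hstep x y hxy ⟨x, hyx, h⟩) (fun h => hstep x y hxy ⟨z, hyz, h⟩)
      (fun h => hstep y x hyx ⟨y, hxy, h⟩) fun h => hstep y x hyx ⟨z, hxz, h⟩)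
  · rw [eg2i_zero]
    refine ⟨fun h => by_contra fun h' => h ⟨?_, h'⟩, fun h h' => h'.2 h⟩
    exact mem_iUnion₂.2 ⟨a, ⟨ha, b, hab, h'⟩, Relation.ReflTransGen.refl⟩

theorem vcyc (hy : C.Hyp r) {U : Set Γ} (hU : C.Deep U) {h : Γ}
    (hh : Function.Injective fun m : ℤ => h ^ m) {F : Set Γ} (hF : F.Finite)
    (hW : ∀ x ∈ C.W U, ∃ m : ℤ, ∃ f ∈ F, x = h ^ m * f) : False := by
  have hF₁ := C.finite_N r hF
  obtain ⟨L, hL⟩ := eg2_len (C := C) hF₁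
  obtain ⟨M, hM⟩ := eg2_pow (C := C) hh (L + r + L)
  obtain ⟨L', hL'⟩ := eg2_len (C := C) ((Set.finite_Icc (-M : ℤ) M).image fun m => h ^ m)
  refine eg hy hU (2 * (L' + L + r)) fun K hK => ?_
  obtain ⟨LK, hLK⟩ := eg2_len (C := C) hK
  obtain ⟨M₁, hM₁⟩ := eg2_pow (C := C) hh (LK + L)
  obtain ⟨M₂, hM₂⟩ := eg2_pow (C := C) hh (LK + 2 * (L' + L + r) + r)
  set n : ℕ := M₁ + M₂ + 1 with hn
  set A : Set Γ := U ∩ image2 (fun (k : ℤ) f => h ^ k * f) (Icc (-n : ℤ) n) (C.N r F) with hA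
  have hAf : A.Finite := ((Set.finite_Icc _ _).image2 _ hF₁).inter_of_right _
  have hnear : ∀ k e : ℤ, ∀ f ∈ C.N r F, k - e ∈ Icc (-M : ℤ) M → C.d (h ^ e) (h ^ k * f) ≤ L' + L := by
    intro k e f hf hk
    have h1 : (h ^ e)⁻¹ * (h ^ k * f) = h ^ (k - e) * f := by group
    rw [d, h1]
    exact (C.len_mul _ _).trans (add_le_add (hL' _ ⟨_, hk, rfl⟩) (hL f hf))
  have hRb : ∀ x ∈ C.Rb r A U, ∃ a ∈ A, C.d x a ≤ r ∧
      (C.d (h ^ (n : ℤ)) a ≤ L' + L ∨ C.d (h ^ (-n : ℤ)) a ≤ L' + L) := by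
    rintro x ⟨a, b, c, ha, hb, hb', hc, hab, hbc, hac, hx⟩
    refine ⟨a, ha, ?_, ?_⟩
    · rcases hx with rfl | rfl | rfl
      · rw [C.d_self]
        exact Nat.zero_le _
      · exact C.d_comm a x ▸ hab
      · exact C.d_comm a x ▸ hac
    obtain ⟨w, hw, hbw⟩ := C.mem_N_W hbc fun h => hc (h.1 hb)
    obtain ⟨l, f', hf', rfl⟩ := hW w hw
    obtain ⟨-, k, hk, f, hf, rfl⟩ := ha
    have h1 : (h ^ l)⁻¹ * b ∈ C.N r F :=
      ⟨f', hf', by rwa [← C.d_mul (h ^ l), mul_inv_cancel_left]⟩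
    have h2 : l ∉ Icc (-n : ℤ) n := fun hl => hb' ⟨hb, l, hl, _, h1, mul_inv_cancel_left _ _⟩
    have h3 : h ^ (l - k) = f * ((h ^ k * f)⁻¹ * b) * ((h ^ l)⁻¹ * b)⁻¹ := by group
    have h4 := hM (l - k) (by
      rw [h3]
      refine (C.len_mul _ _).trans (add_le_add ((C.len_mul _ _).trans (add_le_add (hL f hf) hab)) ?_)
      rw [C.len_inv]
      exact hL _ h1)
    rw [mem_Icc] at hk h2
    by_cases hl : 0 ≤ l
    · exact Or.inl (hnear k n f hf (by rw [mem_Icc]; omega))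
    · exact Or.inr (hnear k (-n) f hf (by rw [mem_Icc]; omega))
  have hRb' : ∀ x ∈ C.Rb r A U,
      C.d (h ^ (n : ℤ)) x ≤ L' + L + r ∨ C.d (h ^ (-n : ℤ)) x ≤ L' + L + r := by
    intro x hx
    obtain ⟨a, -, h1, h2⟩ := hRb x hx
    rw [C.d_comm] at h1
    exact h2.imp (fun h => (C.d_tri _ a _).trans (add_le_add h h1))
      fun h => (C.d_tri _ a _).trans (add_le_add h h1)
  have hfar : ∀ a b, C.d (h ^ (n : ℤ)) a ≤ L' + L + r → C.d (h ^ (-n : ℤ)) b ≤ L' + L + r →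
      C.d a b ≤ r → False := by
    intro a b h1 h2 h3
    have h4 := C.d_tri (h ^ (n : ℤ)) a (h ^ (-n : ℤ))
    have h5 := C.d_tri a b (h ^ (-n : ℤ))
    rw [C.d_comm] at h2
    have h6 : C.d (h ^ (n : ℤ)) (h ^ (-n : ℤ)) = C.len (h ^ (-n - n : ℤ)) := by
      rw [d]
      congr 1
      group
    have h7 := hM₂ (-n - n) (by omega)
    omega
  refine ⟨A, inter_subset_left, (C.finite_N r hAf).subset fun x hx => ?_, hAf.inter_of_left _, ?_, ?_, ?_⟩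
  · obtain ⟨a, ha, h1, -⟩ := hRb x hx
    exact ⟨a, ha, h1⟩
  · rintro x ⟨⟨hxK, hxU⟩, hxW⟩
    obtain ⟨m, f, hf, rfl⟩ := hW x hxW
    have hf' := C.subset_N r F hf
    have h1 := hM₁ m (by
      have h2 := C.len_mul (h ^ m * f) f⁻¹
      rw [mul_inv_cancel_right, C.len_inv] at h2
      exact h2.trans (add_le_add (hLK _ hxK) (hL f hf')))
    exact ⟨hxU, m, by rw [mem_Icc]; omega, f, hf', rfl⟩
  · refine disjoint_left.2 fun x hxK hx => ?_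
    have h1 : ∀ e : ℤ, C.d (h ^ e) x ≤ L' + L + r → e.natAbs ≤ M₂ := fun e he => hM₂ e (by
      have h2 := C.d_tri 1 x (h ^ e)
      rw [C.d_one, C.d_one, C.d_comm] at h2
      have h3 := hLK x hxK
      omega)
    rcases hRb' x hx with h2 | h2
    · have := h1 _ h2
      omega
    · have := h1 _ h2
      omega
  · intro x y hxy
    rcases Relation.ReflTransGen.cases_head hxy with rfl | ⟨z, hz, -⟩
    · rw [C.d_self]
      exact Nat.zero_le _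
    have hy' := hxy.mem hz.1
    have h1 := hxy.const (fun a => C.d (h ^ (n : ℤ)) a ≤ L' + L + r) fun a ha b hb hab =>
      propext ⟨fun h => (hRb' b hb).elim id fun h' => (hfar a b h h' hab).elim,
        fun h => (hRb' a ha).elim id fun h' => (hfar b a h h' (C.d_comm a b ▸ hab)).elim⟩
    have h2 : ∀ p, C.d p x ≤ L' + L + r → C.d p y ≤ L' + L + r → C.d x y ≤ 2 * (L' + L + r) := by
      intro p h3 h4
      have h5 := C.d_tri x p y
      rw [C.d_comm] at h3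
      omega
    by_cases h3 : C.d (h ^ (n : ℤ)) x ≤ L' + L + r
    · exact h2 _ h3 (h1 ▸ h3)
    · exact h2 _ ((hRb' x hz.1).resolve_left h3) ((hRb' y hy').resolve_left (h1 ▸ h3))

end Cay

end Crest.Agent.R224
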