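import Crest.Agent.R224.Bas

/-! R224, task Rho: the metric `rho` and its Mazurkiewicz metric.

`exists_w`: `w g = (1/2) ^ encode g`.  `isRho`: all series are dominated by `w`.  `unif`: reindex,
`rho (k x) (k y) = ∑ w (k g) |f (g⁻¹ x) - f (g⁻¹ y)| + ..`; outside a finite set `Φ` the weights `w (k g)` have sum
`< ε / 4`, on `Φ` they are `≤ c * w g`; and `w (k x) + w (k y) ≤ ε / 2` unless `x` or `y` lies in a finite set, in which
case `rho x y ≤ η` forces `x = y`.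
`exists_sys`: finite `Φ` with tail `< ε / 4`, `K = insert 1 {w > ε / 8}`, `m` with `2 / m * ∑ w ≤ ε / 4`; the windows are
`(k / m, (k + 1) / m)`, `k < m`, for every `g ∈ Φ` (index by `Fintype.equivFin (Φ × Fin m)`).  If two values in
`[0, 1]` differ by more than `2 / m`, a whole window lies between them.
`md`: the defining set is non-empty (`A = univ`) and bounded below by `ρ x y ≥ 0`; `md_tri`: `conn_union`. -/

set_option autoImplicit false
set_option linter.unusedSectionVars false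

namespace Crest.Agent.R224

open Set Filter Topology Pointwise MeasureTheory

namespace Cay

variable {Γ : Type} [Group Γ] {C : Cay Γ} {r : ℕ} {f : Γ → ℝ} {x₀ y₀ : Γ}

theorem rho_abs (hf : ∀ x, f x ∈ Icc (0 : ℝ) 1) (x y : Γ) : |f x - f y| ≤ 1 :=
  abs_sub_le_iff.2 ⟨by linarith [(hf x).2, (hf y).1], by linarith [(hf x).1, (hf y).2]⟩

theorem rho_summ {w : Γ → ℝ} (hw : ∀ g, 0 ≤ w g) (hs : Summable w) (hf : ∀ x, f x ∈ Icc (0 : ℝ) 1)
    (x y : Γ) : Summable fun g => w g * |f (g⁻¹ * x) - f (g⁻¹ * y)| :=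
  Summable.of_nonneg_of_le (fun g => mul_nonneg (hw g) (abs_nonneg _))
    (fun g => mul_le_of_le_one_right (hw g) (rho_abs hf _ _)) hs

theorem rho_tail {w : Γ → ℝ} (hw : ∀ g, 0 ≤ w g) (hs : Summable w) {ε : ℝ} (hε : 0 < ε) :
    ∃ (Φ : Finset Γ) (u : Γ → ℝ), (∀ g, 0 ≤ u g) ∧ Summable u ∧ ∑' g, u g ≤ ε ∧ ∀ g ∉ Φ, w g ≤ u g := by
  obtain ⟨Φ, hΦ⟩ := ((tendsto_tsum_compl_atTop_zero w).eventually (gt_mem_nhds hε)).exists
  refine ⟨Φ, {x | x ∉ Φ}.indicator w, fun g => indicator_nonneg (fun g _ => hw g) g, hs.indicator _,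
    ?_, fun g hg => (indicator_of_mem (s := {x | x ∉ Φ}) hg w).ge⟩
  rw [← tsum_subtype]
  exact hΦ.le

theorem rho_win {m : ℕ} (m0 : (0 : ℝ) < m) {p q : ℝ} (hp : 0 ≤ p) (hq : q ≤ 1) {t : Fin m → ℝ}
    (ht : ∀ k : Fin m, t k ∈ Ioo ((k : ℕ) / m : ℝ) (((k : ℕ) + 1) / m))
    (h : ∀ k, t k < q → t k < p) : q - p ≤ 2 / m := by
  by_contra hc
  rw [not_le, div_lt_iff₀ m0] at hc
  have a := Nat.le_ceil (p * m)
  have b := Nat.ceil_lt_add_one (mul_nonneg hp m0.le)
  have c : q * m ≤ m := mul_le_of_le_one_left m0.le hq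
  have hk : ⌈p * m⌉₊ < m := by
    have : (⌈p * m⌉₊ : ℝ) < m := by linarith
    exact_mod_cast this
  obtain ⟨h1, h2⟩ := ht ⟨_, hk⟩
  rw [div_lt_iff₀ m0] at h1
  rw [lt_div_iff₀ m0] at h2
  simp only at h1 h2
  have h3 := h ⟨_, hk⟩ (lt_of_mul_lt_mul_right (by linarith) m0.le)
  have h4 := mul_lt_mul_of_pos_right h3 m0
  linarith

theorem exists_w (C : Cay Γ) : ∃ w : Γ → ℝ, (∀ g, 0 < w g) ∧ Summable w := by
  have := C.countable
  let _ := Encodable.ofCountable Γ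
  exact ⟨fun g => (1 / 2 : ℝ) ^ Encodable.encode g, fun g => by positivity,
    summable_geometric_two.comp_injective Encodable.encode_injective⟩

theorem isRho {w : Γ → ℝ} (hw : ∀ g, 0 < w g) (hs : Summable w) (hf : ∀ x, f x ∈ Icc (0 : ℝ) 1) :
    IsRho (rho w f) := by
  classical
  have hw0 : ∀ g, 0 ≤ w g := fun g => (hw g).le
  have S := fun x y => rho_summ hw0 hs hf x y
  have S0 : ∀ x y, 0 ≤ ∑' g, w g * |f (g⁻¹ * x) - f (g⁻¹ * y)| := fun x y =>
    tsum_nonneg fun g => mul_nonneg (hw0 g) (abs_nonneg _)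
  refine ⟨fun x => by simp [rho], fun x y => ?_, fun x y z => ?_, ?_, fun x => ?_, fun k ε hε => ?_⟩
  · unfold rho
    simp only [abs_sub_comm (f (_ * x)), eq_comm (a := x), add_comm (w x)]
  · have h1 : ∑' g, w g * |f (g⁻¹ * x) - f (g⁻¹ * z)| ≤
        ∑' g, w g * |f (g⁻¹ * x) - f (g⁻¹ * y)| + ∑' g, w g * |f (g⁻¹ * y) - f (g⁻¹ * z)| := by
      rw [← (S x y).tsum_add (S y z)]
      refine (S x z).tsum_le_tsum (fun g => ?_) ((S x y).add (S y z))
      rw [← mul_add]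
      exact mul_le_mul_of_nonneg_left (abs_sub_le _ _ _) (hw0 g)
    have h2 : (if x = z then 0 else w x + w z) ≤
        (if x = y then 0 else w x + w y) + (if y = z then 0 else w y + w z) := by
      have a := hw0 x
      have b := hw0 y
      have c := hw0 z
      by_cases e1 : x = y
      · subst e1
        simp
      · by_cases e2 : y = z
        · subst e2
          simp
        · rw [if_neg e1, if_neg e2]
          split_ifs <;> linarith
    unfold rho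
    linarith
  · refine ⟨3 * ∑' g, w g, fun x y => ?_⟩
    have h1 : ∑' g, w g * |f (g⁻¹ * x) - f (g⁻¹ * y)| ≤ ∑' g, w g :=
      (S x y).tsum_le_tsum (fun g => mul_le_of_le_one_right (hw0 g) (rho_abs hf _ _)) hs
    have a := hs.le_tsum x fun g _ => hw0 g
    have b := hs.le_tsum y fun g _ => hw0 g
    have c := hw0 x
    unfold rho
    split_ifs <;> linarith
  · refine ⟨w x, hw x, fun y hy => ?_⟩
    unfold rho
    rw [if_neg hy.symm]
    linarith [S0 x y, hw0 y]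
  · have hs' : Summable fun g => w (k * g) := hs.comp_injective (mul_right_injective k)
    obtain ⟨Φ, u, u0, us, ut, uw⟩ := rho_tail (fun g => hw0 (k * g)) hs' (show 0 < ε / 6 by positivity)
    set n : ℝ := ∑ g ∈ Φ, w (k * g) / w g with hn
    have n0 : 0 ≤ n := Finset.sum_nonneg fun g _ => div_nonneg (hw0 _) (hw0 _)
    have key : ∀ g, w (k * g) ≤ n * w g + u g := fun g => by
      by_cases hg : g ∈ Φ
      · have : w (k * g) / w g ≤ n :=
          Finset.single_le_sum (f := fun g => w (k * g) / w g)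
            (fun g _ => div_nonneg (hw0 _) (hw0 _)) hg
        rw [div_le_iff₀ (hw g)] at this
        linarith [u0 g]
      · linarith [uw g hg, mul_nonneg n0 (hw0 g)]
    refine ⟨ε / 2 / (n + 1), by positivity, fun x y h => ?_⟩
    have h1 : ∑' g, w g * |f (g⁻¹ * (k * x)) - f (g⁻¹ * (k * y))| ≤
        n * ∑' g, w g * |f (g⁻¹ * x) - f (g⁻¹ * y)| + ∑' g, u g := by
      rw [← (Equiv.mulLeft k).tsum_eq, ← tsum_mul_left, ← ((S x y).mul_left n).tsum_add us]
      refine Summable.tsum_le_tsum (fun g => ?_) ((Equiv.mulLeft k).summable_iff.2 (S (k * x) (k * y)))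
        (((S x y).mul_left n).add us)
      simp only [Equiv.coe_mulLeft, mul_inv_rev, mul_assoc, inv_mul_cancel_left]
      have a := rho_abs hf (g⁻¹ * x) (g⁻¹ * y)
      have b := abs_nonneg (f (g⁻¹ * x) - f (g⁻¹ * y))
      have c := mul_le_mul_of_nonneg_right (key g) b
      nlinarith [u0 g]
    have h2 : (if k * x = k * y then 0 else w (k * x) + w (k * y)) ≤
        n * (if x = y then 0 else w x + w y) + 2 * ∑' g, u g := by
      have a := us.le_tsum x fun g _ => u0 g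
      have b := us.le_tsum y fun g _ => u0 g
      by_cases e : x = y
      · subst e
        simp only [if_true, mul_zero, zero_add]
        linarith [u0 x]
      · rw [if_neg e, if_neg fun h => e (mul_left_cancel h)]
        linarith [key x, key y]
    have h3 : n * rho w f x y ≤ ε / 2 := by
      rw [le_div_iff₀ (by positivity)] at h
      have : 0 ≤ rho w f x y := by
        unfold rho
        have a := hw0 x
        have b := hw0 y
        have c := S0 x y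
        split_ifs <;> linarith
      linarith
    unfold rho at h3 ⊢
    linarith

theorem le_rho {w : Γ → ℝ} (hw : ∀ g, 0 < w g) (hs : Summable w) (hf : ∀ x, f x ∈ Icc (0 : ℝ) 1)
    (x y : Γ) : w 1 * |f x - f y| ≤ rho w f x y := by
  have hw0 : ∀ g, 0 ≤ w g := fun g => (hw g).le
  have h := (rho_summ hw0 hs hf x y).le_tsum 1 fun g _ => mul_nonneg (hw0 g) (abs_nonneg _)
  simp only [inv_one, one_mul] at h
  have a := hw0 x
  have b := hw0 y
  unfold rho
  split_ifs <;> linarith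

theorem exists_sys {w : Γ → ℝ} (hw : ∀ g, 0 < w g) (hs : Summable w)
    (hf : ∀ x, f x ∈ Icc (0 : ℝ) 1) {ε : ℝ} (hε : 0 < ε) : Nonempty (Sys (rho w f) f ε) := by
  classical
  have hw0 : ∀ g, 0 ≤ w g := fun g => (hw g).le
  obtain ⟨Φ, u, u0, us, ut, uw⟩ := rho_tail hw0 hs (show 0 < ε / 4 by positivity)
  have hK : {g | ¬w g < ε / 8}.Finite :=
    hs.tendsto_cofinite_zero.eventually (gt_mem_nhds (show 0 < ε / 8 by positivity))
  have W0 : 0 ≤ ∑' g, w g := tsum_nonneg hw0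
  obtain ⟨m, hm⟩ := exists_nat_gt (8 * (∑' g, w g) / ε)
  have m0 : (0 : ℝ) < m := lt_of_le_of_lt (by positivity) hm
  have hm' : 2 / m * ∑' g, w g ≤ ε / 4 := by
    rw [div_lt_iff₀ hε] at hm
    rw [div_mul_eq_mul_div, div_le_iff₀ m0]
    linarith
  let e := Fintype.equivFin (Φ × Fin m)
  refine ⟨⟨_, fun i => (e.symm i).1, fun i => ((e.symm i).2 : ℕ) / m, fun i => (((e.symm i).2 : ℕ) + 1) / m,
    insert 1 {g | ¬w g < ε / 8}, hK.insert 1, mem_insert _ _, fun i => by positivity,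
    fun i => div_lt_div_of_pos_right (lt_add_one _) m0, fun i => ?_, fun t ht x y hx hy h => ?_⟩⟩
  · rw [div_le_one m0]
    exact_mod_cast (e.symm i).2.2
  · have hx' : w x < ε / 8 := not_not.1 fun h => hx (mem_insert_of_mem _ h)
    have hy' : w y < ε / 8 := not_not.1 fun h => hy (mem_insert_of_mem _ h)
    have key : ∀ g ∈ Φ, |f (g⁻¹ * x) - f (g⁻¹ * y)| ≤ 2 / m := fun g hg => by
      have h1 : ∀ k : Fin m, t (e (⟨g, hg⟩, k)) ∈ Ioo ((k : ℕ) / m : ℝ) (((k : ℕ) + 1) / m) := fun k => by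
        simpa using ht (e (⟨g, hg⟩, k))
      have h2 : ∀ k : Fin m, t (e (⟨g, hg⟩, k)) < f (g⁻¹ * x) ↔ t (e (⟨g, hg⟩, k)) < f (g⁻¹ * y) :=
        fun k => by simpa [Up] using h (e (⟨g, hg⟩, k))
      exact abs_sub_le_iff.2 ⟨rho_win m0 (hf _).1 (hf _).2 h1 fun k => (h2 k).1,
        rho_win m0 (hf _).1 (hf _).2 h1 fun k => (h2 k).2⟩
    have h1 : ∑' g, w g * |f (g⁻¹ * x) - f (g⁻¹ * y)| ≤ 2 / m * ∑' g, w g + ∑' g, u g := by
      rw [← tsum_mul_left, ← (hs.mul_left _).tsum_add us]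
      refine (rho_summ hw0 hs hf x y).tsum_le_tsum (fun g => ?_) ((hs.mul_left _).add us)
      by_cases hg : g ∈ Φ
      · have := mul_le_mul_of_nonneg_left (key g hg) (hw0 g)
        linarith [u0 g]
      · have := mul_le_of_le_one_right (hw0 g) (rho_abs hf (g⁻¹ * x) (g⁻¹ * y))
        have h3 : 0 ≤ 2 / m * w g := mul_nonneg (by positivity) (hw0 g)
        linarith [uw g hg]
    unfold rho
    split_ifs <;> linarith

variable {ρ : Γ → Γ → ℝ}

theorem rho_ne (h : IsRho ρ) (x y : Γ) :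
    {ε | ∃ A : Set Γ, C.Conn A ∧ x ∈ A ∧ y ∈ A ∧ ∀ a ∈ A, ∀ b ∈ A, ρ a b ≤ ε}.Nonempty := by
  obtain ⟨B, hB⟩ := h.bdd
  exact ⟨B, univ, C.conn_univ, mem_univ x, mem_univ y, fun a _ b _ => hB a b⟩

theorem IsRho.nonneg (h : IsRho ρ) (x y : Γ) : 0 ≤ ρ x y := by
  have h1 := h.tri x y x
  rw [h.self, h.symm y x] at h1
  linarith

theorem md_le (h : IsRho ρ) {A : Set Γ} (hA : C.Conn A) {x y : Γ} (hx : x ∈ A) (hy : y ∈ A) {ε : ℝ}
    (hε : ∀ a ∈ A, ∀ b ∈ A, ρ a b ≤ ε) : C.md ρ x y ≤ ε := by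
  refine csInf_le ⟨ρ x y, ?_⟩ ⟨A, hA, hx, hy, hε⟩
  rintro e ⟨B, -, a, b, c⟩
  exact c x a y b

theorem le_md (h : IsRho ρ) (x y : Γ) : ρ x y ≤ C.md ρ x y := by
  refine le_csInf (rho_ne h x y) ?_
  rintro e ⟨B, -, a, b, c⟩
  exact c x a y b

theorem md_lt (h : IsRho ρ) {x y : Γ} {ε : ℝ} (hε : C.md ρ x y < ε) :
    ∃ A, C.Conn A ∧ x ∈ A ∧ y ∈ A ∧ ∃ ε' < ε, ∀ a ∈ A, ∀ b ∈ A, ρ a b ≤ ε' := by
  obtain ⟨e, ⟨A, a, b, c, d⟩, he⟩ := exists_lt_of_csInf_lt (rho_ne h x y) hε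
  exact ⟨A, a, b, c, e, he, d⟩

theorem md_isRho (h : IsRho ρ) : IsRho (C.md ρ) := by
  refine ⟨fun x => ?_, fun x y => ?_, fun x y z => ?_, ?_, fun x => ?_, fun g ε hε => ?_⟩
  · refine le_antisymm (md_le h (A := {x}) ?_ rfl rfl ?_) ((h.self x).symm.le.trans (le_md h x x))
    · rintro _ rfl _ rfl
      exact Relation.ReflTransGen.refl
    · rintro _ rfl _ rfl
      exact (h.self _).le
  · unfold md
    congr 1
    ext e
    exact ⟨fun ⟨A, a, b, c, d⟩ => ⟨A, a, c, b, d⟩, fun ⟨A, a, b, c, d⟩ => ⟨A, a, c, b, d⟩⟩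
  · refine le_of_forall_pos_le_add fun ε hε => ?_
    obtain ⟨A, a1, a2, a3, e1, a4, a5⟩ := md_lt (C := C) h (x := x) (y := y)
      (lt_add_of_pos_right _ (half_pos hε))
    obtain ⟨B, b1, b2, b3, e2, b4, b5⟩ := md_lt (C := C) h (x := y) (y := z)
      (lt_add_of_pos_right _ (half_pos hε))
    have p1 : 0 ≤ e1 := (h.self y).symm.le.trans (a5 y a3 y a3)
    have p2 : 0 ≤ e2 := (h.self y).symm.le.trans (b5 y b2 y b2)
    refine (md_le h (C.conn_union a1 b1 ⟨y, a3, b2⟩) (Or.inl a2) (Or.inr b3) (ε := e1 + e2) ?_).trans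
      (by linarith)
    rintro p (hp | hp) q (hq | hq)
    · linarith [a5 p hp q hq]
    · linarith [h.tri p y q, a5 p hp y a3, b5 y b2 q hq]
    · linarith [h.tri p y q, b5 p hp y b2, a5 y a3 q hq]
    · linarith [b5 p hp q hq]
  · obtain ⟨B, hB⟩ := h.bdd
    exact ⟨B, fun x y => md_le h C.conn_univ (mem_univ x) (mem_univ y) fun a _ b _ => hB a b⟩
  · obtain ⟨e, he, h1⟩ := h.disc x
    exact ⟨e, he, fun y hy => (h1 y hy).trans (le_md h x y)⟩
  · obtain ⟨η, hη, h1⟩ := h.unif g ε hε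
    refine ⟨η / 2, half_pos hη, fun x y hxy => ?_⟩
    obtain ⟨A, a1, a2, a3, e1, a4, a5⟩ := md_lt h (hxy.trans_lt (half_lt_self hη))
    refine md_le h (C.conn_smul a1 g) ⟨x, a2, rfl⟩ ⟨y, a3, rfl⟩ ?_
    rintro _ ⟨p, hp, rfl⟩ _ ⟨q, hq, rfl⟩
    exact h1 p q ((a5 p hp q hq).trans a4.le)

theorem md_sp (h : IsRho ρ) {x y : Γ} {ε : ℝ} (hε : C.md ρ x y < ε) :
    C.Ch 1 {w | C.md ρ w x < ε} x y := by
  obtain ⟨A, a1, a2, a3, e1, a4, a5⟩ := md_lt h hε
  exact (a1 x a2 y a3).mono le_rfl fun w hw => (md_le h a1 hw a2 a5).trans_lt a4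

end Cay

end Crest.Agent.R224
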