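import Crest.Agent.R224.Lev
import Crest.Agent.R224.Rho
import Crest.Agent.R224.EG2

/-! R224, task Cell: finitely many small cells; skeletons.

`md_of_chain`: the class `A` of `x` for this relation is connected; if `x ≠ y` then every point of `A` lies
outside `K` and on the same side of all levels, so `Sys.ctl` and `md_le` apply.
`cells`: take levels `t` from `choose_levels`, `U i = Up f (g i) (t i)`, and the equivalence relation generated by the
allowed edges (as in `md_of_chain`).  Let `K' = K ∪ ⋃ i ≠ j, W (U i) ∩ W (U j)` (finite: `mem_Lw`).  The sets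
`U i ∩ W (U i)` and `(U i)ᶜ ∩ W (U i)` are connected (`conn_inner`, `conn_Up`, `W_compl`); by `fin_comp` they have
finitely many components outside `K'`, and an edge inside such a component is allowed.  From any `x` follow a chain
to `1 ∈ K` up to the first edge that is not allowed: its first point lies in `N 1 K`, or in some `W (U i)`.  So
there is a finite set that meets all classes; `cell` numbers the classes.  If `cell x ≠ cell y`, `d x y ≤ r`, the
geodesic (`ch_geo`) has an edge that is not allowed, so `x ∈ N r K` or `x ∈ g i • Lw r f (t i)`.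
`skel`: `r₀` bounds the lengths on `N 1 K` and of all `g i * x₀`, `g i * y₀`; `conn_ball`, `conn_W`, `conn_iUnion`.
An edge that does not have both ends in `T` is allowed.
`skel_ucp`: `T₁ = g⁻¹ • T'` is connected, contains `g⁻¹` and misses `T`.  If `z` is joined to `g⁻¹` by edges without
both ends in `T`, the first alternative holds.  Otherwise the class `B` of `z` misses `T₁`; `B` meets `T` (a chain
from `z` to `g⁻¹` leaves `B` along an edge with both ends in `T`); so `z` is joined to `1` inside `B ∪ T`, which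
misses `T₁`; translate by `g`. -/

set_option autoImplicit false
set_option linter.unusedSectionVars false

namespace Crest.Agent.R224

open Set Filter Topology Pointwise MeasureTheory

namespace Cay

variable {Γ : Type} [Group Γ] {C : Cay Γ} {r : ℕ} {f : Γ → ℝ} {x₀ y₀ : Γ}

variable {ρ : Γ → Γ → ℝ} {ε : ℝ}

theorem conn_cls {R : Γ → Γ → Prop} (hR : ∀ a b, R a b → C.d a b ≤ 1) (x : Γ) :
    C.Conn {y | Relation.ReflTransGen R x y} := by
  have key : ∀ y, Relation.ReflTransGen R x y → C.Ch 1 {y | Relation.ReflTransGen R x y} x y := by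
    intro y hy
    induction hy with
    | refl => exact Relation.ReflTransGen.refl
    | tail hab hbc ih => exact Relation.ReflTransGen.tail ih ⟨hab, hab.tail hbc, hR _ _ hbc⟩
  exact fun a ha b hb => (key a ha).symm.trans (key b hb)

theorem rtg_symm {R : Γ → Γ → Prop} (hR : ∀ a b, R a b → R b a) {x y : Γ}
    (h : Relation.ReflTransGen R x y) : Relation.ReflTransGen R y x := by
  induction h with
  | refl => exact Relation.ReflTransGen.refl
  | tail _ hbc ih => exact Relation.ReflTransGen.head (hR _ _ hbc) ih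

theorem rtg_mono {R R' : Γ → Γ → Prop} (hR : ∀ a b, R a b → R' a b) {x y : Γ}
    (h : Relation.ReflTransGen R x y) : Relation.ReflTransGen R' x y := by
  induction h with
  | refl => exact Relation.ReflTransGen.refl
  | tail _ hbc ih => exact ih.tail (hR _ _ hbc)

theorem Sys.mem_Ioo (S : Sys ρ f ε) {t : Fin S.n → ℝ} (ht : ∀ i, t i ∈ Ioo (S.a i) (S.b i))
    (i : Fin S.n) : t i ∈ Ioo (0 : ℝ) 1 :=
  ⟨(S.pos i).trans_lt (ht i).1, (ht i).2.trans_le (S.le i)⟩

theorem md_of_chain (hρ : IsRho ρ) (hε : 0 ≤ ε) (S : Sys ρ f ε) {t : Fin S.n → ℝ}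
    (ht : ∀ i, t i ∈ Ioo (S.a i) (S.b i)) {x y : Γ}
    (h : Relation.ReflTransGen (fun a b => C.d a b ≤ 1 ∧ a ∉ S.K ∧ b ∉ S.K ∧
      ∀ i, a ∈ Up f (S.g i) (t i) ↔ b ∈ Up f (S.g i) (t i)) x y) : C.md ρ x y ≤ ε := by
  rcases Relation.ReflTransGen.cases_head h with rfl | ⟨c, hc, -⟩
  · refine md_le hρ (A := {x}) ?_ rfl rfl ?_
    · rintro a rfl b rfl
      exact Relation.ReflTransGen.refl
    · rintro a rfl b rfl
      rw [hρ.self]
      exact hε
  have key : ∀ a, Relation.ReflTransGen (fun a b => C.d a b ≤ 1 ∧ a ∉ S.K ∧ b ∉ S.K ∧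
      ∀ i, a ∈ Up f (S.g i) (t i) ↔ b ∈ Up f (S.g i) (t i)) x a →
      a ∉ S.K ∧ ∀ i, x ∈ Up f (S.g i) (t i) ↔ a ∈ Up f (S.g i) (t i) := by
    intro a ha
    induction ha with
    | refl => exact ⟨hc.2.1, fun _ => Iff.rfl⟩
    | tail _ hbc ih => exact ⟨hbc.2.2.1, fun i => (ih.2 i).trans (hbc.2.2.2 i)⟩
  refine md_le hρ (conn_cls (fun a b h => h.1) x) Relation.ReflTransGen.refl h fun a ha b hb => ?_
  exact S.ctl t ht a b (key a ha).1 (key b hb).1 fun i => ((key a ha).2 i).symm.trans ((key b hb).2 i)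

theorem cells (hy : C.Hyp r) (hp : C.Pot f x₀ y₀) (hρ : IsRho ρ) (hε : 0 ≤ ε) (S : Sys ρ f ε)
    {s₀ : ℝ} (h0 : C.Good r f s₀) : C.Cells r (C.md ρ) ε (C.Lw r f s₀) := by
  classical
  obtain ⟨t, ht, hg, h1, h2⟩ := choose_levels hp.finE h0 S.g S.lt
  set U : Fin S.n → Set Γ := fun i => Up f (S.g i) (t i) with hU
  set R : Γ → Γ → Prop := fun a b => C.d a b ≤ 1 ∧ a ∉ S.K ∧ b ∉ S.K ∧
    ∀ i, a ∈ U i ↔ b ∈ U i with hR
  have hsymm : ∀ a b, R a b → R b a := fun a b h =>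
    ⟨by rw [C.d_comm]; exact h.1, h.2.2.1, h.2.1, fun i => (h.2.2.2 i).symm⟩
  have hc := fun i => hp.conn_Up (S.g i) (S.mem_Ioo ht i) (hg i).1
  have hW : ∀ i, C.W (U i) ⊆ S.g i • C.Lw r f (t i) := by
    rintro i x ⟨y, hy1, hy2⟩
    exact mem_Lw (hg i).1 (by rw [C.d_self]; exact Nat.zero_le _) (hy1.trans hy.one_le) hy2
  set K' : Set Γ := S.K ∪ ⋃ i, ⋃ j, ⋃ _ : i ≠ j, C.W (U i) ∩ C.W (U j) with hK'
  have hK'f : K'.Finite := S.fin.union (finite_iUnion fun i => finite_iUnion fun j =>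
    finite_iUnion fun hij => (h1 i j hij).subset (inter_subset_inter (hW i) (hW j)))
  have hall : ∀ i (V : Set Γ), (V = U i ∨ V = (U i)ᶜ) → ∀ a b, a ∈ (V ∩ C.W (U i)) \ K' ∧
      b ∈ (V ∩ C.W (U i)) \ K' ∧ C.d a b ≤ 1 → R a b := by
    rintro i V hV a b ⟨ha, hb, hab⟩
    refine ⟨hab, fun h => ha.2 (Or.inl h), fun h => hb.2 (Or.inl h), fun j => ?_⟩
    by_cases hij : i = j
    · subst hij
      rcases hV with rfl | rfl
      · exact ⟨fun _ => hb.1.1, fun _ => ha.1.1⟩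
      · exact ⟨fun h => (ha.1.1 h).elim, fun h => (hb.1.1 h).elim⟩
    · by_contra hne
      exact ha.2 (Or.inr (mem_iUnion.2 ⟨i, mem_iUnion.2 ⟨j, mem_iUnion.2
        ⟨hij, ha.1.2, b, hab, hne⟩⟩⟩))
  have e1 : ∀ i, ∃ M : Set Γ, M.Finite ∧ ∀ x ∈ C.W (U i) \ K',
      ∃ z ∈ M, Relation.ReflTransGen R z x := by
    intro i
    obtain ⟨M₁, -, hM₁, h₁⟩ := C.fin_comp (conn_inner hy (hc i).1 (hc i).2.1) hK'f
    have h' := conn_inner hy (hc i).2.1 (by rw [compl_compl]; exact (hc i).1)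
    rw [W_compl] at h'
    obtain ⟨M₂, -, hM₂, h₂⟩ := C.fin_comp h' hK'f
    refine ⟨M₁ ∪ M₂, hM₁.union hM₂, fun x hx => ?_⟩
    by_cases hxU : x ∈ U i
    · obtain ⟨z, hz, hch⟩ := h₁ x ⟨⟨hxU, hx.1⟩, hx.2⟩
      exact ⟨z, Or.inl hz, rtg_mono (hall i _ (Or.inl rfl)) hch⟩
    · obtain ⟨z, hz, hch⟩ := h₂ x ⟨⟨hxU, hx.1⟩, hx.2⟩
      exact ⟨z, Or.inr hz, rtg_mono (hall i _ (Or.inr rfl)) hch⟩
  choose M hM hM' using e1
  set M₀ : Set Γ := C.N 1 S.K ∪ K' ∪ ⋃ i, M i with hM₀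
  have hM₀f : M₀.Finite := ((C.finite_N 1 S.fin).union hK'f).union (finite_iUnion hM)
  have e2 : ∀ x, ∃ z ∈ M₀, Relation.ReflTransGen R z x := by
    intro x
    have hx : C.Ch 1 univ x 1 := C.conn_univ x (mem_univ _) 1 (mem_univ _)
    induction hx using Relation.ReflTransGen.head_induction_on with
    | refl => exact ⟨1, Or.inl (Or.inl (C.subset_N 1 _ S.one)), Relation.ReflTransGen.refl⟩
    | @head a c hac _ ih =>
      by_cases h : R a c
      · obtain ⟨z, hz, h'⟩ := ih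
        exact ⟨z, hz, h'.tail (hsymm _ _ h)⟩
      by_cases ha : a ∈ C.N 1 S.K
      · exact ⟨a, Or.inl (Or.inl ha), Relation.ReflTransGen.refl⟩
      by_cases ha' : a ∈ K'
      · exact ⟨a, Or.inl (Or.inr ha'), Relation.ReflTransGen.refl⟩
      have h3 : ∃ i, ¬(a ∈ U i ↔ c ∈ U i) := by
        by_contra hn
        exact h ⟨hac.2.2, fun h => ha (C.subset_N 1 _ h), fun h => ha ⟨c, h, hac.2.2⟩,
          fun i => not_not.1 fun h => hn ⟨i, h⟩⟩
      obtain ⟨i, hi⟩ := h3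
      obtain ⟨z, hz, h'⟩ := hM' i a ⟨⟨c, hac.2.2, hi⟩, ha'⟩
      exact ⟨z, Or.inr (mem_iUnion.2 ⟨i, hz⟩), h'⟩
  let s : Setoid Γ := ⟨Relation.ReflTransGen R,
    ⟨fun _ => Relation.ReflTransGen.refl, rtg_symm hsymm, Relation.ReflTransGen.trans⟩⟩
  have : Finite M₀ := hM₀f.to_subtype
  have : Finite (Quotient s) := by
    refine Finite.of_surjective (fun z : M₀ => Quotient.mk s z) fun q => ?_
    obtain ⟨x, rfl⟩ := Quotient.exists_rep q
    obtain ⟨z, hz, h⟩ := e2 x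
    exact ⟨⟨z, hz⟩, Quotient.sound h⟩
  obtain ⟨n, ⟨e⟩⟩ := Finite.exists_equiv_fin (Quotient s)
  refine ⟨n, fun x => e (Quotient.mk s x), fun x y h => ?_, ?_⟩
  · exact md_of_chain hρ hε S ht (Quotient.exact (e.injective h))
  · refine ((C.finite_N r S.fin).union (finite_iUnion h2)).subset ?_
    rintro x ⟨hx, y, hxy, hne⟩
    by_contra hn
    refine hne (congrArg e (Quotient.sound ?_))
    refine rtg_mono ?_ (C.ch_geo x y)
    rintro a b ⟨ha, hb, hab⟩
    refine ⟨hab, fun h => hn (Or.inl ⟨a, h, ha.1.trans hxy⟩),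
      fun h => hn (Or.inl ⟨b, h, hb.1.trans hxy⟩), fun i => ?_⟩
    by_contra h
    exact hn (Or.inr (mem_iUnion.2
      ⟨i, hx, mem_Lw (hg i).1 (ha.1.trans hxy) (hb.1.trans hxy) h⟩))

theorem skel (hy : C.Hyp r) (hp : C.Pot f x₀ y₀) (hρ : IsRho ρ) (hε : 0 ≤ ε) (S : Sys ρ f ε) :
    ∃ r₀ : ℕ, ∀ t : Fin S.n → ℝ, (∀ i, t i ∈ Ioo (S.a i) (S.b i)) → (∀ i, t i ∉ range f) →
      C.Skel (C.md ρ) ε ({g | C.len g ≤ r₀} ∪ ⋃ i, C.W (Up f (S.g i) (t i))) := by
  obtain ⟨r₀, hr₀⟩ := (((C.finite_N 1 S.fin).union (finite_range fun i => S.g i * y₀)).image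
    C.len).bddAbove
  have hb : ∀ x, x ∈ C.N 1 S.K ∨ x ∈ range (fun i => S.g i * y₀) → C.len x ≤ r₀ := fun x hx =>
    hr₀ (mem_image_of_mem _ hx)
  refine ⟨r₀, fun t ht ht' => ?_⟩
  have hc := fun i => hp.conn_Up (S.g i) (S.mem_Ioo ht i) (ht' i)
  refine ⟨C.conn_iUnion (C.conn_ball r₀) (fun i => conn_W hy (hc i).1 (hc i).2.1) fun i => ?_,
    Or.inl ?_, fun x y h => md_of_chain hρ hε S ht (rtg_mono ?_ h)⟩
  · refine ⟨S.g i * y₀, hb _ (Or.inr ⟨i, rfl⟩), S.g i * x₀, ?_, fun h => ?_⟩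
    · rw [C.d_mul, C.d_comm]
      exact hp.adj
    · exact (hc i).2.2.2 (h.1 (hc i).2.2.1)
  · show C.len 1 ≤ r₀
    rw [C.len_one]
    exact Nat.zero_le _
  · rintro a b ⟨hab, hn⟩
    have hba : C.d b a ≤ 1 := by rw [C.d_comm]; exact hab
    refine ⟨hab, fun h => hn ⟨Or.inl (hb _ (Or.inl (C.subset_N 1 _ h))),
      Or.inl (hb _ (Or.inl ⟨a, h, hba⟩))⟩, fun h => hn ⟨Or.inl (hb _ (Or.inl ⟨b, h, hab⟩)),
      Or.inl (hb _ (Or.inl (C.subset_N 1 _ h)))⟩, fun i => ?_⟩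
    by_contra h
    exact hn ⟨Or.inr (mem_iUnion.2 ⟨i, b, hab, h⟩),
      Or.inr (mem_iUnion.2 ⟨i, a, hba, fun h' => h h'.symm⟩)⟩

theorem skel_ucp {m : Γ → Γ → ℝ} {ε' : ℝ} {T T' : Set Γ} (h : C.Skel m ε T) (h' : C.Skel m ε' T')
    {g : Γ} (hd : ∀ x ∈ T, g * x ∉ T') (z : Γ) : m z g⁻¹ ≤ ε ∨ m (g * z) g ≤ ε' := by
  set R : Γ → Γ → Prop := fun a b => C.d a b ≤ 1 ∧ ¬(a ∈ T ∧ b ∈ T) with hR
  by_cases hz : Relation.ReflTransGen R z g⁻¹
  · exact Or.inl (h.small _ _ hz)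
  right
  have h1 : ∀ w, Relation.ReflTransGen R z w → g * w ∉ T' := by
    intro w hw hw'
    have h2 := (h'.conn _ hw' _ h'.one).smul g⁻¹
    rw [inv_mul_cancel_left, mul_one] at h2
    refine hz (hw.trans (rtg_mono ?_ h2))
    rintro a b ⟨⟨a', ha', rfl⟩, -, hab⟩
    refine ⟨hab, fun h3 => hd _ h3.1 ?_⟩
    simpa using ha'
  have h2 : ∀ x, C.Ch 1 univ x g⁻¹ →
      Relation.ReflTransGen R x g⁻¹ ∨ ∃ p ∈ T, Relation.ReflTransGen R x p := by
    intro x hx
    induction hx using Relation.ReflTransGen.head_induction_on with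
    | refl => exact Or.inl Relation.ReflTransGen.refl
    | @head a c hac _ ih =>
      by_cases h : R a c
      · rcases ih with ih | ⟨p, hp, ih⟩
        · exact Or.inl (ih.head h)
        · exact Or.inr ⟨p, hp, ih.head h⟩
      · have : a ∈ T ∧ c ∈ T := not_not.1 fun hn => h ⟨hac.2.2, hn⟩
        exact Or.inr ⟨a, this.1, Relation.ReflTransGen.refl⟩
  obtain ⟨p, hp, h3⟩ := (h2 z (C.conn_univ z (mem_univ _) _ (mem_univ _))).resolve_left hz
  have h4 : ∀ w, Relation.ReflTransGen R z w → Relation.ReflTransGen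
      (fun a b => C.d a b ≤ 1 ∧ ¬(a ∈ T' ∧ b ∈ T')) (g * z) (g * w) := by
    intro w hw
    induction hw with
    | refl => exact Relation.ReflTransGen.refl
    | tail hab hbc ih =>
      exact ih.tail ⟨by rw [C.d_mul]; exact hbc.1, fun h => h1 _ hab h.1⟩
  have h5 := (h.conn _ hp _ h.one).smul g
  rw [mul_one] at h5
  refine h'.small _ _ ((h4 p h3).trans (rtg_mono ?_ h5))
  rintro a b ⟨⟨a', ha', rfl⟩, -, hab⟩
  exact ⟨hab, fun h => hd _ ha' h.1⟩

end Cay

end Crest.Agent.R224
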