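import Crest.Agent.R224.ZB2

/-! R224, task Chain: a ping-pong argument that finds terminal points.

`Mv ρ p j x y` is a move of level `j`; `Mle ρ p j` a move of level `< j`; `A x σ = {w | σ ≤ ang x w p}`.
`move`: `ucp` for `g = y⁻¹ * x` and the points `x⁻¹ • w`, `x⁻¹ • p`: both images are within `ε'` of `g • o`.
`far_or` (S' ⇒ S): `R` from `move` for `(κ / 2, σ / 3)`; if `d x₀ x ≥ R` (so `x ≠ x₀` if `R ≥ 1`) and
`ang x₀ w p < κ / 2` then `ang x₀ w (x • o) ≥ κ / 2`, so `ang x w p ≤ 2σ / 3`; for `d x₀ x < R` use `unif_fin`.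
`levels`: construct `ρ j` by recursion on `j` together with `κ j > 0` such that every chain of moves of level
`< j` from `x₀` to `x` with at least one move has `κ j ≤ ang x₀ (x • o) p` and `x ≠ x₀` (this depends only on
`ρ i`, `i < j`; state the induction step for an arbitrary `ρ` and use `Function.update`, or build the pair
`(ρ j, κ (j+1))` by strong recursion).  Step: `σ = 1 / (j + 1)`, `τ` from `far_or` for `σ / 2`, `e₀` the isolation
radius of `o`, `η = min (σ / 2) e₀`, `2 ε' < min κ τ`, `ρ j ≥ 1` from `move`.  (M) For a move `x → y` of level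
`j` and `w` with `2 ε' < ang y w p`, or `w = y • o`: `ang x w (y • o) < η`, hence `σ / 2 ≤ ang x w p`.
(*) By head induction on a chain `x ⇝ w` of levels `≤ j`: either it is a (possibly empty) chain of levels `< j`,
or there are `x₁, y₁` with `x ⇝ x₁` of levels `< j`, a move `x₁ → y₁` of level `j`, `y₁ ⇝ w`, and
`ang x₁ (w • o) (y₁ • o) < η`.  In the second case `τ ≤ ang x (w • o) p`.  No cycles: if `w = x` in the second
case, then `y₁ ⇝ x ⇝ x₁`, and (*) for the chain `x₁ → y₁ ⇝ x₁` (apply (M) and (*) to `y₁ ⇝ x₁`) gives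
`dist o (x₁⁻¹ • y₁ • o) < e₀`, so `y₁ = x₁`, against `ρ j ≥ 1`.  New constant `min κ τ`.
`chain`: `θ = min (κ (J+1)) τ` with `τ` from `far_or` for `σ = 1 / (J + 1)`.  The points reachable from `x₀` by
moves of level `≤ J` inside `F` form a finite set on which `TransGen` is irreflexive and transitive, so it has a
maximal element (`Finite.wellFounded_of_trans_of_irrefl`, or minimise the number of reachable points). -/

set_option autoImplicit false
set_option linter.unusedSectionVars false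

namespace Crest.Agent.R224

open Set Filter Topology Pointwise

variable {Γ : Type} [Group Γ] {C : Cay Γ} {Z : Type} [MetricSpace Z] [CompactSpace Z]
  [MulAction Γ Z] [ContinuousConstSMul Γ Z] {o : Z} {r D : ℕ} {ξ : Fin 3 → Z} {L : Set Z}

/-- A move of level `j`. -/
def Mv (C : Cay Γ) (o : Z) (ρ : ℕ → ℕ) (p : Z) (j : ℕ) (x y : Γ) : Prop :=
  ρ j ≤ C.d x y ∧ 1 / ((j : ℝ) + 1) ≤ ang x (y • o) p

/-- A move of level `< j`. -/
def Mle (C : Cay Γ) (o : Z) (ρ : ℕ → ℕ) (p : Z) (j : ℕ) (x y : Γ) : Prop :=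
  ∃ i < j, Mv C o ρ p i x y

namespace Cv

theorem move (h : Cv C o) {η ε' : ℝ} (hη : 0 < η) (hε : 0 < ε') : ∃ R, ∀ (x y : Γ) (w p : Z),
    R ≤ C.d x y → η ≤ ang x w (y • o) → η ≤ ang x p (y • o) → ang y w p ≤ 2 * ε' := by
  obtain ⟨R, hR⟩ := h.ucp η hη ε' hε
  refine ⟨R, fun x y w p hd hw hp => ?_⟩
  have hl : R ≤ C.len (y⁻¹ * x) := by
    rw [C.d_comm] at hd; exact hd
  have key : ∀ u : Z, η ≤ ang x u (y • o) → dist (y⁻¹ • u) ((y⁻¹ * x) • o) ≤ ε' := by
    intro u hu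
    have := hR _ hl (x⁻¹ • u) (by
      rw [mul_inv_rev, inv_inv, mul_smul]; exact hu)
    rwa [smul_smul, mul_assoc, mul_inv_cancel, mul_one] at this
  have h1 := key w hw
  have h2 := key p hp
  calc ang y w p ≤ dist (y⁻¹ • w) ((y⁻¹ * x) • o) + dist (y⁻¹ • p) ((y⁻¹ * x) • o) :=
        dist_triangle_right _ _ _
    _ ≤ 2 * ε' := by linarith

theorem far_or (h : Cv C o) {κ σ : ℝ} (hκ : 0 < κ) (hσ : 0 < σ) : ∃ τ > 0, ∀ (x₀ x : Γ) (p w : Z),
    (x = x₀ ∨ κ ≤ ang x₀ (x • o) p) → σ ≤ ang x w p → τ ≤ ang x₀ w p := by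
  obtain ⟨R, hR⟩ := h.move (η := κ / 2) (ε' := σ / 3) (by linarith) (by linarith)
  obtain ⟨η, hη, hu⟩ := unif_fin (Z := Z) (C.fin R) hσ
  refine ⟨min (κ / 2) η, lt_min (by linarith) hη, fun x₀ x p w hx hw => ?_⟩
  by_contra hlt
  push Not at hlt
  have h1 : ang x₀ w p < κ / 2 := hlt.trans_le (min_le_left _ _)
  have h2 : ang x₀ w p < η := hlt.trans_le (min_le_right _ _)
  by_cases hd : C.d x₀ x ≤ R
  · have hm : x⁻¹ * x₀ ∈ {g | C.len g ≤ R} := by
      rw [C.d_comm] at hd; exact hd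
    have := hu _ hm (x₀⁻¹ • w) (x₀⁻¹ • p) h2.le
    simp only [smul_smul, mul_assoc, mul_inv_cancel, mul_one] at this
    exact absurd hw (not_le.2 this)
  · push Not at hd
    rcases hx with rfl | hx
    · rw [C.d_self] at hd; omega
    · have h3 := ang_tri x₀ (x • o) w p
      rw [ang_comm x₀ (x • o) w] at h3
      have := hR x₀ x w p hd.le (by linarith) (by rw [ang_comm]; linarith)
      linarith

theorem chain_step (h : Cv C o) (j : ℕ) {κ : ℝ} (hκ : 0 < κ) : ∃ (R : ℕ) (κ' : ℝ), 0 < κ' ∧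
    ∀ ρ : ℕ → ℕ, R ≤ ρ j → (∀ (p : Z) (x₀ x : Γ),
      Relation.TransGen (Mle C o ρ p j) x₀ x → κ ≤ ang x₀ (x • o) p ∧ x ≠ x₀) →
    ∀ (p : Z) (x₀ x : Γ),
      Relation.TransGen (Mle C o ρ p (j + 1)) x₀ x → κ' ≤ ang x₀ (x • o) p ∧ x ≠ x₀ := by
  set σ : ℝ := 1 / ((j : ℝ) + 1) with hσd
  have hσ : 0 < σ := by positivity
  obtain ⟨τ, hτ, hfar⟩ := h.far_or hκ (half_pos hσ)
  obtain ⟨e₀, he₀, hiso⟩ := h.iso
  obtain ⟨R, hR⟩ := h.move (η := min (σ / 2) e₀) (ε' := min κ τ / 3)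
    (lt_min (half_pos hσ) he₀) (by have := lt_min hκ hτ; linarith)
  refine ⟨max R 1, min κ τ, lt_min hκ hτ, fun ρ hρ IH p => ?_⟩
  have hM : ∀ (x y : Γ) (w : Z), Mv C o ρ p j x y → (w = y • o ∨ min κ τ ≤ ang y w p) →
      ang x w (y • o) < min (σ / 2) e₀ := by
    intro x y w hm hw
    rcases hw with rfl | hw
    · simp only [ang, dist_self]; exact lt_min (half_pos hσ) he₀
    · by_contra hc
      push Not at hc
      have h2 : min (σ / 2) e₀ ≤ ang x p (y • o) := by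
        rw [ang_comm]
        have := hm.2
        have := min_le_left (σ / 2) e₀
        linarith
      have := hR x y w p (((le_max_left _ _).trans hρ).trans hm.1) hc h2
      have := lt_min hκ hτ
      linarith
  have hlow : ∀ x y, Relation.ReflTransGen (Mle C o ρ p j) x y →
      y = x ∨ κ ≤ ang x (y • o) p := by
    intro x y hxy
    rcases Relation.reflTransGen_iff_eq_or_transGen.1 hxy with e | ht
    · exact Or.inl e
    · exact Or.inr (IH p x y ht).1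
  have hsec : ∀ (x x₁ y₁ : Γ) (w : Z), Relation.ReflTransGen (Mle C o ρ p j) x x₁ →
      Mv C o ρ p j x₁ y₁ → ang x₁ w (y₁ • o) < min (σ / 2) e₀ → τ ≤ ang x w p := by
    intro x x₁ y₁ w h1 h2 h3
    refine hfar x x₁ p w (hlow _ _ h1) ?_
    have h4 := ang_tri x₁ (y₁ • o) w p
    rw [ang_comm x₁ (y₁ • o) w] at h4
    have := h2.2
    have := min_le_left (σ / 2) e₀
    linarith
  have hstar : ∀ w y, Relation.ReflTransGen (Mle C o ρ p (j + 1)) y w →
      Relation.ReflTransGen (Mle C o ρ p j) y w ∨ ∃ x₁ y₁,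
        Relation.ReflTransGen (Mle C o ρ p j) y x₁ ∧ Mv C o ρ p j x₁ y₁ ∧
        Relation.ReflTransGen (Mle C o ρ p (j + 1)) y₁ w ∧
        ang x₁ (w • o) (y₁ • o) < min (σ / 2) e₀ := by
    intro w y hyw
    induction hyw using Relation.ReflTransGen.head_induction_on with
    | refl => exact Or.inl .refl
    | @head a c hac hcw ih =>
      obtain ⟨i, hi, hm⟩ := hac
      rcases Nat.lt_succ_iff_lt_or_eq.1 hi with hi | rfl
      · rcases ih with ih | ⟨x₁, y₁, h1, h2, h3, h4⟩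
        · exact Or.inl (.head ⟨i, hi, hm⟩ ih)
        · exact Or.inr ⟨x₁, y₁, .head ⟨i, hi, hm⟩ h1, h2, h3, h4⟩
      · refine Or.inr ⟨a, c, .refl, hm, hcw, hM _ _ _ hm ?_⟩
        rcases ih with ih | ⟨x₁, y₁, h1, h2, -, h4⟩
        · rcases hlow _ _ ih with rfl | hk
          · exact Or.inl rfl
          · exact Or.inr ((min_le_left _ _).trans hk)
        · exact Or.inr ((min_le_right _ _).trans (hsec _ _ _ _ h1 h2 h4))
  have hmono : ∀ a b, Mle C o ρ p j a b → Mle C o ρ p (j + 1) a b :=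
    fun a b ⟨i, hi, hm⟩ => ⟨i, hi.trans (Nat.lt_succ_self _), hm⟩
  have hcyc : ∀ x₁ y₁, Mv C o ρ p j x₁ y₁ →
      Relation.ReflTransGen (Mle C o ρ p (j + 1)) y₁ x₁ → False := by
    intro x₁ y₁ hm hb
    have h5 : ang x₁ (x₁ • o) (y₁ • o) < min (σ / 2) e₀ := by
      refine hM _ _ _ hm ?_
      rcases hstar _ _ hb with ih | ⟨x₂, y₂, h1, h2, -, h4⟩
      · rcases hlow _ _ ih with rfl | hk
        · exact Or.inl rfl
        · exact Or.inr ((min_le_left _ _).trans hk)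
      · exact Or.inr ((min_le_right _ _).trans (hsec _ _ _ _ h1 h2 h4))
    have h6 : (x₁⁻¹ * y₁) • o = o := by
      refine hiso _ ?_
      have := h5.trans_le (min_le_right _ _)
      simpa only [ang, inv_smul_smul, mul_smul, dist_comm] using this
    have h7 : x₁ = y₁ := inv_mul_eq_one.1 (h.free _ h6)
    have h8 := hm.1
    rw [h7, C.d_self] at h8
    have := (le_max_right _ _).trans hρ
    omega
  intro x₀ x ht
  obtain ⟨c, hc, hcx⟩ := Relation.TransGen.head'_iff.1 ht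
  obtain ⟨i, hi, hm⟩ := hc
  have hB : ∀ x₁ y₁, Relation.ReflTransGen (Mle C o ρ p j) x₀ x₁ → Mv C o ρ p j x₁ y₁ →
      Relation.ReflTransGen (Mle C o ρ p (j + 1)) y₁ x →
      ang x₁ (x • o) (y₁ • o) < min (σ / 2) e₀ → min κ τ ≤ ang x₀ (x • o) p ∧ x ≠ x₀ := by
    intro x₁ y₁ h1 h2 h3 h4
    refine ⟨(min_le_right _ _).trans (hsec _ _ _ _ h1 h2 h4), ?_⟩
    rintro rfl
    exact hcyc _ _ h2 (h3.trans (Relation.ReflTransGen.mono hmono _ _ h1))
  rcases Nat.lt_succ_iff_lt_or_eq.1 hi with hi' | rfl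
  · rcases hstar _ _ hcx with ih | ⟨x₁, y₁, h1, h2, h3, h4⟩
    · have := IH p x₀ x (Relation.TransGen.head' ⟨i, hi', hm⟩ ih)
      exact ⟨(min_le_left _ _).trans this.1, this.2⟩
    · exact hB x₁ y₁ (.head ⟨i, hi', hm⟩ h1) h2 h3 h4
  · refine hB x₀ c .refl hm hcx (hM _ _ _ hm ?_)
    rcases hstar _ _ hcx with ih | ⟨x₁, y₁, h1, h2, -, h4⟩
    · rcases hlow _ _ ih with rfl | hk
      · exact Or.inl rfl
      · exact Or.inr ((min_le_left _ _).trans hk)
    · exact Or.inr ((min_le_right _ _).trans (hsec _ _ _ _ h1 h2 h4))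

theorem levels (h : Cv C o) : ∃ ρ : ℕ → ℕ, ∀ j, ∃ κ > 0, ∀ (p : Z) (x₀ x : Γ),
    Relation.TransGen (Mle C o ρ p j) x₀ x → κ ≤ ang x₀ (x • o) p ∧ x ≠ x₀ := by
  choose R κ' hκ' hstep using fun (j : ℕ) (κ : {κ : ℝ // 0 < κ}) => h.chain_step j κ.2
  let κs : ℕ → {κ : ℝ // 0 < κ} := fun j =>
    Nat.rec ⟨1, one_pos⟩ (fun j κ => ⟨κ' j κ, hκ' j κ⟩) j
  refine ⟨fun j => R j (κs j), fun j => ⟨(κs j).1, (κs j).2, ?_⟩⟩
  induction j with
  | zero =>
    intro p x₀ x ht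
    obtain ⟨c, ⟨i, hi, -⟩, -⟩ := Relation.TransGen.head'_iff.1 ht
    omega
  | succ j ih => exact hstep j (κs j) _ le_rfl ih

theorem chain (h : Cv C o) : ∃ ρ : ℕ → ℕ, ∀ J : ℕ, ∃ θ > 0, ∀ (p : Z) (F : Set Γ), ∀ x₀ ∈ F,
    {w | w ∈ F ∧ θ ≤ ang x₀ (w • o) p}.Finite → ∃ x ∈ F,
      (∀ j ≤ J, ∀ y ∈ F, ρ j ≤ C.d x y → ang x (y • o) p < 1 / ((j : ℝ) + 1)) ∧
      ∀ w : Z, 1 / ((J : ℝ) + 1) ≤ ang x w p → θ ≤ ang x₀ w p := by
  obtain ⟨ρ, hρ⟩ := h.levels
  refine ⟨ρ, fun J => ?_⟩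
  obtain ⟨κ, hκ, hl⟩ := hρ (J + 1)
  obtain ⟨τ, hτ, hfar⟩ := h.far_or (σ := 1 / ((J : ℝ) + 1)) hκ (by positivity)
  refine ⟨min κ τ, lt_min hκ hτ, fun p F x₀ hx₀ hfin => ?_⟩
  let rel : Γ → Γ → Prop := fun a b => Mle C o ρ p (J + 1) a b ∧ b ∈ F
  have hmono : ∀ {a b}, Relation.TransGen rel a b → Relation.TransGen (Mle C o ρ p (J + 1)) a b :=
    fun hab => Relation.TransGen.mono (fun _ _ h => And.left h) _ _ hab
  have hF : ∀ {a b}, Relation.TransGen rel a b → b ∈ F := by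
    intro a b hab
    obtain ⟨c, -, hc⟩ := Relation.TransGen.tail'_iff.1 hab
    exact hc.2
  let S : Γ → Set Γ := fun a => {b | Relation.TransGen rel a b}
  have hS0 : (S x₀).Finite := hfin.subset fun b hb =>
    ⟨hF hb, (min_le_left _ _).trans (hl p _ _ (hmono hb)).1⟩
  have hne : (insert x₀ (S x₀)).Nonempty := insert_nonempty _ _
  obtain ⟨x, hx, hmin⟩ := Set.exists_min_image _ (fun a => (S a).ncard) (hS0.insert x₀) hne
  have hsub : ∀ a ∈ insert x₀ (S x₀), S a ⊆ S x₀ := by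
    rintro a (rfl | ha) b hb
    · exact hb
    · exact Relation.TransGen.trans ha hb
  refine ⟨x, ?_, fun j hj y hy hd => ?_, fun w hw => ?_⟩
  · rcases hx with rfl | hx
    · exact hx₀
    · exact hF hx
  · by_contra hc
    push Not at hc
    have hxy : Relation.TransGen rel x y :=
      .single ⟨⟨j, Nat.lt_succ_of_le hj, hd, hc⟩, hy⟩
    have hlt : S y ⊂ S x := ⟨fun b hb => Relation.TransGen.trans hxy hb,
      fun hs => (hl p _ _ (hmono (hs hxy))).2 rfl⟩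
    have := Set.ncard_lt_ncard hlt (hS0.subset (hsub x hx))
    have := hmin y (Or.inr (hsub x hx hxy))
    omega
  · refine (min_le_right _ _).trans (hfar x₀ x p w ?_ hw)
    rcases hx with rfl | hx
    · exact Or.inl rfl
    · exact Or.inr (hl p _ _ (hmono hx)).1

end Cv

end Crest.Agent.R224
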