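import Crest.Agent.R224.Defs

/-! R224: the compactification `Z = Γ • o ∪ Y` and the objects of the dynamical part.
Definitions only: DO NOT CHANGE (owner helper75). -/

set_option autoImplicit false

namespace Crest.Agent.R224

open Set Filter Topology Pointwise

section top

variable {Z : Type} [TopologicalSpace Z]

/-- `H` is locally constant at `y` relative to `L`. -/
def LocC (L H : Set Z) (y : Z) : Prop := ∀ᶠ y' in 𝓝[L] y, (y' ∈ H ↔ y ∈ H)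

/-- `S` is clopen in `Y \ {b}`. -/
def Clo (Y : Set Z) (b : Z) (S : Set Z) : Prop :=
  S ⊆ Y \ {b} ∧ ∀ y ∈ Y, y ≠ b → LocC Y S y

/-- The quasi-component of `z` in `Y \ {b}`. -/
def qc (Y : Set Z) (b z : Z) : Set Z := {y | y ∈ Y ∧ y ≠ b ∧ ∀ S, Clo Y b S → z ∈ S → y ∈ S}

/-- Cut points. -/
def IsCut (Y : Set Z) (b : Z) : Prop :=
  b ∈ Y ∧ ∃ S, Clo Y b S ∧ S.Nonempty ∧ ∃ y ∈ Y, y ≠ b ∧ y ∉ S

/-- `Q` is a quasi-component of the complement of the cut point `b`. -/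
def IsQ (Y : Set Z) (b : Z) (Q : Set Z) : Prop := IsCut Y b ∧ ∃ z ∈ Y, z ≠ b ∧ Q = qc Y b z

/-- The quasi-component at `b` on the side of `L`. -/
def QL (Y L : Set Z) (b : Z) : Set Z := {y | ∃ l ∈ L, l ≠ b ∧ y ∈ qc Y b l}

/-- Blocks: no cut point separates `L`, and everything else hangs on `L` at a cut point. -/
structure Blk (Y L : Set Z) : Prop where
  sub : L ⊆ Y
  three : ∃ v : Fin 3 → Z, Function.Injective v ∧ ∀ i, v i ∈ L
  one : ∀ b, IsCut Y b → ∀ y ∈ L, ∀ y' ∈ L, y ≠ b → y' ≠ b → y' ∈ qc Y b y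
  ext : ∀ y ∈ Y, y ∉ L → ∃ b ∈ L, IsCut Y b ∧ y ∉ QL Y L b

/-- A nested invariant family with the gap property. -/
structure NF (Γ : Type) [Group Γ] [MulAction Γ Z] (Y : Set Z) (ℋ : Set (Set Z)) : Prop where
  sub : ∀ H ∈ ℋ, H ⊆ Y
  inv : ∀ g : Γ, ∀ H ∈ ℋ, g • H ∈ ℋ
  nest : ∀ H ∈ ℋ, ∀ H' ∈ ℋ, Disjoint H H' ∨ H ∪ H' = Y ∨ H ⊆ H' ∨ H' ⊆ H
  gap : ∀ H₁ ∈ ℋ, ∀ H₂ ∈ ℋ, ∀ H₃ ∈ ℋ, H₁ ⊂ H₂ → H₂ ⊂ H₃ →
    Disjoint (closure H₁) (closure (Y \ H₃))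

open Classical in
/-- Three chosen points of `L`. -/
noncomputable def Xi (L : Set Z) (z₀ : Z) : Fin 3 → Z :=
  if h : ∃ v : Fin 3 → Z, Function.Injective v ∧ ∀ i, v i ∈ L then h.choose else fun _ => z₀

end top

section metric

variable {Z : Type} [MetricSpace Z]

/-- `p` is a weak cut point of `L` between `z` and `z'`. -/
def WS (L : Set Z) (p z z' : Z) : Prop :=
  p ≠ z ∧ p ≠ z' ∧ ∀ ε > 0, ∃ H : Set Z, z ∈ H ∧ z' ∉ H ∧ ∀ y ∈ L, ε ≤ dist y p → LocC L H y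

/-- Uncountably many weak cut points between two points. -/
def WC (Y : Set Z) : Prop := ∃ z ∈ Y, ∃ z' ∈ Y, ¬{p | p ∈ Y ∧ WS Y p z z'}.Countable

end metric

section act

variable (Γ : Type) [Group Γ] {Z : Type} [MulAction Γ Z]

/-- The boundary: the complement of the orbit of `o`. -/
def Bd (o : Z) : Set Z := {z | ∀ g : Γ, g • o ≠ z}

variable {Γ}

/-- The limit set of a set of group elements. -/
def Lam [TopologicalSpace Z] (o : Z) (A : Set Γ) : Set Z :=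
  Bd Γ o ∩ closure ((fun g : Γ => g • o) '' A)

/-- Straightening: the majority of the three points `x • ξ i` lies in `H`. -/
def St (ξ : Fin 3 → Z) (H : Set Z) : Set Γ := {x | ∃ i j, i ≠ j ∧ x • ξ i ∈ H ∧ x • ξ j ∈ H}

/-- The angle at `x` between `u` and `v`. -/
def ang [Dist Z] (x : Γ) (u v : Z) : ℝ := dist (x⁻¹ • u) (x⁻¹ • v)

/-- `g` fixes pointwise an infinite initial segment of the chain of the members of `ℋ` with trace
`A` on `T`. -/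
def Germ (ℋ : Set (Set Z)) (T A : Set Z) (g : Γ) : Prop :=
  ∃ I : Set (Set Z), I.Infinite ∧ (∀ H ∈ I, H ∈ ℋ ∧ H ∩ T = A) ∧
    (∀ H ∈ I, ∀ H' ∈ ℋ, H' ∩ T = A → H' ⊆ H → H' ∈ I) ∧ ∀ H ∈ I, g • H = H

variable [TopologicalSpace Z] (C : Cay Γ)

/-- The total wall of a cut point: central points and the walls of all quasi-components. -/
def Wst (Y : Set Z) (ξ : Fin 3 → Z) (b : Z) : Set Γ :=
  {x | (∀ Q, IsQ Y b Q → x ∉ St ξ Q) ∨ ∃ Q, IsQ Y b Q ∧ x ∈ C.W (St ξ Q)}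

/-- The part of the group that belongs to the block `L`. -/
def VL (Y : Set Z) (ξ : Fin 3 → Z) (L : Set Z) : Set Γ :=
  {x | (∀ b ∈ L, IsCut Y b → x ∈ St ξ (QL Y L b)) ∨
    ∃ b ∈ L, IsCut Y b ∧ x ∈ C.W (St ξ (QL Y L b))}

/-- Straightening relative to a block. -/
def Lb (o : Z) (L H : Set Z) : Set Γ := {x | x ∈ St (Xi (x⁻¹ • L) o) H}

/-- The points of `VL` where the label changes. -/
def FL (o : Z) (ξ : Fin 3 → Z) (D : ℕ) (L H : Set Z) : Set Γ :=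
  {x | x ∈ VL C (Bd Γ o) ξ L ∧ ∃ x' ∈ VL C (Bd Γ o) ξ L, C.d x x' ≤ D ∧
    ¬(x ∈ Lb o L H ↔ x' ∈ Lb o L H)}

end act

section setting

variable {Γ : Type} [Group Γ] (C : Cay Γ) {Z : Type} [MetricSpace Z] [MulAction Γ Z]

/-- The compactification with its convergence action. -/
structure Cv (o : Z) : Prop where
  inf : Infinite Γ
  iso : ∃ e > 0, ∀ z, dist z o < e → z = o
  free : ∀ g : Γ, g • o = o → g = 1
  dense : DenseRange fun g : Γ => g • o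
  ucp : ∀ ε > 0, ∀ ε' > 0, ∃ R, ∀ g : Γ, R ≤ C.len g → ∀ z, ε ≤ dist z (g⁻¹ • o) →
    dist (g • z) (g • o) ≤ ε'
  sp : ∀ (x y : Γ) (ε : ℝ), dist (x • o) (y • o) < ε →
    C.Ch 1 {w | dist (w • o) (x • o) < ε} x y

/-- Three boundary points for which every vertex lies on finitely many walls. -/
structure LF (o : Z) (ξ : Fin 3 → Z) : Prop where
  mem : ∀ i, ξ i ∈ Bd Γ o
  inj : Function.Injective ξ
  fin : ∀ x : Γ, {Q | (∃ b, IsQ (Bd Γ o) b Q) ∧ x ∈ C.W (St ξ Q)}.Finite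

/-- The structure of the cut points. -/
structure Tame (o : Z) (ξ : Fin 3 → Z) (D : ℕ) : Prop extends LF C o ξ where
  one_le : 1 ≤ D
  opn : ∀ b Q, IsQ (Bd Γ o) b Q → Clo (Bd Γ o) b Q
  cnt : {b | IsCut (Bd Γ o) b}.Countable
  lam : ∀ b Q, IsQ (Bd Γ o) b Q → Lam o (C.W (St ξ Q)) ⊆ {b}
  null : ∀ ε > 0, {Q | ∃ b, IsQ (Bd Γ o) b Q ∧ ∃ x ∈ C.W (St ξ Q), ε ≤ dist (x • o) b}.Finite
  small : ∀ ε > 0, {Q | ∃ b, IsQ (Bd Γ o) b Q ∧ (∃ y ∈ Q, ε ≤ dist y b) ∧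
    ∃ y ∈ Bd Γ o \ Q, ε ≤ dist y b}.Finite
  ray : ∀ b Q, IsQ (Bd Γ o) b Q → ∀ x ∈ C.W (St ξ Q), {y | C.Ch D (C.W (St ξ Q)) x y}.Infinite

end setting

end Crest.Agent.R224
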