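import Crest.Agent.R224.Rho
import Crest.Agent.R224.ZDefs

/-! R224, task Compl: the completion.

Let `G'` be a type synonym of `Γ` with the metric `m` (`IsRho.disc` gives `eq_of_dist_eq_zero`), the action by left
multiplication and `UniformContinuousConstSMul Γ G'` (`IsRho.unif`).  `Z = UniformSpace.Completion G'` has the
instances `MetricSpace`, `MulAction`, `ContinuousConstSMul`; `o = ↑1`, `g • o = ↑g` (`Completion.coe_smul`),
`Completion.dist_eq`.  Compactness: the range of the coercion is totally bounded and dense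
(`Metric.totallyBounded_iff`, `TotallyBounded.closure`, `isCompact_iff_totallyBounded_isComplete`).
`iso`: points of `Γ` near `z` are within `e` of `1`, hence equal to `1`.  `ucp`: `Completion.induction_on`-type
density argument with `ε / 2`: the open set `{z | ε / 2 < dist z (g⁻¹ • o)}` lies in the closure of its points from
`Γ`. -/

set_option autoImplicit false
set_option linter.unusedSectionVars false

namespace Crest.Agent.R224

open Set Filter Topology Pointwise MeasureTheory

namespace Cay

variable {Γ : Type} [Group Γ] {C : Cay Γ} {r : ℕ} {f : Γ → ℝ} {x₀ y₀ : Γ}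

/-- The group with the metric `m`. -/
def Syn {m : Γ → Γ → ℝ} (_ : IsRho m) : Type := Γ

/-- The identity map to the synonym. -/
def toSyn {m : Γ → Γ → ℝ} (hm : IsRho m) (x : Γ) : Syn hm := x

noncomputable instance {m : Γ → Γ → ℝ} (hm : IsRho m) : PseudoMetricSpace (Syn hm) where
  dist x y := m x y
  dist_self := hm.self
  dist_comm := hm.symm
  dist_triangle := hm.tri

instance {m : Γ → Γ → ℝ} (hm : IsRho m) : MulAction Γ (Syn hm) :=
  inferInstanceAs (MulAction Γ Γ)

instance {m : Γ → Γ → ℝ} (hm : IsRho m) : UniformContinuousConstSMul Γ (Syn hm) where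
  uniformContinuous_const_smul g := by
    rw [Metric.uniformContinuous_iff]
    intro ε hε
    obtain ⟨η, hη, h⟩ := hm.unif g (ε / 2) (half_pos hε)
    exact ⟨η, hη, fun {a b} hab => (h a b hab.le).trans_lt (half_lt_self hε)⟩

theorem smul_toSyn {m : Γ → Γ → ℝ} (hm : IsRho m) (g x : Γ) :
    g • (toSyn hm x : UniformSpace.Completion (Syn hm)) = toSyn hm (g * x) := by
  rw [← UniformSpace.Completion.coe_smul]
  rfl

theorem dist_toSyn {m : Γ → Γ → ℝ} (hm : IsRho m) (x y : Γ) :
    dist (toSyn hm x : UniformSpace.Completion (Syn hm)) (toSyn hm y) = m x y := by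
  rw [UniformSpace.Completion.dist_eq]
  rfl

theorem compact_syn {m : Γ → Γ → ℝ} (hm : IsRho m)
    (htb : ∀ ε > 0, ∃ (n : ℕ) (cell : Γ → Fin n), ∀ x y, cell x = cell y → m x y ≤ ε) :
    CompactSpace (UniformSpace.Completion (Syn hm)) := by
  have h1 : TotallyBounded (univ : Set (Syn hm)) := by
    refine Metric.totallyBounded_of_finite_discretization fun ε hε => ?_
    obtain ⟨n, cell, h⟩ := htb (ε / 2) (half_pos hε)
    exact ⟨Fin n, inferInstance, fun x => cell x.1, fun x y e =>
      (h _ _ e).trans_lt (half_lt_self hε)⟩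
  have h2 := (h1.image (UniformSpace.Completion.uniformContinuous_coe (Syn hm))).closure
  rw [image_univ, UniformSpace.Completion.denseRange_coe.closure_range] at h2
  exact ⟨isCompact_iff_totallyBounded_isComplete.2 ⟨h2, isComplete_univ⟩⟩

theorem compl [Infinite Γ] {m : Γ → Γ → ℝ} (hm : IsRho m)
    (htb : ∀ ε > 0, ∃ (n : ℕ) (cell : Γ → Fin n), ∀ x y, cell x = cell y → m x y ≤ ε)
    (hucp : ∀ ε > 0, ∀ ε' > 0, ∃ R, ∀ g, R ≤ C.len g → ∀ z, m z g⁻¹ ≤ ε ∨ m (g * z) g ≤ ε')
    (hsp : ∀ x y ε, m x y < ε → C.Ch 1 {w | m w x < ε} x y) :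
    ∃ (Z : Type) (_ : MetricSpace Z) (_ : CompactSpace Z) (_ : MulAction Γ Z)
      (_ : ContinuousConstSMul Γ Z) (o : Z), Cv C o ∧ ∀ x y : Γ, dist (x • o) (y • o) = m x y := by
  have ho : ∀ g : Γ, g • (toSyn hm 1 : UniformSpace.Completion (Syn hm)) = toSyn hm g := fun g => by
    rw [smul_toSyn, mul_one]
  have hd : ∀ x y : Γ, dist (x • (toSyn hm 1 : UniformSpace.Completion (Syn hm)))
      (y • (toSyn hm 1 : UniformSpace.Completion (Syn hm))) = m x y := fun x y => by
    rw [ho, ho, dist_toSyn]
  obtain ⟨e, he, hdisc⟩ := hm.disc 1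
  refine ⟨UniformSpace.Completion (Syn hm), inferInstance, compact_syn hm htb, inferInstance,
    inferInstance, toSyn hm 1, ⟨inferInstance, ⟨e, he, fun z hz => ?_⟩, fun g hg => ?_, ?_,
      fun ε hε ε' hε' => ?_, fun x y ε h => ?_⟩, hd⟩
  · have : z = toSyn hm 1 ∨ e ≤ dist z (toSyn hm 1 : UniformSpace.Completion (Syn hm)) := by
      refine UniformSpace.Completion.induction_on z
        ((isClosed_eq continuous_id continuous_const).union
          (isClosed_le continuous_const (continuous_id.dist continuous_const))) fun a => ?_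
      by_cases ha : a = toSyn hm 1
      · exact Or.inl (by rw [ha])
      · refine Or.inr ?_
        rw [dist_comm]
        exact (hdisc a ha).trans_eq (dist_toSyn hm 1 a).symm
    exact this.resolve_right (not_le.2 hz)
  · by_contra hne
    have h1 := hdisc g hne
    rw [← hd, hg, one_smul, dist_self] at h1
    exact absurd he (not_lt.2 h1)
  · simp only [ho]
    exact UniformSpace.Completion.denseRange_coe (α := Syn hm)
  · obtain ⟨R, hR⟩ := hucp (ε / 2) (half_pos hε) ε' hε'
    refine ⟨R, fun g hg z hz => ?_⟩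
    have : dist z (g⁻¹ • (toSyn hm 1 : UniformSpace.Completion (Syn hm))) ≤ ε / 2 ∨
        dist (g • z) (g • (toSyn hm 1 : UniformSpace.Completion (Syn hm))) ≤ ε' := by
      refine UniformSpace.Completion.induction_on z
        ((isClosed_le (continuous_id.dist continuous_const) continuous_const).union
          (isClosed_le ((continuous_const_smul g).dist continuous_const) continuous_const))
        fun a => ?_
      obtain ⟨b, rfl⟩ : ∃ b : Γ, toSyn hm b = a := ⟨a, rfl⟩
      rw [ho, ho, smul_toSyn, dist_toSyn, dist_toSyn]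
      exact hR g hg b
    exact this.resolve_left (not_le.2 ((half_lt_self hε).trans_le hz))
  · simp only [hd] at h ⊢
    exact hsp x y ε h

end Cay

end Crest.Agent.R224
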