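import Mathlib

/-! R224 (S0346, vanishing of the first `L²` Betti number): group-level definitions.
Definitions only: DO NOT CHANGE (owner helper75).

`C : Cay Γ` is a word length; `x, y` are *adjacent* if `C.d x y ≤ 1` (this includes `x = y`).
All cochains have values in `ZMod 2`. -/

set_option autoImplicit false

namespace Crest.Agent.R224

open Set

/-- A word length on a group. -/
structure Cay (Γ : Type) [Group Γ] where
  len : Γ → ℕ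
  len_zero : ∀ g, len g = 0 ↔ g = 1
  len_inv : ∀ g, len g⁻¹ = len g
  len_mul : ∀ g h, len (g * h) ≤ len g + len h
  fin : ∀ n, {g | len g ≤ n}.Finite
  geo : ∀ g n, len g = n + 1 → ∃ h, len h = n ∧ len (h⁻¹ * g) ≤ 1

namespace Cay

variable {Γ : Type} [Group Γ] (C : Cay Γ)

/-- The word metric. -/
def d (x y : Γ) : ℕ := C.len (x⁻¹ * y)

/-- Chains with steps of length at most `D` inside `A`. -/
def Ch (D : ℕ) (A : Set Γ) : Γ → Γ → Prop :=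
  Relation.ReflTransGen fun a b => a ∈ A ∧ b ∈ A ∧ C.d a b ≤ D

/-- Connected sets of vertices. -/
def Conn (A : Set Γ) : Prop := ∀ x ∈ A, ∀ y ∈ A, C.Ch 1 A x y

/-- The wall of `U`: end points of edges that leave `U`. -/
def W (U : Set Γ) : Set Γ := {x | ∃ y, C.d x y ≤ 1 ∧ ¬(x ∈ U ↔ y ∈ U)}

/-- The `r`-neighbourhood. -/
def N (r : ℕ) (A : Set Γ) : Set Γ := {x | ∃ a ∈ A, C.d x a ≤ r}

/-- `1`-cocycles at scale `r`. -/
def Coc1 (r : ℕ) (c : Γ → Γ → ZMod 2) : Prop :=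
  ∀ x y z, C.d x y ≤ r → C.d y z ≤ r → C.d x z ≤ r → c y z + c x z + c x y = 0

/-- `2`-cocycles at scale `r`. -/
def Coc2 (r : ℕ) (ω : Γ → Γ → Γ → ZMod 2) : Prop :=
  ∀ x y z w, C.d x y ≤ r → C.d x z ≤ r → C.d x w ≤ r → C.d y z ≤ r → C.d y w ≤ r →
    C.d z w ≤ r → ω y z w + ω x z w + ω x y w + ω x y z = 0

/-- Cocycles at scale `r` are coboundaries at scale `1`. -/
def H1 (r : ℕ) : Prop :=
  ∀ c, C.Coc1 r c → ∃ φ : Γ → ZMod 2, ∀ x y, C.d x y ≤ 1 → c x y = φ x + φ y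

/-- At most one end. -/
def H2 : Prop := ∀ U : Set Γ, (C.W U).Finite → U.Finite ∨ Uᶜ.Finite

/-- Finitely supported `2`-cocycles at scale `r` are, at scale `1`, coboundaries of finitely
supported cochains. -/
def H3 (r : ℕ) : Prop :=
  ∀ ω, C.Coc2 r ω →
    (∃ K : Set Γ, K.Finite ∧ ∀ x y z, C.d x y ≤ r → C.d y z ≤ r → C.d x z ≤ r → ω x y z ≠ 0 →
      x ∈ K) →
    ∃ (β : Γ → Γ → ZMod 2) (K : Set Γ), K.Finite ∧ (∀ x y, β x y ≠ 0 → x ∈ K ∧ y ∈ K) ∧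
      ∀ x y z, C.d x y ≤ 1 → C.d y z ≤ 1 → C.d x z ≤ 1 → ω x y z = β y z + β x z + β x y

/-- The three coarse hypotheses. -/
structure Hyp (r : ℕ) : Prop where
  one_le : 1 ≤ r
  h1 : C.H1 1
  h2 : C.H2
  h3 : C.H3 r

/-- Vertices of rainbow triples: one vertex in each of `A`, `U \ A`, `Uᶜ`. -/
def Rb (r : ℕ) (A U : Set Γ) : Set Γ :=
  {x | ∃ a b c, a ∈ A ∧ b ∈ U ∧ b ∉ A ∧ c ∉ U ∧ C.d a b ≤ r ∧ C.d b c ≤ r ∧ C.d a c ≤ r ∧
    (x = a ∨ x = b ∨ x = c)}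

/-- Both sides of `U` contain infinite connected sets far from the wall. -/
def Deep (U : Set Γ) : Prop :=
  ∀ r, ∃ A A' : Set Γ, A ⊆ U ∧ A' ⊆ Uᶜ ∧ C.Conn A ∧ C.Conn A' ∧ A.Infinite ∧ A'.Infinite ∧
    Disjoint A (C.N r (C.W U)) ∧ Disjoint A' (C.N r (C.W U))

/-- The generators. -/
noncomputable def T : Finset Γ := (C.fin 1).toFinset

/-- Finite energy. -/
def FinE (f : Γ → ℝ) : Prop := Summable fun p : Γ × C.T => (f (p.1 * (p.2 : Γ)) - f p.1) ^ 2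

/-- The energy. -/
noncomputable def En (f : Γ → ℝ) : ℝ := ∑' p : Γ × C.T, (f (p.1 * (p.2 : Γ)) - f p.1) ^ 2

/-- Approximable by finitely supported functions. -/
def Appr (f : Γ → ℝ) : Prop :=
  ∀ ε > 0, ∃ u : Γ → ℝ, (Function.support u).Finite ∧ C.En (f - u) < ε

/-- The properties of the free potential of an edge. -/
structure Pot (f : Γ → ℝ) (x₀ y₀ : Γ) : Prop where
  finE : C.FinE f
  adj : C.d x₀ y₀ ≤ 1
  f0 : f x₀ = 0
  f1 : f y₀ = 1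
  mem : ∀ x, f x ∈ Icc (0 : ℝ) 1
  up : ∀ b ∈ Ioo (0 : ℝ) 1, C.Conn {x | b < f x}
  dn : ∀ b ∈ Ioo (0 : ℝ) 1, C.Conn {x | f x < b}
  osc : ∃ a a' : ℝ, a < a' ∧ {x | f x < a}.Infinite ∧ {x | a' < f x}.Infinite

/-- A bound for the oscillation of `f` on the ball of radius `r`. -/
noncomputable def om (r : ℕ) (f : Γ → ℝ) (x : Γ) : ℝ :=
  2 * ∑ s ∈ (C.fin r).toFinset, |f (x * s) - f x|

/-- The level wall: points whose `r`-ball sees both sides of the level `t`. -/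
def Lw (r : ℕ) (f : Γ → ℝ) (t : ℝ) : Set Γ :=
  {x | ∃ y z, C.d x y ≤ r ∧ C.d x z ≤ r ∧ f y < t ∧ t < f z}

/-- Good levels. -/
def Good (r : ℕ) (f : Γ → ℝ) (s : ℝ) : Prop :=
  s ∉ range f ∧ ∀ g : Γ, Summable fun x : C.Lw r f s => C.om r f (g * x)

open Classical in
/-- The weighted sum of the translates of `f` and of the point masses. -/
noncomputable def rho (w f : Γ → ℝ) (x y : Γ) : ℝ :=
  (∑' g, w g * |f (g⁻¹ * x) - f (g⁻¹ * y)|) + if x = y then 0 else w x + w y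

/-- The Mazurkiewicz metric of `ρ`. -/
noncomputable def md (ρ : Γ → Γ → ℝ) (x y : Γ) : ℝ :=
  sInf {ε | ∃ A : Set Γ, C.Conn A ∧ x ∈ A ∧ y ∈ A ∧ ∀ a ∈ A, ∀ b ∈ A, ρ a b ≤ ε}

/-- `ρ` is a bounded metric, discrete at every point, with uniformly continuous translations. -/
structure IsRho (ρ : Γ → Γ → ℝ) : Prop where
  self : ∀ x, ρ x x = 0
  symm : ∀ x y, ρ x y = ρ y x
  tri : ∀ x y z, ρ x z ≤ ρ x y + ρ y z
  bdd : ∃ B, ∀ x y, ρ x y ≤ B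
  disc : ∀ x, ∃ e > 0, ∀ y, y ≠ x → e ≤ ρ x y
  unif : ∀ g : Γ, ∀ ε > 0, ∃ η > 0, ∀ x y, ρ x y ≤ η → ρ (g * x) (g * y) ≤ ε

/-- The upper level set of a translate of `f`. -/
def Up (f : Γ → ℝ) (g : Γ) (t : ℝ) : Set Γ := {x | t < f (g⁻¹ * x)}

/-- A finite system of level windows that controls `ρ` up to `ε`: for every choice of levels in the
windows, two points outside `K` on the same side of all levels are `ε`-close. -/
structure Sys (ρ : Γ → Γ → ℝ) (f : Γ → ℝ) (ε : ℝ) where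
  n : ℕ
  g : Fin n → Γ
  a : Fin n → ℝ
  b : Fin n → ℝ
  K : Set Γ
  fin : K.Finite
  one : (1 : Γ) ∈ K
  pos : ∀ i, 0 ≤ a i
  lt : ∀ i, a i < b i
  le : ∀ i, b i ≤ 1
  ctl : ∀ t : Fin n → ℝ, (∀ i, t i ∈ Ioo (a i) (b i)) → ∀ x y, x ∉ K → y ∉ K →
    (∀ i, x ∈ Up f (g i) (t i) ↔ y ∈ Up f (g i) (t i)) → ρ x y ≤ ε

/-- An `ε`-skeleton for the metric `m`. -/
structure Skel (m : Γ → Γ → ℝ) (ε : ℝ) (T : Set Γ) : Prop where
  conn : C.Conn T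
  one : (1 : Γ) ∈ T
  small : ∀ x y, Relation.ReflTransGen (fun a b => C.d a b ≤ 1 ∧ ¬(a ∈ T ∧ b ∈ T)) x y →
    m x y ≤ ε

/-- Finitely many cells of size `ε` whose walls meet the set `Ω` in a finite set. -/
def Cells (r : ℕ) (m : Γ → Γ → ℝ) (ε : ℝ) (Ω : Set Γ) : Prop :=
  ∃ (n : ℕ) (cell : Γ → Fin n), (∀ x y, cell x = cell y → m x y ≤ ε) ∧
    {x | x ∈ Ω ∧ ∃ y, C.d x y ≤ r ∧ cell x ≠ cell y}.Finite

end Cay

end Crest.Agent.R224
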