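import Crest.Agent.R224.Bas

/-! R224, task EG1: the end game.

`unif3`: for each subset `ω` of the finite set `B(ρ+r)³` (a `2`-cochain `1_ω`) that is a cocycle at scale `r`
take the set `K` of `H3`; `ρ'` bounds the lengths on the union of these finitely many finite sets.  For a
general `ω`, translate by `x₀⁻¹` and replace `ω` by zero on triples that are not pairwise `r`-close (this keeps
`Coc2`); the result is one of the finitely many cochains (its support lies in `B(ρ+r)³`).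

`eg0`: `c = δφ` by `H1`; `V = {φ = 1}` has `W V ⊆ K` (finite).  `φ` is constant on `A` and on `A'`
(`Ch.const`), and `φ + 1_U` is constant along `P`, so `φ x ≠ φ x'`: both `V`, `Vᶜ` are infinite, against `H2`.

`eg`: let `ρ'` be given by `unif3 ρ`, `A₀, A₀'` by `Deep` for the radius `ρ' + r`, `P` a finite set joining
`x ∈ A₀` to `x' ∈ A₀'` (`conn_univ`, `Ch.exists_finite`), `K = N ρ' P`, and `A` given by the hypothesis.
`α a b = 1` iff (`a ∈ A`, `b ∉ U`) or (`b ∈ A`, `a ∉ U`); `ω = δα` (on all triples) is `1` exactly when the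
three vertices lie one in each of `A`, `U \ A`, `Uᶜ` (case check), and `δω = 0`.  Let `T = Rb r A U`
(finite) and for `t ∈ T` let `κ t = {y | Ch r T t y}`.  For a component `B ∈ κ '' T` put `ω_B a b c = ω a b c` if
`a ∈ B` and the triple is pairwise `r`-close, else `0`.  It is a cocycle at scale `r`: in a pairwise close
`4`-tuple all vertices of rainbow faces lie in `T` and are `r`-close, so they lie in one component.  `unif3`
(centre any `t ∈ B`) gives `β_B` supported in `N ρ' T`.  `c = α + ∑_B β_B` is a cocycle at scale `1`, has finite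
support (`A ∩ W U` finite), vanishes on `A₀`, `A₀'` (`Rb_subset`, `N_N`), and on `P` it is `α = δ1_U`
(`K ∩ U ∩ W U ⊆ A`, `Disjoint K T`).  Apply `eg0`. -/

set_option autoImplicit false

namespace Crest.Agent.R224

open Set Filter Pointwise

namespace Cay

variable {Γ : Type} [Group Γ] {C : Cay Γ} {r : ℕ}

theorem z2_ext {a b : ZMod 2} (h : a ≠ 0 ↔ b ≠ 0) : a = b := by
  revert a b; decide

theorem z2_add {a b : ZMod 2} : a + b = 0 ↔ (a = 1 ↔ b = 1) := by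
  revert a b; decide

theorem unif3 (hy : C.Hyp r) (ρ : ℕ) : ∃ ρ' : ℕ, ∀ (x₀ : Γ) (ω : Γ → Γ → Γ → ZMod 2), C.Coc2 r ω →
    (∀ x y z, C.d x y ≤ r → C.d y z ≤ r → C.d x z ≤ r → ω x y z ≠ 0 → C.d x₀ x ≤ ρ) →
    ∃ β : Γ → Γ → ZMod 2, (∀ x y, β x y ≠ 0 → C.d x₀ x ≤ ρ' ∧ C.d x₀ y ≤ ρ') ∧
      ∀ x y z, C.d x y ≤ 1 → C.d y z ≤ 1 → C.d x z ≤ 1 → ω x y z = β y z + β x z + β x y := by
  classical
  let S : Set Γ := {g | C.len g ≤ ρ + r}
  let Ω : Set (Γ → Γ → Γ → ZMod 2) := {ω | ∀ x y z, ω x y z ≠ 0 → x ∈ S ∧ y ∈ S ∧ z ∈ S}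
  have hS : S.Finite := C.fin _
  have hΩ : Ω.Finite := by
    refine Set.Finite.of_finite_image (f := fun ω => {p : Γ × Γ × Γ | ω p.1 p.2.1 p.2.2 ≠ 0})
      ((hS.prod (hS.prod hS)).finite_subsets.subset ?_) ?_
    · rintro _ ⟨ω, hω, rfl⟩ p hp
      exact hω _ _ _ hp
    · intro ω _ ω' _ e
      funext x y z
      exact z2_ext (Set.ext_iff.1 e (x, y, z))
  have H : ∀ ω : Γ → Γ → Γ → ZMod 2, ∃ n : ℕ, ω ∈ Ω → C.Coc2 r ω →
      ∃ β : Γ → Γ → ZMod 2, (∀ x y, β x y ≠ 0 → C.len x ≤ n ∧ C.len y ≤ n) ∧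
        ∀ x y z, C.d x y ≤ 1 → C.d y z ≤ 1 → C.d x z ≤ 1 → ω x y z = β y z + β x z + β x y := by
    intro ω
    by_cases h : ω ∈ Ω ∧ C.Coc2 r ω
    · obtain ⟨β, K, hK, hβ, e⟩ := hy.h3 ω h.2 ⟨S, hS, fun x y z _ _ _ h0 => (h.1 x y z h0).1⟩
      obtain ⟨n, hn⟩ := (hK.image C.len).bddAbove
      exact ⟨n, fun _ _ => ⟨β, fun x y h0 =>
        ⟨hn ⟨x, (hβ x y h0).1, rfl⟩, hn ⟨y, (hβ x y h0).2, rfl⟩⟩, e⟩⟩
    · exact ⟨0, fun h1 h2 => (h ⟨h1, h2⟩).elim⟩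
  choose n hn using H
  obtain ⟨ρ', hρ'⟩ := (hΩ.image n).bddAbove
  refine ⟨ρ', fun x₀ ω hω hs => ?_⟩
  let ω' : Γ → Γ → Γ → ZMod 2 := fun a b c =>
    if C.d a b ≤ r ∧ C.d b c ≤ r ∧ C.d a c ≤ r then ω (x₀ * a) (x₀ * b) (x₀ * c) else 0
  have h1 : ω' ∈ Ω := by
    intro a b c h0
    by_cases hc : C.d a b ≤ r ∧ C.d b c ≤ r ∧ C.d a c ≤ r
    · have := hs (x₀ * a) (x₀ * b) (x₀ * c) (by rw [d_mul]; exact hc.1) (by rw [d_mul]; exact hc.2.1)
        (by rw [d_mul]; exact hc.2.2) (by simpa [ω', hc] using h0)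
      rw [d_mul_right] at this
      have hb := C.d_tri 1 a b
      have hc' := C.d_tri 1 a c
      simp only [d_one] at hb hc'
      obtain ⟨h1, -, h3⟩ := hc
      refine ⟨?_, ?_, ?_⟩ <;> show C.len _ ≤ ρ + r <;> omega
    · exact (h0 (if_neg hc)).elim
  have h2 : C.Coc2 r ω' := by
    intro x y z w hxy hxz hxw hyz hyw hzw
    simp only [ω', hxy, hxz, hxw, hyz, hyw, hzw, and_self, if_true]
    refine hω _ _ _ _ ?_ ?_ ?_ ?_ ?_ ?_ <;> rw [d_mul] <;> assumption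
  obtain ⟨β, hβ, e⟩ := hn ω' h1 h2
  have hle : n ω' ≤ ρ' := hρ' ⟨ω', h1, rfl⟩
  refine ⟨fun x y => β (x₀⁻¹ * x) (x₀⁻¹ * y), fun x y h0 =>
    ⟨(hβ _ _ h0).1.trans hle, (hβ _ _ h0).2.trans hle⟩, fun x y z hxy hyz hxz => ?_⟩
  have := e (x₀⁻¹ * x) (x₀⁻¹ * y) (x₀⁻¹ * z) (by rwa [d_mul]) (by rwa [d_mul]) (by rwa [d_mul])
  rw [← this]
  simp only [ω', d_mul, hxy.trans hy.one_le, hyz.trans hy.one_le, hxz.trans hy.one_le, and_self,
    if_true, mul_inv_cancel_left]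

theorem eg0 (hy : C.Hyp r) {c : Γ → Γ → ZMod 2} (hc : C.Coc1 1 c) {K : Set Γ} (hK : K.Finite)
    (hs : ∀ x y, C.d x y ≤ 1 → c x y ≠ 0 → x ∈ K) {A A' P U : Set Γ} (hA : C.Conn A)
    (hA' : C.Conn A') (hi : A.Infinite) (hi' : A'.Infinite)
    (h0 : ∀ a ∈ A, ∀ b ∈ A, C.d a b ≤ 1 → c a b = 0)
    (h0' : ∀ a ∈ A', ∀ b ∈ A', C.d a b ≤ 1 → c a b = 0) {x x' : Γ} (hx : x ∈ A) (hx' : x' ∈ A')
    (hP : C.Ch 1 P x x') (hU : ∀ a ∈ P, ∀ b ∈ P, C.d a b ≤ 1 → (c a b = 0 ↔ (a ∈ U ↔ b ∈ U)))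
    (hxU : x ∈ U) (hxU' : x' ∉ U) : False := by
  obtain ⟨φ, hφ⟩ := hy.h1 c hc
  have hW : (C.W {z | φ z = 1}).Finite := by
    refine hK.subset fun z ⟨y, hd, hne⟩ => hs z y hd fun h => hne ?_
    rw [hφ z y hd] at h
    exact z2_add.1 h
  have hc1 : ∀ {B : Set Γ} {y : Γ}, C.Conn B → y ∈ B → (∀ a ∈ B, ∀ b ∈ B, C.d a b ≤ 1 → c a b = 0) →
      ∀ z ∈ B, (φ y = 1 ↔ φ z = 1) := fun {B y} hB hy' h z hz =>
    Iff.of_eq ((hB y hy' z hz).const (fun w => φ w = 1) fun a ha b hb hd =>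
      propext (z2_add.1 (by rw [← hφ a b hd]; exact h a ha b hb hd)))
  have hx1 := hc1 hA hx h0
  have hx2 := hc1 hA' hx' h0'
  have hxx : (φ x = 1 ↔ x ∈ U) = (φ x' = 1 ↔ x' ∈ U) :=
    hP.const (fun w => (φ w = 1 ↔ w ∈ U)) fun a ha b hb hd => by
      have h := hU a ha b hb hd
      rw [hφ a b hd, z2_add] at h
      exact propext (by tauto)
  have hxx' : φ x = 1 ↔ ¬φ x' = 1 := by simpa [hxU, hxU'] using hxx
  by_cases h1 : φ x = 1
  · rcases hy.h2 _ hW with h | h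
    · exact hi (h.subset fun z hz => (hx1 z hz).1 h1)
    · exact hi' (h.subset fun z hz e => hxx'.1 h1 ((hx2 z hz).2 e))
  · rcases hy.h2 _ hW with h | h
    · exact hi' (h.subset fun z hz => (hx2 z hz).1 (by tauto))
    · exact hi (h.subset fun z hz e => h1 ((hx1 z hz).2 e))

theorem z2_delta (a b c d e f : ZMod 2) :
    a + b + c = (a + d + e) + (b + d + f) + (c + e + f) := by
  revert a b c d e f; decide

open Classical in
theorem rb_cases {a b c u v w : Prop} (ha : a → u) (hb : b → v) (hc : c → w)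
    (h : ((if (b ∧ ¬w) ∨ (c ∧ ¬v) then 1 else 0) + (if (a ∧ ¬w) ∨ (c ∧ ¬u) then 1 else 0) +
      (if (a ∧ ¬v) ∨ (b ∧ ¬u) then 1 else 0) : ZMod 2) ≠ 0) :
    (a ∧ v ∧ ¬b ∧ ¬w) ∨ (a ∧ w ∧ ¬c ∧ ¬v) ∨ (b ∧ u ∧ ¬a ∧ ¬w) ∨ (b ∧ w ∧ ¬c ∧ ¬u) ∨
      (c ∧ u ∧ ¬a ∧ ¬v) ∨ (c ∧ v ∧ ¬b ∧ ¬u) := by
  by_cases a <;> by_cases b <;> by_cases c <;> by_cases u <;> by_cases v <;> by_cases w <;>
    simp_all [CharTwo.add_self_eq_zero]

theorem eg (hy : C.Hyp r) {U : Set Γ} (hU : C.Deep U) (ρ : ℕ)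
    (h : ∀ K : Set Γ, K.Finite → ∃ A ⊆ U, (C.Rb r A U).Finite ∧ (A ∩ C.W U).Finite ∧
      K ∩ U ∩ C.W U ⊆ A ∧ Disjoint K (C.Rb r A U) ∧
      ∀ x y, C.Ch r (C.Rb r A U) x y → C.d x y ≤ ρ) : False := by
  classical
  obtain ⟨ρ', hρ'⟩ := unif3 hy ρ
  obtain ⟨A₀, A₀', hA₀U, hA₀U', hc₀, hc₀', hi₀, hi₀', hd₀, hd₀'⟩ := hU (ρ' + r)
  obtain ⟨x, hx⟩ := hi₀.nonempty
  obtain ⟨x', hx'⟩ := hi₀'.nonempty
  obtain ⟨P, -, hPf, -, -, hP⟩ :=
    (C.conn_univ x (mem_univ _) x' (mem_univ _)).exists_finite (mem_univ _)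
  obtain ⟨A, hAU, hT, hAW, hKA, hKT, hρ⟩ := h (C.N ρ' P) (C.finite_N ρ' hPf)
  set T := C.Rb r A U with hTdef
  let α : Γ → Γ → ZMod 2 := fun a b => if (a ∈ A ∧ b ∉ U) ∨ (b ∈ A ∧ a ∉ U) then 1 else 0
  let ω : Γ → Γ → Γ → ZMod 2 := fun a b c => α b c + α a c + α a b
  have hωT : ∀ a b c, C.d a b ≤ r → C.d b c ≤ r → C.d a c ≤ r → ω a b c ≠ 0 → a ∈ T := by
    intro a b c hab hbc hac h0
    have hba : C.d b a ≤ r := by rwa [d_comm]
    have hcb : C.d c b ≤ r := by rwa [d_comm]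
    have hca : C.d c a ≤ r := by rwa [d_comm]
    rcases rb_cases (@hAU a) (@hAU b) (@hAU c) h0 with h | h | h | h | h | h
    · exact ⟨a, b, c, h.1, h.2.1, h.2.2.1, h.2.2.2, hab, hbc, hac, Or.inl rfl⟩
    · exact ⟨a, c, b, h.1, h.2.1, h.2.2.1, h.2.2.2, hac, hcb, hab, Or.inl rfl⟩
    · exact ⟨b, a, c, h.1, h.2.1, h.2.2.1, h.2.2.2, hba, hac, hbc, Or.inr (Or.inl rfl)⟩
    · exact ⟨b, c, a, h.1, h.2.1, h.2.2.1, h.2.2.2, hbc, hca, hba, Or.inr (Or.inr rfl)⟩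
    · exact ⟨c, a, b, h.1, h.2.1, h.2.2.1, h.2.2.2, hca, hab, hcb, Or.inr (Or.inl rfl)⟩
    · exact ⟨c, b, a, h.1, h.2.1, h.2.2.1, h.2.2.2, hcb, hba, hca, Or.inr (Or.inr rfl)⟩
  have hδ : ∀ x y z w, ω y z w = ω x z w + ω x y w + ω x y z := fun x y z w =>
    z2_delta _ _ _ _ _ _
  let κ : Γ → Set Γ := fun t => {y | C.Ch r T t y}
  have hκ : ∀ a ∈ T, ∀ b ∈ T, C.d a b ≤ r → κ a = κ b := by
    intro a ha b hb hab
    have h1 : C.Ch r T a b := Relation.ReflTransGen.single ⟨ha, hb, hab⟩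
    exact Set.ext fun y => ⟨fun h => h1.symm.trans h, fun h => h1.trans h⟩
  let ωB : Set Γ → Γ → Γ → Γ → ZMod 2 := fun B a b c => if κ a = B then ω a b c else 0
  have hcoc : ∀ B, C.Coc2 r (ωB B) := by
    intro B x y z w hxy hxz hxw hyz hyw hzw
    by_cases h0 : ω y z w = 0
    · have h1 := hδ x y z w
      rw [h0] at h1
      by_cases hB : κ x = B
      · simp only [ωB, hB, if_true, h0, ite_self, zero_add, ← h1]
      · simp only [ωB, hB, if_false, h0, ite_self, zero_add]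
    · have hy' : y ∈ T := hωT y z w hyz hzw hyw h0
      have hx' : x ∈ T := by
        by_contra hc
        refine h0 ?_
        rw [hδ x y z w, by_contra fun h => hc (hωT x z w hxz hzw hxw h),
          by_contra fun h => hc (hωT x y w hxy hyw hxw h),
          by_contra fun h => hc (hωT x y z hxy hyz hxz h), add_zero, add_zero]
      have e := hκ x hx' y hy' hxy
      by_cases hB : κ y = B
      · simp only [ωB, e, hB, if_true]
        rw [add_assoc, add_assoc, ← add_assoc (ω x z w), ← hδ x y z w]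
        exact CharTwo.add_self_eq_zero _
      · simp only [ωB, e, hB, if_false, add_zero]
  have H : ∀ B : Set Γ, ∃ β : Γ → Γ → ZMod 2, (∀ x y, β x y ≠ 0 → x ∈ C.N ρ' T) ∧
      (B ∈ κ '' T → ∀ x y z, C.d x y ≤ 1 → C.d y z ≤ 1 → C.d x z ≤ 1 →
        ωB B x y z = β y z + β x z + β x y) := by
    intro B
    by_cases hB : B ∈ κ '' T
    · obtain ⟨t, ht, rfl⟩ := hB
      obtain ⟨β, hβ, e⟩ := hρ' t (ωB (κ t)) (hcoc _) fun a b c _ _ _ h0 => by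
        have h1 : κ a = κ t := by
          by_contra hc
          exact h0 (if_neg hc)
        have h2 : a ∈ κ t := h1 ▸ (Relation.ReflTransGen.refl : C.Ch r T a a)
        exact hρ t a h2
      exact ⟨β, fun x y h0 => ⟨t, ht, by rw [d_comm]; exact (hβ x y h0).1⟩, fun _ => e⟩
    · exact ⟨0, fun x y h0 => (h0 rfl).elim, fun h => (hB h).elim⟩
  choose β hβ hβe using H
  let S := (hT.image κ).toFinset
  have hsum : ∀ a b, a ∉ C.N ρ' T → ∑ B ∈ S, β B a b = 0 := fun a b ha =>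
    Finset.sum_eq_zero fun B _ => by_contra fun h => ha (hβ B a b h)
  have hfar : ∀ a, a ∉ C.N (ρ' + r) (C.W U) → a ∉ C.N ρ' T := fun a ha h =>
    ha (C.N_N ρ' r _ (C.N_mono le_rfl (C.Rb_subset hAU) h))
  refine eg0 hy (c := fun a b => α a b + ∑ B ∈ S, β B a b) ?_
    ((C.finite_N 1 hAW).union (C.finite_N ρ' hT)) ?_ hc₀ hc₀' hi₀ hi₀' ?_ ?_ hx hx' hP (U := U) ?_
    (hA₀U hx) (hA₀U' hx')
  · intro a b c hab hbc hac
    have h1 : ∑ B ∈ S, (β B b c + β B a c + β B a b) = ω a b c := by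
      rw [← Finset.sum_congr rfl fun B hB => hβe B ((Finite.mem_toFinset _).1 hB) a b c hab hbc hac]
      simp only [ωB, Finset.sum_ite_eq]
      split_ifs with hS
      · rfl
      · by_contra hne
        exact hS ((Finite.mem_toFinset _).2 ⟨a, hωT a b c (hab.trans hy.one_le)
          (hbc.trans hy.one_le) (hac.trans hy.one_le) (Ne.symm hne), rfl⟩)
    rw [Finset.sum_add_distrib, Finset.sum_add_distrib] at h1
    have h2 : ω a b c + ω a b c = 0 := CharTwo.add_self_eq_zero _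
    rw [← h2]
    nth_rewrite 2 [← h1]
    simp only [ω]
    ring
  · intro a b hab h0
    by_cases ha : a ∈ C.N ρ' T
    · exact Or.inr ha
    · rw [hsum a b ha, add_zero] at h0
      have h1 : (a ∈ A ∧ b ∉ U) ∨ (b ∈ A ∧ a ∉ U) := by
        by_contra hc
        exact h0 (if_neg hc)
      rcases h1 with h1 | h1
      · exact Or.inl (C.subset_N 1 _ ⟨h1.1, b, hab, fun e => h1.2 (e.1 (hAU h1.1))⟩)
      · exact Or.inl ⟨b, ⟨h1.1, a, by rwa [d_comm], fun e => h1.2 (e.1 (hAU h1.1))⟩, hab⟩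
  · intro a ha b hb _
    show α a b + _ = 0
    rw [hsum a b (hfar a (disjoint_left.1 hd₀ ha)), add_zero]
    exact if_neg fun h => h.elim (fun h => h.2 (hA₀U hb)) fun h => h.2 (hA₀U ha)
  · intro a ha b hb _
    show α a b + _ = 0
    rw [hsum a b (hfar a (disjoint_left.1 hd₀' ha)), add_zero]
    exact if_neg fun h => h.elim (fun h => hA₀U' ha (hAU h.1)) fun h => hA₀U' hb (hAU h.1)
  · intro a ha b hb hab
    show α a b + _ = 0 ↔ _
    rw [hsum a b fun ⟨t, ht, hd⟩ => disjoint_left.1 hKT ⟨a, ha, by rwa [d_comm]⟩ ht, add_zero]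
    have h1 : a ∈ U → b ∉ U → a ∈ A := fun h1 h2 =>
      hKA ⟨⟨C.subset_N _ _ ha, h1⟩, b, hab, fun e => h2 (e.1 h1)⟩
    have h2 : b ∈ U → a ∉ U → b ∈ A := fun h1 h2 =>
      hKA ⟨⟨C.subset_N _ _ hb, h1⟩, a, by rwa [d_comm], fun e => h2 (e.1 h1)⟩
    have h3 := @hAU a
    have h4 := @hAU b
    simp only [α, ite_eq_right_iff, one_ne_zero, imp_false]
    tauto

end Cay

end Crest.Agent.R224
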