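import Crest.Agent.R224.Cell

/-! R224, task Far: far translates of skeletons can be made disjoint.

`coef`: split `a = a₁ + a₂`, `a' = a₁' + a₂'` with `a₁, a₁'` finitely supported and `a₂, a₂'` of small norm
(Cauchy–Schwarz); `∑ a₁ x * a₁' (g * x) = 0` for all but finitely many `g`.
`exists_level` (Markov): otherwise the function in `lint_Lw` exceeds `2η / (b - a)` almost everywhere on `(a, b)`.
`far`: `r₀, r₀'` from `skel`; `α = ∑ i, om 1 f ((g i)⁻¹ * ·) + 1_{B r₀}`, `α' = ∑ j, om 1 f ((g' j)⁻¹ * ·) + 1_{B r₀'}`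
are square summable.  Let `∑ α x * α' (γ x) ≤ η` (`coef`, `tendsto_len`).  Choose `t i` by `exists_level` for the
function `x ↦ α' (γ * g i * x)`; then `∑_{x ∈ T} α' (γ x) ≤ η' := η + ∑ i, 2η / (b i - a i)` (`mem_Lw`).  Take `η` with
`η' < 1` and `η' < b' j - a' j`.  No `x ∈ T` has `γ x ∈ B r₀'`, and the set of `t` with `γ x ∈ g' j • Lw 1 f t` for some
`x ∈ T` has measure `≤ η'` (`vol_Lw`, `measure_biUnion_le`), so there is a level `t' j` outside it and outside
`range f`. -/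

set_option autoImplicit false
set_option linter.unusedSectionVars false

namespace Crest.Agent.R224

open Set Filter Topology Pointwise MeasureTheory

namespace Cay

variable {Γ : Type} [Group Γ] {C : Cay Γ} {r : ℕ} {f : Γ → ℝ} {x₀ y₀ : Γ}

variable {ρ : Γ → Γ → ℝ} {ε ε' : ℝ}

theorem far_amgm {u v M : ℝ} (hM : 0 < M) : |u| * |v| ≤ M * u ^ 2 + v ^ 2 / M := by
  rw [← sq_abs u, ← sq_abs v]
  have h1 : M * (|u| * |v|) ≤ M * (M * |u| ^ 2 + |v| ^ 2 / M) := by
    have e : M * (M * |u| ^ 2 + |v| ^ 2 / M) = (M * |u|) ^ 2 + |v| ^ 2 := by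
      field_simp
    rw [e]
    nlinarith [sq_nonneg (M * |u| - |v|), mul_nonneg (mul_nonneg hM.le (abs_nonneg u)) (abs_nonneg v)]
  exact le_of_mul_le_mul_left h1 hM

theorem far_shift {a : Γ → ℝ} (ha : Summable a) (g : Γ) : Summable fun x => a (g * x) :=
  (Equiv.mulLeft g).summable_iff.2 ha

theorem far_summable {a a' : Γ → ℝ} (ha : Summable fun x => a x ^ 2)
    (ha' : Summable fun x => a' x ^ 2) (g : Γ) : Summable fun x => |a x| * |a' (g * x)| := by
  refine Summable.of_nonneg_of_le (fun x => by positivity) (fun x => ?_)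
    (ha.add (far_shift ha' g))
  have := far_amgm (u := a x) (v := a' (g * x)) one_pos
  simpa using this

theorem far_tail {a : Γ → ℝ} {δ : ℝ} (hδ : 0 < δ) :
    ∃ F : Finset Γ, ∑' x, ((F : Set Γ)ᶜ).indicator a x < δ := by
  obtain ⟨F, hF⟩ := ((tendsto_tsum_compl_atTop_zero a).eventually (gt_mem_nhds hδ)).exists
  refine ⟨F, ?_⟩
  rw [← tsum_subtype]
  exact hF

theorem coef {a a' : Γ → ℝ} (ha : Summable fun x => a x ^ 2) (ha' : Summable fun x => a' x ^ 2) :
    Tendsto (fun g => ∑' x, |a x| * |a' (g * x)|) cofinite (𝓝 0) := by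
  classical
  refine tendsto_order.2 ⟨fun c hc => Eventually.of_forall fun g =>
    hc.trans_le (tsum_nonneg fun x => by positivity), fun c hc => ?_⟩
  obtain ⟨A, hA⟩ : ∃ A, A = ∑' x, a x ^ 2 + ∑' x, a' x ^ 2 := ⟨_, rfl⟩
  have hA0 : 0 ≤ A := by
    rw [hA]
    exact add_nonneg (tsum_nonneg fun x => by positivity) (tsum_nonneg fun x => by positivity)
  obtain ⟨M, hM⟩ : ∃ M, M = 2 * (A + 1) / c := ⟨_, rfl⟩
  have hM0 : 0 < M := by rw [hM]; positivity
  have hM1 : A / M < c / 2 := by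
    rw [div_lt_iff₀ hM0, hM]
    have : c / 2 * (2 * (A + 1) / c) = A + 1 := by field_simp
    rw [this]; linarith
  have hδ : 0 < c / (4 * M) := by positivity
  obtain ⟨F, hF⟩ := far_tail (a := fun x => a x ^ 2) hδ
  obtain ⟨F', hF'⟩ := far_tail (a := fun x => a' x ^ 2) hδ
  have hfin : ((F' : Set Γ) * (F : Set Γ)⁻¹).Finite := F'.finite_toSet.mul F.finite_toSet.inv
  filter_upwards [hfin.compl_mem_cofinite] with g hg
  have s1 : Summable (((F : Set Γ)ᶜ).indicator fun x => a x ^ 2) := ha.indicator _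
  have s2 : Summable (((F' : Set Γ)ᶜ).indicator fun x => a' x ^ 2) := ha'.indicator _
  have key : ∀ x, |a x| * |a' (g * x)| ≤
      M * (((F : Set Γ)ᶜ).indicator (fun x => a x ^ 2) x +
        ((F' : Set Γ)ᶜ).indicator (fun x => a' x ^ 2) (g * x)) + (a x ^ 2 + a' (g * x) ^ 2) / M := by
    intro x
    have n1 : 0 ≤ ((F : Set Γ)ᶜ).indicator (fun x => a x ^ 2) x :=
      indicator_nonneg (fun _ _ => by positivity) _
    have n2 : 0 ≤ ((F' : Set Γ)ᶜ).indicator (fun x => a' x ^ 2) (g * x) :=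
      indicator_nonneg (fun _ _ => by positivity) _
    have n3 : 0 ≤ a x ^ 2 / M := by positivity
    have n4 : 0 ≤ a' (g * x) ^ 2 / M := by positivity
    rw [mul_add, add_div]
    by_cases hx : x ∈ (F : Set Γ)
    · have hx' : g * x ∈ ((F' : Set Γ)ᶜ) := fun hc =>
        hg ⟨g * x, hc, x⁻¹, by simpa using hx, by simp⟩
      rw [indicator_of_mem hx']
      have := far_amgm (u := a' (g * x)) (v := a x) hM0
      have := mul_nonneg hM0.le n1
      linarith
    · rw [indicator_of_mem (show x ∈ ((F : Set Γ)ᶜ) from hx)]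
      have := far_amgm (u := a x) (v := a' (g * x)) hM0
      have := mul_nonneg hM0.le n2
      linarith
  have hs : HasSum (fun x => M * (((F : Set Γ)ᶜ).indicator (fun x => a x ^ 2) x +
        ((F' : Set Γ)ᶜ).indicator (fun x => a' x ^ 2) (g * x)) + (a x ^ 2 + a' (g * x) ^ 2) / M)
      (M * (∑' x, ((F : Set Γ)ᶜ).indicator (fun x => a x ^ 2) x +
        ∑' x, ((F' : Set Γ)ᶜ).indicator (fun x => a' x ^ 2) x) + A / M) := by
    rw [hA]
    exact ((s1.hasSum.add ((Equiv.mulLeft g).hasSum_iff.2 s2.hasSum)).mul_left M).add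
      ((ha.hasSum.add ((Equiv.mulLeft g).hasSum_iff.2 ha'.hasSum)).div_const M)
  refine (hasSum_le key (far_summable ha ha' g).hasSum hs).trans_lt ?_
  have h3 : M * (∑' x, ((F : Set Γ)ᶜ).indicator (fun x => a x ^ 2) x +
        ∑' x, ((F' : Set Γ)ᶜ).indicator (fun x => a' x ^ 2) x) ≤ M * (c / (4 * M) + c / (4 * M)) :=
    mul_le_mul_of_nonneg_left (add_le_add hF.le hF'.le) hM0.le
  have h4 : M * (c / (4 * M) + c / (4 * M)) = c / 2 := by field_simp; norm_num
  linarith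

theorem exists_level (C : Cay Γ) (f : Γ → ℝ) (α : Γ → ℝ) {a b η : ℝ} (hab : a < b) (hη : 0 < η)
    (h : ∑' x, ENNReal.ofReal (C.om 1 f x) * ENNReal.ofReal (α x) ≤ ENNReal.ofReal η) :
    ∃ t ∈ Ioo a b, t ∉ range f ∧
      ∑' x, (C.Lw 1 f t).indicator (fun x => ENNReal.ofReal (α x)) x ≤
        ENNReal.ofReal (2 * η / (b - a)) := by
  by_contra hc
  push Not at hc
  have := C.countable
  have h0 : ∀ᵐ t : ℝ, t ∉ range f := (countable_range f).ae_notMem _
  have h1 : ∫⁻ t, (Ioo a b).indicator (fun _ => ENNReal.ofReal (2 * η / (b - a))) t ≤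
      ∫⁻ t, ∑' x, (C.Lw 1 f t).indicator (fun x => ENNReal.ofReal (α x)) x := by
    refine lintegral_mono_ae ?_
    filter_upwards [h0] with t ht
    by_cases hm : t ∈ Ioo a b
    · rw [indicator_of_mem hm]
      exact (hc t hm ht).le
    · rw [indicator_of_notMem hm]
      exact zero_le
  have hba : 0 < b - a := sub_pos.2 hab
  rw [lintegral_indicator_const measurableSet_Ioo, Real.volume_Ioo,
    ← ENNReal.ofReal_mul (by positivity), div_mul_cancel₀ _ hba.ne'] at h1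
  have h2 := (h1.trans (lint_Lw α)).trans h
  rw [ENNReal.ofReal_le_ofReal_iff hη.le] at h2
  linarith

theorem far_sq_add {u v : Γ → ℝ} (hu : Summable fun x => u x ^ 2) (hv : Summable fun x => v x ^ 2) :
    Summable fun x => (u x + v x) ^ 2 := by
  refine Summable.of_nonneg_of_le (fun x => by positivity) (fun x => ?_)
    ((hu.add hv).mul_left 2)
  nlinarith [sq_nonneg (u x - v x)]

theorem far_sq_sum {ι : Type} (s : Finset ι) {u : ι → Γ → ℝ}
    (hu : ∀ i, Summable fun x => u i x ^ 2) : Summable fun x => (∑ i ∈ s, u i x) ^ 2 := by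
  classical
  induction s using Finset.induction_on with
  | empty => simp
  | insert i s hi ih =>
    simp only [Finset.sum_insert hi]
    exact far_sq_add (hu i) ih

theorem far_sq_ind {B : Set Γ} (hB : B.Finite) :
    Summable fun x => (B.indicator (fun _ => (1 : ℝ)) x) ^ 2 := by
  refine summable_of_hasFiniteSupport (hB.subset fun x hx => ?_)
  by_contra hc
  exact hx (by simp [indicator_of_notMem hc])

theorem coef_enn {a a' : Γ → ℝ} (h0 : ∀ x, 0 ≤ a x) (h0' : ∀ x, 0 ≤ a' x)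
    (ha : Summable fun x => a x ^ 2) (ha' : Summable fun x => a' x ^ 2) {η : ℝ} (hη : 0 < η) :
    ∀ᶠ g in cofinite, ∑' x, ENNReal.ofReal (a x) * ENNReal.ofReal (a' (g * x)) ≤
      ENNReal.ofReal η := by
  filter_upwards [(coef ha ha').eventually (ge_mem_nhds hη)] with g hg
  refine le_trans (le_of_eq ?_) (ENNReal.ofReal_le_ofReal hg)
  rw [ENNReal.ofReal_tsum_of_nonneg (fun x => by positivity) (far_summable ha ha' g)]
  refine tsum_congr fun x => ?_
  rw [abs_of_nonneg (h0 _), abs_of_nonneg (h0' _), ENNReal.ofReal_mul (h0 _)]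

theorem W_Up_subset {t : ℝ} (ht : t ∉ range f) (g : Γ) : C.W (Up f g t) ⊆ g • C.Lw 1 f t := by
  rintro x ⟨y, hy, h⟩
  exact mem_Lw ht (by simp [d_self]) hy h

theorem far (hy : C.Hyp r) (hp : C.Pot f x₀ y₀) (hρ : IsRho ρ) (hε : 0 ≤ ε) (hε' : 0 ≤ ε')
    (S : Sys ρ f ε) (S' : Sys ρ f ε') : ∃ R, ∀ γ, R ≤ C.len γ → ∃ T T', C.Skel (C.md ρ) ε T ∧
      C.Skel (C.md ρ) ε' T' ∧ ∀ x ∈ T, γ * x ∉ T' := by
  classical
  have := C.countable
  obtain ⟨r₀, hr₀⟩ := skel hy hp hρ hε S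
  obtain ⟨r₁, hr₁⟩ := skel hy hp hρ hε' S'
  obtain ⟨α, hα⟩ : ∃ α : Γ → ℝ, α = fun x => ∑ j, C.om 1 f ((S'.g j)⁻¹ * x) +
      {g | C.len g ≤ r₁}.indicator (fun _ => (1 : ℝ)) x := ⟨_, rfl⟩
  have hi0 : ∀ (B : Set Γ) x, 0 ≤ B.indicator (fun _ => (1 : ℝ)) x := fun B x =>
    indicator_nonneg (fun _ _ => zero_le_one) _
  have hα0 : ∀ x, 0 ≤ α x := fun x => by
    rw [hα]; exact add_nonneg (Finset.sum_nonneg fun j _ => om_nonneg _) (hi0 _ _)
  have hα1 : ∀ j x, C.om 1 f ((S'.g j)⁻¹ * x) ≤ α x := fun j x => by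
    rw [hα]
    exact (Finset.single_le_sum (f := fun j => C.om 1 f ((S'.g j)⁻¹ * x))
      (fun j _ => om_nonneg _) (Finset.mem_univ j)).trans (le_add_of_nonneg_right (hi0 _ _))
  have hα2 : ∀ x, C.len x ≤ r₁ → 1 ≤ α x := fun x hx => by
    rw [hα]
    simp only
    rw [indicator_of_mem (show x ∈ {g | C.len g ≤ r₁} from hx)]
    exact le_add_of_nonneg_left (Finset.sum_nonneg fun j _ => om_nonneg _)
  have hα3 : Summable fun x => α x ^ 2 := by
    rw [hα]
    exact far_sq_add (far_sq_sum _ fun j => far_shift (om_sq hp.finE 1) _) (far_sq_ind (C.fin r₁))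
  obtain ⟨c, hc⟩ : ∃ c : ℝ, c = 1 + ∑ i, 2 / (S.b i - S.a i) := ⟨_, rfl⟩
  obtain ⟨η, hη, hη1, hη2⟩ : ∃ η : ℝ, 0 < η ∧ c * η < 1 ∧ ∀ j, c * η < S'.b j - S'.a j := by
    have t0 : Tendsto (fun η : ℝ => c * η) (𝓝[>] 0) (𝓝 0) := by
      have : Tendsto (fun η : ℝ => c * η) (𝓝 0) (𝓝 (c * 0)) := tendsto_id.const_mul c
      rw [mul_zero] at this
      exact this.mono_left nhdsWithin_le_nhds
    have e1 : ∀ᶠ η : ℝ in 𝓝[>] 0, 0 < η := self_mem_nhdsWithin
    have e2 := t0.eventually (gt_mem_nhds one_pos)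
    have e3 : ∀ᶠ η : ℝ in 𝓝[>] 0, ∀ j, c * η < S'.b j - S'.a j :=
      eventually_all.2 fun j => t0.eventually (gt_mem_nhds (sub_pos.2 (S'.lt j)))
    exact (e1.and (e2.and e3)).exists
  have ev1 := coef_enn (hi0 {g | C.len g ≤ r₀}) hα0 (far_sq_ind (C.fin r₀)) hα3 hη
  have ev2 : ∀ᶠ γ in cofinite, ∀ i, ∑' x, ENNReal.ofReal (C.om 1 f x) *
      ENNReal.ofReal (α (γ * S.g i * x)) ≤ ENNReal.ofReal η :=
    eventually_all.2 fun i => (mul_left_injective (S.g i)).tendsto_cofinite.eventually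
      (coef_enn (fun x => om_nonneg x) hα0 (om_sq hp.finE 1) hα3 hη)
  obtain ⟨R, hR⟩ := ((eventually_cofinite.1 (ev1.and ev2)).image C.len).bddAbove
  refine ⟨R + 1, fun γ hγ => ?_⟩
  obtain ⟨h1, h2⟩ : (∑' x, ENNReal.ofReal ({g | C.len g ≤ r₀}.indicator (fun _ => (1 : ℝ)) x) *
      ENNReal.ofReal (α (γ * x)) ≤ ENNReal.ofReal η) ∧ ∀ i, ∑' x, ENNReal.ofReal (C.om 1 f x) *
      ENNReal.ofReal (α (γ * S.g i * x)) ≤ ENNReal.ofReal η := by
    by_contra hn
    have := hR (mem_image_of_mem C.len (show γ ∈ {γ | ¬_} from hn))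
    omega
  choose t ht ht' htl using fun i => exists_level C f (fun x => α (γ * S.g i * x)) (S.lt i) hη (h2 i)
  obtain ⟨T, hT⟩ : ∃ T, T = {g | C.len g ≤ r₀} ∪ ⋃ i, C.W (Up f (S.g i) (t i)) := ⟨_, rfl⟩
  have hΦ : ∑' x, T.indicator (fun x => ENNReal.ofReal (α (γ * x))) x ≤
      ENNReal.ofReal (c * η) := by
    have p1 : ∀ x, T.indicator (fun x => ENNReal.ofReal (α (γ * x))) x ≤
        ENNReal.ofReal ({g | C.len g ≤ r₀}.indicator (fun _ => (1 : ℝ)) x) *
          ENNReal.ofReal (α (γ * x)) +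
        ∑ i, (C.Lw 1 f (t i)).indicator (fun x => ENNReal.ofReal (α (γ * S.g i * x)))
          ((S.g i)⁻¹ * x) := by
      intro x
      by_cases hx : x ∈ T
      · rw [indicator_of_mem hx]
        rw [hT] at hx
        rcases hx with hx | hx
        · rw [indicator_of_mem hx]
          simp
        · obtain ⟨i, hi⟩ := mem_iUnion.1 hx
          have hi' := W_Up_subset (ht' i) _ hi
          rw [mem_smul_set_iff_inv_smul_mem, smul_eq_mul] at hi'
          refine le_trans ?_ le_add_self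
          refine le_trans ?_ (Finset.single_le_sum (f := fun i => (C.Lw 1 f (t i)).indicator
            (fun x => ENNReal.ofReal (α (γ * S.g i * x))) ((S.g i)⁻¹ * x))
            (fun _ _ => zero_le) (Finset.mem_univ i))
          rw [indicator_of_mem hi']
          simp [mul_assoc]
      · rw [indicator_of_notMem hx]
        exact zero_le
    refine (ENNReal.tsum_le_tsum p1).trans ?_
    rw [ENNReal.tsum_add, Summable.tsum_finsetSum fun _ _ => ENNReal.summable]
    have p2 : ∀ i, ∑' x, (C.Lw 1 f (t i)).indicator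
        (fun x => ENNReal.ofReal (α (γ * S.g i * x))) ((S.g i)⁻¹ * x) ≤
        ENNReal.ofReal (2 * η / (S.b i - S.a i)) := fun i =>
      le_trans (le_of_eq ((Equiv.mulLeft (S.g i)⁻¹).tsum_eq _)) (htl i)
    refine (add_le_add h1 (Finset.sum_le_sum fun i _ => p2 i)).trans (le_of_eq ?_)
    have p3 : ∀ i, 0 ≤ 2 * η / (S.b i - S.a i) := fun i =>
      div_nonneg (by positivity) (sub_pos.2 (S.lt i)).le
    rw [← ENNReal.ofReal_sum_of_nonneg fun i _ => p3 i,
      ← ENNReal.ofReal_add hη.le (Finset.sum_nonneg fun i _ => p3 i), hc, add_mul, one_mul,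
      Finset.sum_mul]
    congr 2
    exact Finset.sum_congr rfl fun i _ => by ring
  have hex : ∀ j, ∃ s ∈ Ioo (S'.a j) (S'.b j), s ∉ range f ∧
      ∀ x ∈ T, (S'.g j)⁻¹ * (γ * x) ∉ C.Lw 1 f s := by
    intro j
    by_contra hn
    push Not at hn
    have q1 : Ioo (S'.a j) (S'.b j) ⊆ range f ∪
        ⋃ x, {s | x ∈ T ∧ (S'.g j)⁻¹ * (γ * x) ∈ C.Lw 1 f s} := by
      intro s hs
      by_cases hs' : s ∈ range f
      · exact Or.inl hs'
      · obtain ⟨x, hx, hx'⟩ := hn s hs hs'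
        exact Or.inr (mem_iUnion.2 ⟨x, hx, hx'⟩)
    have q2 := (measure_mono (μ := volume) q1).trans (measure_union_le _ _)
    rw [(countable_range f).measure_zero, zero_add, Real.volume_Ioo] at q2
    have q3 : ∀ x, volume {s | x ∈ T ∧ (S'.g j)⁻¹ * (γ * x) ∈ C.Lw 1 f s} ≤
        T.indicator (fun x => ENNReal.ofReal (α (γ * x))) x := by
      intro x
      by_cases hx : x ∈ T
      · rw [indicator_of_mem hx]
        simp only [hx, true_and]
        exact (vol_Lw _).trans (ENNReal.ofReal_le_ofReal (hα1 j _))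
      · simp [hx]
    have q4 := q2.trans ((measure_iUnion_le _).trans ((ENNReal.tsum_le_tsum q3).trans hΦ))
    exact absurd q4 (not_le.2 ((ENNReal.ofReal_lt_ofReal_iff (sub_pos.2 (S'.lt j))).2 (hη2 j)))
  choose s hs hs' hsl using hex
  refine ⟨T, _, hT ▸ hr₀ t ht ht', hr₁ s hs hs', fun x hx hx' => ?_⟩
  rcases hx' with hx' | hx'
  · have q1 : T.indicator (fun x => ENNReal.ofReal (α (γ * x))) x ≤ ENNReal.ofReal (c * η) :=
      (ENNReal.le_tsum x).trans hΦ
    rw [indicator_of_mem hx] at q1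
    have q2 := (ENNReal.ofReal_le_ofReal (hα2 _ hx')).trans q1
    exact absurd q2 (not_le.2 ((ENNReal.ofReal_lt_ofReal_iff one_pos).2 hη1))
  · obtain ⟨j, hj⟩ := mem_iUnion.1 hx'
    have hj' := W_Up_subset (hs' j) _ hj
    rw [mem_smul_set_iff_inv_smul_mem, smul_eq_mul] at hj'
    exact hsl j x hx hj' 

end Cay

end Crest.Agent.R224
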