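import Crest.Agent.R224.Bas

/-! R224, task Gen: word lengths from generating sets; change of scale; comparison of energies.

`exists_cay`: `len g` = least length of a list of elements of `S ∪ S⁻¹` with product `g` (`Nat.find`;
`Subgroup.closure_induction` or `Subgroup.mem_closure_iff_exists_list`-type lemmas); balls are finite by induction.
`rescale`: `len' g = (len g + r - 1) / r`, so `len' g ≤ n ↔ len g ≤ n * r`; `geo`: the point at distance `n * r` on a
geodesic (iterate `C.geo`).  `H1`: a cocycle at scale `r` is `δφ` on edges, and on pairs with `d x y = k ≤ r` by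
induction on `k` (`geo_d`; the triple `x, z, y` has diameter `≤ r`; `c x x = 0` from the triple `x, x, x`).
`finE_of`: the set of `s` with `∑ x, (f (x * s) - f x) ^ 2 < ∞` is a subgroup that contains `S`
(`Subgroup.closure_induction`); a sum over `Γ × T` with `T` finite (`summable_prod_of_nonneg` after `Prod.swap`, or
`summable_sum` of the fibres).  `hasSum_le`: the inclusion `Γ × S → Γ × C.T` is injective. -/

set_option autoImplicit false
set_option linter.unusedSectionVars false

namespace Crest.Agent.R224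

open Set Filter Topology Pointwise MeasureTheory

namespace Cay

variable {Γ : Type} [Group Γ] {C : Cay Γ} {r : ℕ} {f : Γ → ℝ} {x₀ y₀ : Γ}

/-- the word length of a finite symmetric generating set that contains `1` -/
theorem gen_exists {A : Set Γ} (hA : A.Finite) (h1 : 1 ∈ A) (hi : A⁻¹ = A) (hg : Subgroup.closure A = ⊤) :
    ∃ C : Cay Γ, ∀ g, C.len g ≤ 1 ↔ g ∈ A := by
  classical
  have hinv : ∀ (n : ℕ) (g : Γ), g⁻¹ ∈ A ^ n ↔ g ∈ A ^ n := fun n g => by
    rw [← Set.mem_inv, ← inv_pow, hi]
  have hmul : ∀ {m n : ℕ} {g h : Γ}, g ∈ A ^ m → h ∈ A ^ n → g * h ∈ A ^ (m + n) := fun hg hh => by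
    rw [pow_add]
    exact mul_mem_mul hg hh
  have hex : ∀ g, ∃ n : ℕ, g ∈ A ^ n := fun g => by
    have hs : g ∈ Subgroup.closure A := hg ▸ Subgroup.mem_top g
    induction hs using Subgroup.closure_induction with
    | mem s hs => exact ⟨1, by rwa [pow_one]⟩
    | one => exact ⟨0, by simp⟩
    | mul a b _ _ ha hb => exact ⟨_, hmul ha.choose_spec hb.choose_spec⟩
    | inv a _ ha => exact ⟨_, (hinv _ _).2 ha.choose_spec⟩
  have hle : ∀ g n, Nat.find (hex g) ≤ n ↔ g ∈ A ^ n := fun g n =>
    ⟨fun h => Set.pow_subset_pow_right h1 h (Nat.find_spec (hex g)), fun h => Nat.find_le h⟩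
  have hadd : ∀ g h, Nat.find (hex (g * h)) ≤ Nat.find (hex g) + Nat.find (hex h) := fun g h =>
    (hle _ _).2 (hmul (Nat.find_spec (hex g)) (Nat.find_spec (hex h)))
  refine ⟨⟨fun g => Nat.find (hex g), fun g => ?_, fun g => ?_, hadd, fun n => ?_, fun g n h => ?_⟩,
    fun g => (hle g 1).trans (by rw [pow_one])⟩
  · rw [← Nat.le_zero, hle, pow_zero, Set.mem_one]
  · exact eq_of_forall_ge_iff fun n => by rw [hle, hle, hinv]
  · simp only [hle, ofPred_mem_eq]
    induction n with
    | zero => exact Set.finite_one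
    | succ n ih => exact pow_succ A n ▸ ih.mul hA
  · have h2 := (hle g _).1 h.le
    rw [pow_succ] at h2
    obtain ⟨k, hk, a, ha, rfl⟩ := h2
    have h3 := (hle a 1).2 (by rwa [pow_one])
    have h4 := hadd k a
    have h5 := (hle k n).2 hk
    refine ⟨k, by omega, ?_⟩
    simpa only [inv_mul_cancel_left] using h3

theorem gen_sum {T : Finset Γ} (h : ∀ s ∈ T, Summable fun x => (f (x * s) - f x) ^ 2) :
    Summable fun p : Γ × T => (f (p.1 * (p.2 : Γ)) - f p.1) ^ 2 :=
  (Equiv.prodComm T Γ).summable_iff.1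
    ((summable_prod_of_nonneg fun _ => sq_nonneg _).2 ⟨fun s => h s s.2, Summable.of_finite⟩)

theorem exists_cay (S : Finset Γ) (hS : Subgroup.closure (S : Set Γ) = ⊤) :
    ∃ C : Cay Γ, ∀ s ∈ S, C.len s ≤ 1 := by
  obtain ⟨C, hC⟩ := gen_exists (A := insert 1 ((S : Set Γ) ∪ (S : Set Γ)⁻¹))
    ((S.finite_toSet.union S.finite_toSet.inv).insert 1) (mem_insert _ _)
    (by rw [inv_insert, inv_one, union_inv, inv_inv, union_comm])
    (top_le_iff.1 (hS.ge.trans (Subgroup.closure_mono (subset_union_left.trans (subset_insert _ _)))))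
  exact ⟨C, fun s hs => (hC s).2 (Or.inr (Or.inl hs))⟩

theorem rescale (hr : 1 ≤ r) (h : C.H1 r) :
    ∃ C' : Cay Γ, (∀ g, C.len g ≤ 1 → C'.len g ≤ 1) ∧ C'.H1 1 := by
  have hg : ∀ n g, C.len g = n → g ∈ Subgroup.closure {g | C.len g ≤ r} := fun n => by
    induction n with
    | zero => exact fun g hg => Subgroup.subset_closure (hg.le.trans (Nat.zero_le r))
    | succ n ih =>
      intro g hg
      obtain ⟨k, h1, h2⟩ := C.geo g n hg
      simpa using mul_mem (ih k h1) (Subgroup.subset_closure (h2.trans hr))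
  obtain ⟨C', hC⟩ := gen_exists (C.fin r) (C.len_one.le.trans (Nat.zero_le r))
    (Set.ext fun g => by simp only [Set.mem_inv, mem_ofPred_eq, C.len_inv])
    ((Subgroup.eq_top_iff' _).2 fun g => hg _ g rfl)
  refine ⟨C', fun g hg => (hC g).2 (hg.trans hr), fun c hc => ?_⟩
  have hc' : C.Coc1 r c := fun x y z h1 h2 h3 => hc x y z ((hC _).2 h1) ((hC _).2 h2) ((hC _).2 h3)
  obtain ⟨φ, hφ⟩ := h c hc'
  have key : ∀ n, n ≤ r → ∀ x y, C.d x y = n → c x y = φ x + φ y := fun n => by
    induction n with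
    | zero => exact fun _ x y hd => hφ x y (hd.le.trans zero_le_one)
    | succ n ih =>
      intro hn x y hd
      obtain ⟨z, h1, h2⟩ := C.geo_d hd
      have h3 : (2 : ZMod 2) = 0 := rfl
      linear_combination hc' x z y (by omega) (h2.trans hr) (by omega) - hφ z y h2 - ih (by omega) x z h1 -
        (φ x + φ y + φ z) * h3
  exact ⟨φ, fun x y hd => key _ ((hC _).1 hd) x y rfl⟩

theorem finE_of (C : Cay Γ) {S : Finset Γ} (hS : Subgroup.closure (S : Set Γ) = ⊤)
    (hf : Summable fun p : Γ × S => (f (p.1 * (p.2 : Γ)) - f p.1) ^ 2) : C.FinE f := by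
  suffices h : ∀ s ∈ Subgroup.closure (S : Set Γ), Summable fun x => (f (x * s) - f x) ^ 2 from
    gen_sum fun s _ => h s (hS ▸ Subgroup.mem_top s)
  intro s hs
  induction hs using Subgroup.closure_induction with
  | mem s hs => exact (hf.comp_injective (Prod.mk_left_injective (⟨s, hs⟩ : S))).congr fun _ => rfl
  | one => simp
  | mul a b _ _ ha hb =>
    refine Summable.of_nonneg_of_le (fun x => sq_nonneg _) (fun x => ?_)
      ((((Equiv.mulRight a).summable_iff.2 hb).add ha).mul_left 2)
    simp only [Function.comp_apply, Equiv.coe_mulRight, mul_assoc x]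
    nlinarith [sq_nonneg (f (x * (a * b)) - f (x * a) - (f (x * a) - f x))]
  | inv a _ ha =>
    refine ((Equiv.mulRight a⁻¹).summable_iff.2 ha).congr fun x => ?_
    simp only [Function.comp_apply, Equiv.coe_mulRight, inv_mul_cancel_right]
    ring

theorem FinE.sub_fin (hf : C.FinE f) {u : Γ → ℝ} (hu : (Function.support u).Finite) :
    C.FinE (f - u) := by
  have h : C.FinE u := gen_sum fun s _ => summable_of_hasFiniteSupport
    ((hu.union (hu.preimage (mul_left_injective s).injOn)).subset fun x hx => by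
      by_contra h
      simp only [mem_union, mem_preimage, Function.mem_support, not_or, not_not] at h
      simp [h.1, h.2] at hx)
  refine Summable.of_nonneg_of_le (fun x => sq_nonneg _) (fun x => ?_) ((hf.add h).mul_left 2)
  simp only [Pi.sub_apply]
  nlinarith [sq_nonneg (f (x.1 * x.2) - f x.1 + (u (x.1 * x.2) - u x.1))]

theorem hasSum_le {S : Finset Γ} (hS : ∀ s ∈ S, C.len s ≤ 1) (hf : C.FinE f) :
    ∃ E, HasSum (fun p : Γ × S => (f (p.1 * (p.2 : Γ)) - f p.1) ^ 2) E ∧ E ≤ C.En f := by
  have hi : Function.Injective fun p : Γ × S => ((p.1, ⟨p.2, C.mem_T.2 (hS _ p.2.2)⟩) : Γ × C.T) :=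
    fun p q h => Prod.ext (congrArg (fun t : Γ × C.T => t.1) h)
      (Subtype.ext (congrArg (fun t : Γ × C.T => (t.2 : Γ)) h))
  exact ⟨_, (hf.comp_injective hi).hasSum, tsum_comp_le_tsum_of_inj hf (fun _ => sq_nonneg _) hi⟩

end Cay

end Crest.Agent.R224
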