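import Crest.Agent.R224.Tuk1

/-! R224, task Tuk: loxodromic elements, infinite orbits, parabolic points are not conical.

`lox`: let `δ > 0` be smaller than `dist a c / 3` and than `dist o a`, `dist o c` (`a, c ∈ Bd`).  Eventually
`g i` maps `{z | δ ≤ dist z c}` into `ball a δ` and `(g i)⁻¹` maps `{z | δ ≤ dist z a}` into `ball c δ` (`ucp`).
For such `k = g i`: `k ^ n • o ∈ ball a δ` and `k⁻¹ ^ n • o ∈ ball c δ` for `n ≥ 1`; so `k ^ n ≠ 1`, the powers
are distinct, and both sets have limit points (`Lam_nonempty`), in the disjoint closed balls.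

`orbit_inf`: if the orbit of `a` is finite, `Γ = Stab(a) * F` with `F` finite (choose `f y` with `f y • y = a`;
`x = (x * (f y)⁻¹) * f y` for `y = x⁻¹ • a`), so `Bd = Lam Stab(a)` (`Lam_mul`) has at most two points
(`tukia`), against `perfect`.

`not_conical`: for `p` in the stabiliser `P` of `b` put `c i = g i * p * (g i)⁻¹`.  It fixes `g i • b → y` and maps
`g i • o → t` to `g i • p • o → t`.  If `c i → ∞`, `two_lim` and `lox` give an `i` for which
`Lam (zpowers (c i))` has two points; but it lies in `g i • Lam P ⊆ {g i • b}` (`Lam_smul`, `Lam_mul`).  So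
`c i = c p` eventually (`ultra_dich`); `c p` fixes `y` and `t`, and `p ↦ c p` is injective.  Along a cofinite
ultrafilter on `P`, `two_lim` and `lox` give the same contradiction. -/

set_option autoImplicit false
set_option linter.unusedSectionVars false

namespace Crest.Agent.R224

open Set Filter Topology Pointwise

variable {Γ : Type} [Group Γ] {C : Cay Γ} {Z : Type} [MetricSpace Z] [CompactSpace Z]
  [MulAction Γ Z] [ContinuousConstSMul Γ Z] {o : Z} {r : ℕ} {ξ : Fin 3 → Z}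

namespace Cv

theorem tuk_ev (h : Cv C o) {ι : Type} {l : Filter ι} {g : ι → Γ} {a c : Z}
    (hg : Tendsto g l cofinite) (ha : Tendsto (fun i => g i • o) l (𝓝 a))
    (hc : Tendsto (fun i => (g i)⁻¹ • o) l (𝓝 c)) {δ : ℝ} (hδ : 0 < δ) :
    ∀ᶠ i in l, ∀ z, δ ≤ dist z c → dist (g i • z) a < δ := by
  obtain ⟨R, hR⟩ := h.ucp (δ / 2) (half_pos hδ) (δ / 2) (half_pos hδ)
  filter_upwards [(C.tendsto_len.1 hg).eventually_ge_atTop R,
    Metric.tendsto_nhds.1 ha _ (half_pos hδ), Metric.tendsto_nhds.1 hc _ (half_pos hδ)]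
    with i h1 h2 h3 z hz
  have := hR _ h1 z (by linarith [dist_triangle z ((g i)⁻¹ • o) c])
  linarith [dist_triangle (g i • z) (g i • o) a]

theorem tuk_half (h : Cv C o) {k : Γ} {a c : Z} {δ : ℝ}
    (K1 : ∀ z, δ ≤ dist z c → dist (k • z) a < δ) (d1 : 2 * δ ≤ dist a c) (d2 : δ ≤ dist o a)
    (d3 : δ ≤ dist o c) : ∃ y ∈ Lam o (Subgroup.zpowers k : Set Γ), dist y a ≤ δ := by
  have K2 : ∀ n : ℕ, dist (k ^ (n + 1) • o) a < δ := by
    intro n
    induction n with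
    | zero => simpa using K1 o d3
    | succ n ih =>
      rw [pow_succ', mul_smul]
      exact K1 _ (by linarith [dist_triangle_left a c (k ^ (n + 1) • o)])
  have inj : Function.Injective fun n : ℕ => k ^ n := by
    refine injective_pow_iff_not_isOfFinOrder.2 fun hf => ?_
    obtain ⟨n, hn, e⟩ := isOfFinOrder_iff_pow_eq_one.1 hf
    obtain ⟨n, rfl⟩ := Nat.exists_eq_succ_of_ne_zero hn.ne'
    have := K2 n
    rw [e, one_smul] at this
    linarith
  obtain ⟨y, hy⟩ := h.Lam_nonempty (infinite_range_of_injective (inj.comp Nat.succ_injective))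
  refine ⟨y, Lam_mono ?_ hy, ?_⟩
  · rintro _ ⟨n, rfl⟩
    exact Subgroup.npow_mem_zpowers k _
  · refine closure_minimal (t := Metric.closedBall a δ) ?_ Metric.isClosed_closedBall hy.2
    rintro _ ⟨_, ⟨n, rfl⟩, rfl⟩
    exact (K2 n).le

theorem lox (h : Cv C o) {ι : Type} {l : Filter ι} [l.NeBot] {g : ι → Γ} {a c : Z}
    (hg : Tendsto g l cofinite) (ha : Tendsto (fun i => g i • o) l (𝓝 a))
    (hc : Tendsto (fun i => (g i)⁻¹ • o) l (𝓝 c)) (hne : a ≠ c) :
    ∀ᶠ i in l, (Lam o (Subgroup.zpowers (g i) : Set Γ)).Nontrivial := by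
  have p1 : 0 < dist a c := dist_pos.2 hne
  have p2 : 0 < dist o a := dist_pos.2 (by simpa using h.lim_mem hg ha 1)
  have p3 : 0 < dist o c := dist_pos.2 (by simpa using h.lim_mem (tuk_inv hg) hc 1)
  obtain ⟨δ, hδ, d1, d2, d3⟩ : ∃ δ > 0, 3 * δ ≤ dist a c ∧ δ ≤ dist o a ∧ δ ≤ dist o c :=
    ⟨min (dist a c / 3) (min (dist o a) (dist o c)), by positivity,
      by linarith [min_le_left (dist a c / 3) (min (dist o a) (dist o c))],
      (min_le_right _ _).trans (min_le_left _ _), (min_le_right _ _).trans (min_le_right _ _)⟩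
  filter_upwards [h.tuk_ev hg ha hc hδ,
    h.tuk_ev (tuk_inv hg) hc (by simpa only [inv_inv] using ha) hδ] with i h1 h2
  obtain ⟨y, y1, y2⟩ := h.tuk_half h1 (by linarith) d2 d3
  obtain ⟨y', y3, y4⟩ := h.tuk_half h2 (by rw [dist_comm]; linarith) d3 d2
  rw [Subgroup.zpowers_inv] at y3
  refine ⟨y, y1, y', y3, fun e => ?_⟩
  subst e
  linarith [dist_triangle_left a c y]

theorem orbit_inf (h : Cv C o) (h2 : C.H2) (hn : (Bd Γ o).Nontrivial) (a : Z) (ha : a ∈ Bd Γ o) :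
    (range fun g : Γ => g • a).Infinite := by
  intro hf
  have : ∀ y, ∃ f : Γ, y ∈ (range fun g : Γ => g • a) → f • y = a := fun y => by
    by_cases hy : y ∈ (range fun g : Γ => g • a)
    · obtain ⟨g, rfl⟩ := hy
      exact ⟨g⁻¹, fun _ => inv_smul_smul g a⟩
    · exact ⟨1, fun h => absurd h hy⟩
  choose f hf' using this
  have h1 : Bd Γ o ⊆ Lam o {g : Γ | g • a = a} := by
    rw [← h.Lam_univ]
    refine h.Lam_mul (hf.image f) fun x _ => ⟨x * (f (x⁻¹ • a))⁻¹, ?_, _, ⟨x⁻¹ • a, ⟨_, rfl⟩, rfl⟩,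
      (inv_mul_cancel_right _ _).symm⟩
    show (x * (f (x⁻¹ • a))⁻¹) • a = a
    rw [mul_smul, inv_smul_eq_iff.2 (hf' (x⁻¹ • a) ⟨_, rfl⟩).symm, smul_inv_smul]
  obtain ⟨a₁, h3, h4⟩ := hn.exists_ne a
  obtain ⟨-, -, a', -, -, -, h5⟩ := h.tukia (h1 h3) h4
  exact h.perfect h2 hn ha one_pos ((toFinite {a', a}).subset fun y hy => h5 (h1 hy.1))

theorem tuk_conj (h : Cv C o) {b : Z} (hL : Lam o {g : Γ | g • b = b} ⊆ {b}) {γ k : Γ}
    (hk : k • γ • b = γ • b) : ¬(Lam o (Subgroup.zpowers k : Set Γ)).Nontrivial := by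
  have h1 : Lam o (Subgroup.zpowers k : Set Γ) ⊆ Lam o (γ • {g : Γ | g • b = b}) := by
    refine h.Lam_mul (finite_singleton γ⁻¹) ?_
    rintro _ ⟨m, rfl⟩
    refine ⟨k ^ m * γ, mem_smul_set_iff_inv_smul_mem.2 ?_, _, rfl, (mul_inv_cancel_right _ _).symm⟩
    show (γ⁻¹ * (k ^ m * γ)) • b = b
    rw [mul_smul, mul_smul, tuk_pow hk, inv_smul_smul]
  rw [Lam_smul] at h1
  refine not_nontrivial_iff.2 ((subsingleton_singleton (a := γ • b)).anti (h1.trans ?_))
  rw [← smul_set_singleton]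
  exact smul_set_mono hL

theorem tuk_two (h : Cv C o) {ι : Type} (𝒰 : Ultrafilter ι) {g : ι → Γ} {u v : Z} {u' v' : ι → Z}
    (hg : Tendsto g 𝒰 cofinite) (huv : u ≠ v)
    (hu : Tendsto u' 𝒰 (𝓝 u)) (hu' : Tendsto (fun i => g i • u' i) 𝒰 (𝓝 u))
    (hv : Tendsto v' 𝒰 (𝓝 v)) (hv' : Tendsto (fun i => g i • v' i) 𝒰 (𝓝 v)) :
    ∀ᶠ i in (𝒰 : Filter ι), (Lam o (Subgroup.zpowers (g i) : Set Γ)).Nontrivial := by
  obtain ⟨a, ha⟩ := ultra_lim 𝒰 fun i => g i • o
  obtain ⟨c, hc⟩ := ultra_lim 𝒰 fun i => (g i)⁻¹ • o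
  refine h.lox hg ha hc ?_
  rcases h.two_lim hg ha hc huv hu hu' hv hv' with ⟨rfl, rfl⟩ | ⟨rfl, rfl⟩
  exacts [huv, huv.symm]

theorem not_conical (h : Cv C o) {b : Z} (hP : {g : Γ | g • b = b}.Infinite)
    (hL : Lam o {g : Γ | g • b = b} ⊆ {b}) {ι : Type} (𝒰 : Ultrafilter ι) {g : ι → Γ} {t y : Z}
    (hg : Tendsto g 𝒰 cofinite) (ht : Tendsto (fun i => g i • o) 𝒰 (𝓝 t))
    (hb : Tendsto (fun i => (g i)⁻¹ • o) 𝒰 (𝓝 b)) (hy : Tendsto (fun i => g i • b) 𝒰 (𝓝 y)) :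
    y = t := by
  by_contra hne
  have hbB : b ∈ Bd Γ o := h.lim_mem (tuk_inv hg) hb
  have fx : ∀ p : Γ, p • b = b → ∀ i, (g i * p * (g i)⁻¹) • g i • b = g i • b := fun p hp i => by
    rw [mul_smul, mul_smul, inv_smul_smul, hp]
  have mv : ∀ p : Γ, Tendsto (fun i => (g i * p * (g i)⁻¹) • g i • o) 𝒰 (𝓝 t) := fun p =>
    (h.conv hg ht hb tendsto_const_nhds (hbB p)).congr fun i => by
      rw [mul_smul, mul_smul, inv_smul_smul]
  have key : ∀ p : Γ, ∃ c : Γ, p • b = b → ∀ᶠ i in (𝒰 : Filter ι), g i * p * (g i)⁻¹ = c := by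
    intro p
    by_cases hp : p • b = b
    · rcases ultra_dich 𝒰 fun i => g i * p * (g i)⁻¹ with h1 | ⟨c, h1⟩
      · obtain ⟨i, hi⟩ := (h.tuk_two 𝒰 h1 hne hy (hy.congr fun i => (fx p hp i).symm) ht
          (mv p)).exists
        exact absurd hi (h.tuk_conj hL (fx p hp i))
      · exact ⟨c, fun _ => h1⟩
    · exact ⟨1, fun h => absurd h hp⟩
  choose c hc using key
  have cy : ∀ p : Γ, p • b = b → c p • y = y := fun p hp =>
    tendsto_nhds_unique (hy.const_smul (c p))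
      (hy.congr' ((hc p hp).mono fun i hi => by rw [← hi]; exact (fx p hp i).symm))
  have ct : ∀ p : Γ, p • b = b → c p • t = t := fun p hp =>
    tendsto_nhds_unique (ht.const_smul (c p))
      ((mv p).congr' ((hc p hp).mono fun i hi => by simp only [hi]))
  obtain ⟨𝒱, v1, v2⟩ := ultra_inf hP
  have v3 : ∀ᶠ p in (𝒱 : Filter Γ), p • b = b := v1
  rcases ultra_dich 𝒱 c with h1 | ⟨c₀, h1⟩
  · obtain ⟨p, p1, p2⟩ := ((h.tuk_two 𝒱 h1 hne tendsto_const_nhds
      (tendsto_const_nhds.congr' (v3.mono fun p hp => (cy p hp).symm)) tendsto_const_nhds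
      (tendsto_const_nhds.congr' (v3.mono fun p hp => (ct p hp).symm))).and v3).exists
    obtain ⟨i, hi⟩ := (hc p p2).exists
    rw [← hi] at p1
    exact h.tuk_conj hL (fx p p2 i) p1
  · obtain ⟨p, p1, p2⟩ := (h1.and v3).exists
    obtain ⟨q, ⟨q1, q2⟩, q3⟩ := ((h1.and v3).and (v2 (eventually_cofinite_ne p))).exists
    obtain ⟨i, i1, i2⟩ := ((hc p p2).and (hc q q2)).exists
    rw [p1] at i1
    rw [q1, ← i1] at i2
    exact q3 (mul_left_cancel (mul_right_cancel i2))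

end Cv

end Crest.Agent.R224
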