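import Crest.Agent.R224.A1b
import Crest.Agent.R224.EG2
import Crest.Agent.R224.Tuk

/-! R224, task LF: no increasing sequences; local finiteness of the walls.

`no_seq`: take three distinct points `ξ i` of `Bd` (`perfect`).  `U = St ξ (⋃ H n)` is deep (`deep_St`): a point `y ∈ H 0` is not in `closure (Bd \\ H 2)` (`gap`), which
contains `closure (Bd \\ ⋃ H n)`.  `Bd \\ ⋃ H n` is non-trivial (`perfect`).  Apply `eg` with `φ` of `clusters`:
for finite `K` choose `k ≥ 1` with `N r (K ∪ X) ∩ U ⊆ A = St ξ (H k)` (`St_iUnion`); then `K ∪ X` misses the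
rainbow set.  `Lam A ⊆ closure (H k)` and `Lam Uᶜ ⊆ closure (Bd \\ H (k+2))` are disjoint, so `A ∩ N r Uᶜ` is
finite (`finite_adj`), hence `Rb r A U` and `A ∩ W U` are finite.

`three`: let `S` be a non-trivial clopen set of `Bd \\ {b}`, `K₀ = insert b S` (closed, connected),
`c ∈ Bd \\ K₀`, `y₀ ∈ S`.  Take an ultrafilter with `x • o → c` and let `x⁻¹ • o → a`.  By `orbit_inf` there are
three distinct points `g i • a`; choose `ε` with the sets `g i • closedBall a ε` disjoint; by `ucp` some `x⁻¹`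
maps `K₀` into `closedBall a ε`.  `K i = (g i * x⁻¹) • K₀`, `ξ i = (g i * x⁻¹) • y₀` (`Clo.not_mem_closure`).

`exists_LF`: without cut points take any three points (`perfect`).  Otherwise use `three`.  By equivariance
(`St_smul`, `W_smul`, `IsQ.smul`) it suffices to treat `x = 1`.  If `1 ∈ W (St ξ Q)` there are `g, g'` of length
`≤ 1` with `g ∈ St ξ Q`, `g' ∉ St ξ Q`; `b` lies in at most one of the sets `g • K i`, so `g • K i ⊆ Q` for some
`i` (`IsQ.absorb`), and `g' • K j` is disjoint from `Q` for some `j`.  If there are infinitely many `Q`,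
infinitely many have the same `(g, i, g', j)`; they form a chain (`NF.total`), which contains a strictly
increasing or a strictly decreasing sequence.  Apply `no_seq` to `nf_Q` with `y' = g' • ξ j`, or to
`NF.compl` and the complements with `y' = g • ξ i`. -/

set_option autoImplicit false
set_option linter.unusedSectionVars false

namespace Crest.Agent.R224

open Set Filter Topology Pointwise

variable {Γ : Type} [Group Γ] {C : Cay Γ} {Z : Type} [MetricSpace Z] [CompactSpace Z]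
  [MulAction Γ Z] [ContinuousConstSMul Γ Z] {o : Z} {r : ℕ} {ξ : Fin 3 → Z}

theorem lf_three {α : Type} {s : Set α} (hs : s.Infinite) :
    ∃ v : Fin 3 → α, (∀ i, v i ∈ s) ∧ Function.Injective v :=
  ⟨fun i => (hs.natEmbedding s i).1, fun i => (hs.natEmbedding s i).2, fun _ _ e =>
    Fin.ext ((hs.natEmbedding s).injective (Subtype.ext e))⟩

theorem lf_clo {K : Set Z} {y : Z} (g : Γ) (hy : y ∉ closure (Bd Γ o \ K)) :
    g • y ∉ closure (Bd Γ o \ g • K) := by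
  rw [← smul_Bd (o := o) g, ← smul_set_sdiff, closure_smul, smul_mem_smul_set_iff]
  exact hy

theorem lf_sdiff {Y A B : Set Z} (h : A ⊂ B) (hB : B ⊆ Y) : Y \ B ⊂ Y \ A := by
  obtain ⟨x, hx, hx'⟩ := exists_of_ssubset h
  exact ⟨sdiff_subset_sdiff_right h.1, fun h' => (h' ⟨hB hx, hx'⟩).2 hx⟩

namespace Cv

theorem lf_pts (h : Cv C o) (hy : C.Hyp r) (hn : (Bd Γ o).Nontrivial) :
    ∃ v : Fin 3 → Z, (∀ i, v i ∈ Bd Γ o) ∧ Function.Injective v := by
  obtain ⟨y, hy'⟩ := hn.nonempty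
  exact lf_three ((h.perfect hy.h2 hn hy' one_pos).mono fun _ h => h.1)

theorem no_seq (h : Cv C o) (hy : C.Hyp r) (hn : (Bd Γ o).Nontrivial) {ℋ : Set (Set Z)}
    (hN : NF Γ (Bd Γ o) ℋ) {H : ℕ → Set Z} (hH : ∀ n, H n ∈ ℋ) (hs : StrictMono H)
    (h0 : (H 0).Nonempty) {y' : Z} (hy' : y' ∈ Bd Γ o) (hd : y' ∉ closure (⋃ n, H n)) : False := by
  obtain ⟨ξ, hm, hξ⟩ := h.lf_pts hy hn
  have gap : ∀ k, Disjoint (closure (H k)) (closure (Bd Γ o \ ⋃ n, H n)) := fun k =>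
    (hN.gap _ (hH k) _ (hH (k + 1)) _ (hH (k + 2)) (hs (by omega)) (hs (by omega))).mono_right
      (closure_mono (sdiff_subset_sdiff_right (subset_iUnion H (k + 2))))
  obtain ⟨y, hy0⟩ := id h0
  have hU := h.deep_St hm hξ (hN.sub _ (hH 0) hy0) hy'
    (disjoint_left.1 (gap 0) (subset_closure hy0)) hd
  have hi : (Bd Γ o \ ⋃ n, H n).Nontrivial := by
    obtain ⟨η, hη, hb⟩ := Metric.isOpen_iff.1 isClosed_closure.isOpen_compl y' hd
    refine Set.Infinite.nontrivial ((h.perfect hy.h2 hn hy' hη).mono fun z hz => ?_)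
    exact ⟨hz.1, fun hz' => hb hz.2 (subset_closure hz')⟩
  obtain ⟨φ, X, hX, hcl⟩ := h.clusters hN hm hξ hH hs h0 hi r
  refine Cay.eg hy hU φ fun K hK => ?_
  have hF : (C.N r (K ∪ X) ∩ St ξ (⋃ n, H n)).Finite :=
    (C.finite_N r (hK.union hX)).subset inter_subset_left
  have hev : ∀ᶠ k in atTop, ∀ x ∈ C.N r (K ∪ X) ∩ St ξ (⋃ n, H n), x ∈ St ξ (H k) := by
    refine (eventually_all_finite hF).2 fun x hx => ?_
    have h1 := hx.2
    rw [St_iUnion hs.monotone] at h1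
    obtain ⟨n, hn⟩ := mem_iUnion.1 h1
    filter_upwards [eventually_ge_atTop n] with k hk using St_mono (hs.monotone hk) hn
  obtain ⟨k, hk, hk1⟩ := (hev.and (eventually_ge_atTop 1)).exists
  have hAU : (St ξ (H k) : Set Γ) ⊆ St ξ (⋃ n, H n) := St_mono (subset_iUnion H k)
  have hdis : Disjoint (K ∪ X) (C.Rb r (St ξ (H k)) (St ξ (⋃ n, H n))) := by
    refine disjoint_left.2 fun x hx hx' => ?_
    obtain ⟨a, b, c, -, hb, hb', -, -, hd, -⟩ := rb_near hx'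
    exact hb' (hk b ⟨⟨x, hx, by rwa [C.d_comm]⟩, hb⟩)
  have hL : Disjoint (Lam o (St ξ (H k) : Set Γ)) (Lam o (St ξ (⋃ n, H n) : Set Γ)ᶜ) := by
    rw [← St_compl hm]
    exact (gap k).mono (h.Lam_St hξ _) (h.Lam_St hξ _)
  refine ⟨St ξ (H k), hAU, (C.finite_N r (h.finite_adj hL (r + r))).subset fun x hx => ?_,
    (h.finite_adj hL 1).subset fun x hx => ?_, fun x hx => ?_, hdis.mono_left subset_union_left,
    hcl k hk1 (hdis.mono_left subset_union_right)⟩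
  · obtain ⟨a, b, c, ha, -, -, hc, h1, -, h2⟩ := rb_near hx
    refine ⟨a, ⟨ha, c, hc, ?_⟩, h1⟩
    have := C.d_tri a x c
    rw [C.d_comm a x] at this
    omega
  · obtain ⟨z, h1, h2⟩ := hx.2
    exact ⟨hx.1, z, fun hz => h2 (iff_of_true (hAU hx.1) hz), h1⟩
  · exact hk x ⟨C.subset_N r _ (Or.inl hx.1.1), hx.1.2⟩

theorem three (h : Cv C o) (hy : C.Hyp r) (hn : (Bd Γ o).Nontrivial) {b : Z}
    (hb : IsCut (Bd Γ o) b) : ∃ (ξ : Fin 3 → Z) (K : Fin 3 → Set Z),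
      (∀ i, ξ i ∈ K i) ∧ (∀ i, K i ⊆ Bd Γ o) ∧ (∀ i, IsPreconnected (K i)) ∧
      (∀ i j, i ≠ j → Disjoint (K i) (K j)) ∧ ∀ i, ξ i ∉ closure (Bd Γ o \ K i) := by
  obtain ⟨hbY, S, hS, ⟨y₀, hy₀⟩, c, hc, hcb, hcS⟩ := hb
  have hcl := hS.closed h.isClosed_Bd
  have hco := hS.conn h.isClosed_Bd (h.preconn hy.h2) hbY
  have hsub : insert b S ⊆ Bd Γ o := insert_subset hbY fun z hz => (hS.1 hz).1
  obtain ⟨𝒰, -, hU, hlim⟩ := h.exists_ultra (A := univ) (y := c) (by rwa [h.Lam_univ])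
  obtain ⟨a, ha⟩ := ultra_lim 𝒰 fun x : Γ => x⁻¹ • o
  have hinv : Tendsto (fun x : Γ => x⁻¹) 𝒰 cofinite := tuk_inv (g := fun x : Γ => x) hU
  obtain ⟨v, hv, hvi⟩ := lf_three (h.orbit_inf hy.h2 hn a (h.lim_mem hinv ha))
  choose g hg using hv
  have hsep : ∀ᶠ p in 𝓝 a ×ˢ 𝓝 a, ∀ i j, i ≠ j → g i • p.1 ≠ g j • p.2 := by
    refine eventually_all.2 fun i => eventually_all.2 fun j => ?_
    by_cases hij : i = j
    · exact Eventually.of_forall fun _ h => absurd hij h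
    have hne : g i • a ≠ g j • a := fun e => hij (hvi ((hg i).symm.trans (e.trans (hg j))))
    have t1 : Tendsto (fun p : Z × Z => g i • p.1) (𝓝 a ×ˢ 𝓝 a) (𝓝 (g i • a)) :=
      tendsto_fst.const_smul _
    have t2 : Tendsto (fun p : Z × Z => g j • p.2) (𝓝 a ×ˢ 𝓝 a) (𝓝 (g j • a)) :=
      tendsto_snd.const_smul _
    filter_upwards [(t1.dist t2).eventually_ne (dist_pos.2 hne).ne'] with p hp _ e
    exact hp (dist_eq_zero.2 e)
  obtain ⟨t, ht, hsep⟩ := eventually_prod_self_iff'.1 hsep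
  obtain ⟨δ₁, h1, hδ₁⟩ := Metric.mem_nhds_iff.1 ht
  obtain ⟨δ₂, h2, hδ₂⟩ := Metric.isOpen_iff.1 hcl.isOpen_compl c (by
    rintro (e | e)
    · exact hcb e
    · exact hcS e)
  obtain ⟨x, hx⟩ := (h.tuk_ev (c := c) hinv ha (by simpa using hlim) (lt_min h1 h2)).exists
  have hin : ∀ z ∈ insert b S, x⁻¹ • z ∈ t := fun z hz =>
    hδ₁ ((hx z ((min_le_right _ _).trans (not_lt.1 fun h => hδ₂ h hz))).trans_le (min_le_left _ _))
  refine ⟨fun i => (g i * x⁻¹) • y₀, fun i => (g i * x⁻¹) • insert b S,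
    fun i => smul_mem_smul_set (Or.inr hy₀), fun i => ?_,
    fun i => hco.image _ (continuous_const_smul _).continuousOn, fun i j hij => ?_,
    fun i => lf_clo _ fun h => hS.not_mem_closure hy₀
      (closure_mono (sdiff_subset_sdiff_right (subset_insert b S)) h)⟩
  · rintro _ ⟨z, hz, rfl⟩
    exact smul_mem_Bd.2 (hsub hz)
  · refine disjoint_left.2 ?_
    rintro _ ⟨z, hz, rfl⟩ ⟨z', hz', e⟩
    simp only [mul_smul] at e
    exact hsep _ (hin z hz) _ (hin z' hz') i j hij e.symm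

theorem exists_LF (h : Cv C o) (hy : C.Hyp r) (hn : (Bd Γ o).Nontrivial) :
    ∃ ξ : Fin 3 → Z, LF C o ξ := by
  by_cases hcut : ∃ b, IsCut (Bd Γ o) b
  swap
  · obtain ⟨ξ, hm, hξ⟩ := h.lf_pts hy hn
    exact ⟨ξ, hm, hξ, fun x => finite_empty.subset fun Q ⟨⟨b, hb⟩, _⟩ => absurd ⟨b, hb.1⟩ hcut⟩
  obtain ⟨b₀, hb₀⟩ := hcut
  obtain ⟨ξ, K, h1, h2, h3, h4, h5⟩ := h.three hy hn hb₀
  have hN : NF Γ (Bd Γ o) {Q | ∃ b, IsQ (Bd Γ o) b Q} := nf_Q h.isClosed_Bd (h.preconn hy.h2) smul_Bd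
  have hm : ∀ (g : Γ) i, g • ξ i ∈ Bd Γ o := fun g i => smul_mem_Bd.2 (h2 i (h1 i))
  have hfin : ∀ (g g' : Γ) (i j : Fin 3), {Q | (∃ b, IsQ (Bd Γ o) b Q) ∧ g • K i ⊆ Q ∧
      Disjoint (g' • K j) Q}.Finite := fun g g' i j => by
    by_contra hinf
    obtain ⟨f, hf, hfi⟩ : ∃ f : ℕ → Set Z, (∀ n, (∃ b, IsQ (Bd Γ o) b (f n)) ∧ g • K i ⊆ f n ∧
        Disjoint (g' • K j) (f n)) ∧ Function.Injective f :=
      ⟨fun n => (Set.Infinite.natEmbedding _ hinf n).1, fun n => (Set.Infinite.natEmbedding _ hinf n).2,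
        Subtype.val_injective.comp (Set.Infinite.natEmbedding _ hinf).injective⟩
    have hu : ∀ n, g • ξ i ∈ f n := fun n => (hf n).2.1 (smul_mem_smul_set (h1 i))
    have hv : ∀ n, g' • ξ j ∉ f n := fun n => disjoint_left.1 (hf n).2.2 (smul_mem_smul_set (h1 j))
    obtain ⟨s, hs | hs⟩ := exists_increasing_or_nonincreasing_subseq (· < ·) f
    · refine h.no_seq hy hn hN (H := fun n => f (s n)) (fun n => (hf _).1) (fun m n => hs m n)
        ⟨_, hu _⟩ (hm g' j) fun hc => lf_clo g' (h5 j) (closure_mono (iUnion_subset fun n z hz => ?_) hc)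
      exact ⟨hN.sub _ (hf _).1 hz, fun hz' => disjoint_left.1 (hf _).2.2 hz' hz⟩
    · refine h.no_seq hy hn (hN.compl smul_Bd) (H := fun n => Bd Γ o \ f (s n))
        (fun n => ⟨_, (hf _).1, rfl⟩) (fun m n hmn => lf_sdiff ?_ (hN.sub _ (hf _).1))
        ⟨_, hm g' j, hv _⟩ (hm g i) fun hc => lf_clo g (h5 i) (closure_mono
          (iUnion_subset fun n => sdiff_subset_sdiff_right (hf _).2.1) hc)
      have hne : f (s m) ≠ f (s n) := fun e => hmn.ne (s.injective (hfi e))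
      rcases hN.total (hf (s m)).1 (hf (s n)).1 (hu _) (hu _) (hm g' j) (hv _) (hv _) with e | e
      · exact absurd (lt_of_le_of_ne e hne) (hs m n hmn)
      · exact lt_of_le_of_ne (α := Set Z) e hne.symm
  have hone : ∀ (g : Γ) (b : Z) (P : Fin 3 → Prop), (∃ i j, i ≠ j ∧ P i ∧ P j) →
      ∃ i, P i ∧ b ∉ g • K i := by
    rintro g b P ⟨i, j, hij, hi, hj⟩
    by_cases hb : b ∈ g • K i
    · exact ⟨j, hj, disjoint_left.1 (disjoint_smul_set.2 (h4 i j hij)) hb⟩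
    · exact ⟨i, hi, hb⟩
  have habs : ∀ (g : Γ) (i : Fin 3) (b : Z) (Q : Set Z), IsQ (Bd Γ o) b Q → b ∉ g • K i →
      ∀ z ∈ g • K i, z ∈ Q → g • K i ⊆ Q := fun g i b Q hQ hb z hz hz' =>
    hQ.absorb ((h3 i).image _ (continuous_const_smul g).continuousOn)
      (by rintro _ ⟨w, hw, rfl⟩; exact smul_mem_Bd.2 (h2 i hw)) hb hz hz'
  refine ⟨ξ, fun i => h2 i (h1 i), fun i j e => ?_, fun x => ?_⟩
  · by_contra hij
    exact disjoint_left.1 (h4 i j hij) (h1 i) (e ▸ h1 j)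
  refine ((C.finite_ball x 1).biUnion fun g _ => (C.finite_ball x 1).biUnion fun g' _ =>
    finite_iUnion fun i => finite_iUnion fun j => hfin g g' i j).subset ?_
  rintro Q ⟨⟨b, hQ⟩, y, hxy, hne⟩
  obtain ⟨g, g', hg, hg', hin, hout⟩ : ∃ g g', C.d x g ≤ 1 ∧ C.d x g' ≤ 1 ∧ g ∈ St ξ Q ∧
      g' ∉ St ξ Q := by
    have hx : C.d x x ≤ 1 := by rw [C.d_self]; exact zero_le_one
    by_cases hx' : x ∈ St ξ Q
    · exact ⟨x, y, hx, hxy, hx', fun hy' => hne (iff_of_true hx' hy')⟩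
    · exact ⟨y, x, hxy, hx, by_contra fun hy' => hne (iff_of_false hx' hy'), hx'⟩
  obtain ⟨i, hi, hbi⟩ := hone g b (fun i => g • ξ i ∈ Q) hin
  obtain ⟨j, hj, hbj⟩ := hone g' b (fun i => g' • ξ i ∉ Q) (not_mem_St hout)
  simp only [mem_iUnion]
  exact ⟨g, hg, g', hg', i, j, ⟨b, hQ⟩, habs g i b Q hQ hbi _ (smul_mem_smul_set (h1 i)) hi,
    disjoint_left.2 fun z hz hz' => hj (habs g' j b Q hQ hbj z hz hz' (smul_mem_smul_set (h1 j)))⟩

end Cv

end Crest.Agent.R224
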