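import Crest.Agent.R224.Blk

/-! R224, task Lab: the part of the group that belongs to a block, and its labels.

`blk_fin`: (i) two blocks `L ≠ L'` with `x ∈ St (QL L b)` for all cut points `b ∈ L`, and the same for `L'`: say
`y ∈ L' \\ L`; `ext` gives `b ∈ L` with `y ∉ QL L b`, `y ∈ QL L' b`, so these two sets are disjoint; `x` lies in
the straightening of both (for `L'` use `QL_sub`, `St_mono` if `b ∉ L'`), against `St_disjoint`.  (ii) A pair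
`b ∈ L`, `Q = QL L b` determines `L`, and `Q` determines `b` (`IsQ.unique`): if `b ∈ L ∩ L'`, `QL L b = QL L' b`,
`y ∈ L' \\ L`, `y ∉ QL L b'` with `b' ∈ L`, then `b' ≠ b`, and `b` lies in `QL L b'` and `QL L' b' ∋ y`, so these
are equal: absurd.  Use `LF.fin`.
`Lam_VL`: let `y ∈ Bd \\ L`, `y ∉ QL b`, `b ∈ L`, `Q = QL b`.  `y ∉ closure Q ⊇ Lam (St Q)` and `y ∉ Lam (W (St Q))`.
A point `x ∈ VL` lies in `St Q`, or in `W (St Q)`, or in `W (St (QL b'))` with `b' ≠ b`; in the last case `x` or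
a neighbour lies in `St (Bd \\ QL b') ⊆ St Q` (`Blk.disj`).  So `VL ⊆ N 1 (St Q) ∪ W (St Q)`.
`Lb_near`: for `x ∈ VL L` the set `x⁻¹ • L` is a block with `1 ∈ VL`, so the triples `Xi (x⁻¹ • L) o` lie in a
finite set; by `near_two`, for long `x` near `y` two of the three points `x • Xi .. i ∈ L` are near `y`; short `x`
are not near `y`.  Majority vote (`not_mem_St`). -/

set_option autoImplicit false
set_option linter.unusedSectionVars false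

namespace Crest.Agent.R224

open Set Filter Topology Pointwise

variable {Γ : Type} [Group Γ] {C : Cay Γ} {Z : Type} [MetricSpace Z] [CompactSpace Z]
  [MulAction Γ Z] [ContinuousConstSMul Γ Z] {o : Z} {r D : ℕ} {ξ : Fin 3 → Z} {L : Set Z}

theorem lab_VL (g : Γ) {x : Γ} (h : x ∈ VL C (Bd Γ o) ξ L) :
    g * x ∈ VL C (Bd Γ o) ξ (g • L) := by
  rcases h with h | ⟨b, hb, hc, h⟩
  · refine Or.inl ?_
    rintro _ ⟨b, hb, rfl⟩ hc
    change g * x ∈ St ξ (QL (Bd Γ o) (g • L) (g • b))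
    rw [QL_smul smul_Bd, St_smul]
    exact smul_mem_smul_set (h b hb (by simpa using hc.smul smul_Bd g⁻¹))
  · refine Or.inr ⟨g • b, smul_mem_smul_set hb, hc.smul smul_Bd g, ?_⟩
    rw [QL_smul smul_Bd, St_smul, C.W_smul]
    exact smul_mem_smul_set h

theorem VL_smul (g : Γ) : VL C (Bd Γ o) ξ (g • L) = g • VL C (Bd Γ o) ξ L := by
  ext x
  rw [mem_smul_set_iff_inv_smul_mem, smul_eq_mul]
  refine ⟨fun h => ?_, fun h => ?_⟩
  · simpa using lab_VL g⁻¹ h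
  · simpa using lab_VL g h

theorem Lb_smul (g : Γ) (H : Set Z) : (Lb o (g • L) (g • H) : Set Γ) = g • Lb o L H := by
  ext x
  rw [mem_smul_set_iff_inv_smul_mem, smul_eq_mul, Lb, Lb, mem_ofPred_eq, mem_ofPred_eq, St_smul,
    mem_smul_set_iff_inv_smul_mem, smul_eq_mul, mul_inv_rev, inv_inv, mul_smul]

theorem lab_FL (g : Γ) {H : Set Z} {x : Γ} (h : x ∈ FL C o ξ D L H) :
    g * x ∈ FL C o ξ D (g • L) (g • H) := by
  obtain ⟨h1, x', h2, h3, h4⟩ := h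
  refine ⟨lab_VL g h1, g * x', lab_VL g h2, by rwa [C.d_mul], ?_⟩
  rw [Lb_smul, ← smul_eq_mul, ← smul_eq_mul, smul_mem_smul_set_iff, smul_mem_smul_set_iff]
  exact h4

theorem FL_smul (g : Γ) (H : Set Z) : FL C o ξ D (g • L) (g • H) = g • FL C o ξ D L H := by
  ext x
  rw [mem_smul_set_iff_inv_smul_mem, smul_eq_mul]
  refine ⟨fun h => ?_, fun h => ?_⟩
  · simpa using lab_FL g⁻¹ h
  · simpa using lab_FL g h

theorem lab_sep {Y L' : Set Z} (hL : Blk Y L) (hL' : Blk Y L') {y : Z} (hy : y ∈ L') (hn : y ∉ L) :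
    ∃ b ∈ L, IsCut Y b ∧ y ∈ QL Y L' b ∧ Disjoint (QL Y L b) (QL Y L' b) := by
  obtain ⟨b, hb, hc, h1⟩ := hL.ext y (hL'.sub hy) hn
  have h2 : y ∈ QL Y L' b := hL'.mem_QL hy fun e => hn (e ▸ hb)
  refine ⟨b, hb, hc, h2, disjoint_left.2 fun z a1 a2 => h1 ?_⟩
  rwa [(hL.isQ hc).eq_of_mem (hL'.isQ hc) a1 a2]

theorem lab_W {U V : Set Γ} (h : Uᶜ ⊆ V) : C.W U ⊆ C.N 1 V := by
  rintro x ⟨y, hd, hn⟩
  by_cases hx : x ∈ U
  · exact ⟨y, h fun hy => hn (iff_of_true hx hy), hd⟩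
  · exact C.subset_N 1 V (h hx)

namespace Cv

theorem blk_fin (h : Cv C o) (h2 : C.H2) (ht : Tame C o ξ D) (x : Γ) :
    {L | Blk (Bd Γ o) L ∧ x ∈ VL C (Bd Γ o) ξ L}.Finite := by
  have hY := h.isClosed_Bd
  have hc := h.preconn h2
  have k1 : ∀ L L' : Set Z, Blk (Bd Γ o) L → Blk (Bd Γ o) L' →
      (∀ b ∈ L, IsCut (Bd Γ o) b → x ∈ St ξ (QL (Bd Γ o) L b)) →
      (∀ b ∈ L', IsCut (Bd Γ o) b → x ∈ St ξ (QL (Bd Γ o) L' b)) → L' ⊆ L := by
    intro L L' hL hL' a1 a2 y hy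
    by_contra hn
    obtain ⟨b, hb, hcut, -, hd⟩ := lab_sep hL hL' hy hn
    refine disjoint_left.1 (St_disjoint hd) (a1 b hb hcut) ?_
    by_cases hb' : b ∈ L'
    · exact a2 b hb' hcut
    · obtain ⟨b', e1, e2, e3⟩ := hL'.QL_sub hY hc hcut hb'
      exact St_mono e3 (a2 b' e1 e2)
  have k2 : ∀ (L L' : Set Z) (b : Z), Blk (Bd Γ o) L → Blk (Bd Γ o) L' → b ∈ L → b ∈ L' →
      QL (Bd Γ o) L b = QL (Bd Γ o) L' b → L' ⊆ L := by
    intro L L' b hL hL' a1 a2 e y hy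
    by_contra hn
    obtain ⟨b', hb, -, h1, hd⟩ := lab_sep hL hL' hy hn
    by_cases hbb : b = b'
    · subst hbb
      exact disjoint_left.1 hd (e ▸ h1) h1
    · exact disjoint_left.1 hd (hL.mem_QL a1 hbb) (hL'.mem_QL a2 hbb)
  have f1 : {L | Blk (Bd Γ o) L ∧
      ∀ b ∈ L, IsCut (Bd Γ o) b → x ∈ St ξ (QL (Bd Γ o) L b)}.Subsingleton :=
    fun L hL L' hL' => (k1 L' L hL'.1 hL.1 hL'.2 hL.2).antisymm (k1 L L' hL.1 hL'.1 hL.2 hL'.2)
  have f2 : ∀ Q : Set Z, {L | Blk (Bd Γ o) L ∧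
      ∃ b ∈ L, IsCut (Bd Γ o) b ∧ QL (Bd Γ o) L b = Q}.Subsingleton := by
    rintro Q L ⟨hL, b, hb, hcut, e⟩ L' ⟨hL', b', hb', hcut', e'⟩
    obtain rfl : b = b' := IsQ.unique hY hc (e ▸ hL.isQ hcut) (e' ▸ hL'.isQ hcut')
    exact (k2 L' L b hL' hL hb' hb (e'.trans e.symm)).antisymm (k2 L L' b hL hL' hb hb' (e.trans e'.symm))
  refine (f1.finite.union ((ht.fin x).biUnion fun Q _ => (f2 Q).finite)).subset ?_
  rintro L ⟨hL, h1 | ⟨b, hb, hcut, h1⟩⟩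
  · exact Or.inl ⟨hL, h1⟩
  · exact Or.inr (mem_biUnion (show QL (Bd Γ o) L b ∈ {Q | _} from ⟨⟨b, hL.isQ hcut⟩, h1⟩)
      ⟨hL, b, hb, hcut, rfl⟩)

theorem Lam_VL (h : Cv C o) (h2 : C.H2) (ht : Tame C o ξ D) (hL : Blk (Bd Γ o) L) :
    Lam o (VL C (Bd Γ o) ξ L) ⊆ L := by
  intro y hy
  by_contra hn
  obtain ⟨b, hb, hcut, h1⟩ := hL.ext y hy.1 hn
  have hs : VL C (Bd Γ o) ξ L ⊆ C.N 1 (St ξ (QL (Bd Γ o) L b)) := by
    rintro x (hx | ⟨b', hb', hcut', hx⟩)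
    · exact C.subset_N 1 _ (hx b hb hcut)
    · by_cases e : b = b'
      · subst e
        rw [← C.W_compl] at hx
        exact lab_W (compl_compl _).le hx
      · refine lab_W ?_ hx
        rw [← St_compl ht.mem]
        refine St_mono fun z hz => ?_
        by_contra hc
        exact disjoint_left.1 (hL.disj h.isClosed_Bd (h.preconn h2) hcut hcut' hb hb' e) ⟨hz.1, hc⟩ hz
  have h3 := Lam_mono hs hy
  rw [h.Lam_N] at h3
  rcases ((hL.isQ hcut).closed h.isClosed_Bd).closure_subset_iff.2 (subset_insert _ _)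
    (h.Lam_St ht.inj _ h3) with e | e
  · exact hn (e ▸ hb)
  · exact h1 e

theorem Lb_near (h : Cv C o) (h2 : C.H2) (ht : Tame C o ξ D) (hL : Blk (Bd Γ o) L) {H : Set Z}
    {y : Z} (hy : y ∈ L) (hH : LocC L H y) : ∃ η > 0, ∀ x ∈ VL C (Bd Γ o) ξ L,
      dist (x • o) y < η → (x ∈ Lb o L H ↔ y ∈ H) := by
  obtain ⟨η, hη, H1⟩ := LocC.iff_dist.1 hH
  obtain ⟨R, hR⟩ := h.near_two ((h.blk_fin h2 ht 1).image fun L' => Xi L' o)
    (by rintro _ ⟨L', hL', rfl⟩; exact (hL'.1.Xi_spec o).1) (half_pos hη)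
  obtain ⟨η', hη', H2⟩ := h.away (A := {x | C.len x ≤ R}) (hL.sub hy)
    (by rw [Lam_finite (C.fin R)]; exact notMem_empty y)
  refine ⟨min (η / 2) η', lt_min (half_pos hη) hη', fun x hx hd => ?_⟩
  rw [lt_min_iff] at hd
  have hB := hL.smul (Γ := Γ) smul_Bd x⁻¹
  obtain ⟨i, j, hij, a1, a2⟩ := hR x (le_of_not_ge fun hc => absurd (H2 x hc) (not_le.2 hd.2))
    (Xi (x⁻¹ • L) o) ⟨_, ⟨hB, by simpa using lab_VL x⁻¹ hx⟩, rfl⟩
  have key : ∀ i, dist (x • Xi (x⁻¹ • L) o i) (x • o) ≤ η / 2 → (x • Xi (x⁻¹ • L) o i ∈ H ↔ y ∈ H) := by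
    intro i hi
    have e := (hB.Xi_spec o).2 i
    rw [mem_smul_set_iff_inv_smul_mem, inv_inv] at e
    exact H1 _ e (by linarith [dist_triangle (x • Xi (x⁻¹ • L) o i) (x • o) y, hd.1])
  refine ⟨fun hx' => ?_, fun hy' => ⟨i, j, hij, (key i a1).2 hy', (key j a2).2 hy'⟩⟩
  by_contra hy'
  exact disjoint_left.1 (St_disjoint (disjoint_compl_right (a := H))) hx'
    ⟨i, j, hij, fun e => hy' ((key i a1).1 e), fun e => hy' ((key j a2).1 e)⟩

theorem Lam_FL (h : Cv C o) (h2 : C.H2) (ht : Tame C o ξ D) (hL : Blk (Bd Γ o) L) (H : Set Z) :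
    Lam o (FL C o ξ D L H) ⊆ {y | y ∈ L ∧ ¬LocC L H y} := by
  intro y hy
  have hyL : y ∈ L := h.Lam_VL h2 ht hL (Lam_mono (fun x hx => hx.1) hy)
  refine ⟨hyL, fun hH => ?_⟩
  obtain ⟨η, hη, H1⟩ := h.Lb_near h2 ht hL hyL hH
  obtain ⟨R, hR⟩ := h.es0 D (half_pos hη)
  obtain ⟨x, ⟨⟨a1, x', a2, a3, a4⟩, hd⟩, hx⟩ :=
    (h.mem_Lam.1 hy (η / 2) (half_pos hη)).exists_notMem_finite (C.fin R)
  have h3 := hR x x' (le_of_not_ge hx) a3
  have h4 := dist_triangle_left (x' • o) y (x • o)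
  exact a4 ((H1 x a1 (by linarith)).trans (H1 x' a2 (by linarith)).symm)

end Cv

end Crest.Agent.R224
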