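import Crest.Agent.R224.Bas

/-! R224, task Lev: generic levels.

`sq_incr`: induction on `len s` (`C.geo`): `(a + b) ^ 2 ≤ 2 a ^ 2 + 2 b ^ 2`, reindex by `x ↦ x * h`.
`om_sq`: `sq_sum_le_card_mul_sum_sq` and `sq_incr`.
`vol_Lw`: with `m = om / 2`, `x ∈ Lw t` gives `f x - m ≤ f y < t < f z ≤ f x + m`.
`lint_Lw`: Tonelli (`lintegral_tsum`; `{t | x ∈ Lw r f t}` is a union of open intervals) and `vol_Lw`.
`ae_good`: `range f` is countable; for each `g`, `∑ om x * om (g * x) < ∞` (`2ab ≤ a² + b²`), `lint_Lw`, `ae_lt_top`,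
`ae_all_iff`.  `Good.ae_fin`: Borel–Cantelli (`measure_limsup_cofinite_eq_zero`, or `ae_lt_top` for the counting
function) for the sets `{t | g⁻¹ * x ∈ Lw t}`, `x ∈ Lw s`.
`choose_levels`: induction on `n` (`Fin.snoc`/`Fin.cons`): the new level avoids finitely many null sets;
`g • A ∩ g' • B = g • (A ∩ (g⁻¹ * g') • B)`. -/

set_option autoImplicit false
set_option linter.unusedSectionVars false

namespace Crest.Agent.R224

open Set Filter Topology Pointwise MeasureTheory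

namespace Cay

variable {Γ : Type} [Group Γ] {C : Cay Γ} {r : ℕ} {f : Γ → ℝ} {x₀ y₀ : Γ}

theorem om_nonneg (x : Γ) : 0 ≤ C.om r f x := by
  exact mul_nonneg zero_le_two (Finset.sum_nonneg fun _ _ => abs_nonneg _)

theorem sq_incr (hf : C.FinE f) (s : Γ) : Summable fun x => (f (x * s) - f x) ^ 2 := by
  have h1 : ∀ t : Γ, C.len t ≤ 1 → Summable fun x => (f (x * t) - f x) ^ 2 := fun t ht =>
    hf.comp_injective (i := fun x : Γ => (x, (⟨t, (C.mem_T).2 ht⟩ : C.T)))
      fun x y e => congrArg Prod.fst e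
  obtain ⟨n, hn⟩ : ∃ n, C.len s = n := ⟨_, rfl⟩
  induction n generalizing s with
  | zero => exact h1 s (by omega)
  | succ n ih =>
    obtain ⟨h, hh, ht⟩ := C.geo s n hn
    have a := (h1 _ ht).comp_injective (mul_left_injective h)
    refine Summable.of_nonneg_of_le (fun _ => sq_nonneg _) (fun x => ?_)
      ((a.mul_left 2).add ((ih h hh).mul_left 2))
    simp only [Function.comp_apply, mul_assoc, mul_inv_cancel_left]
    nlinarith [sq_nonneg (f (x * s) - f (x * h) - (f (x * h) - f x))]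

theorem om_sq (hf : C.FinE f) (r : ℕ) : Summable fun x => C.om r f x ^ 2 := by
  refine Summable.of_nonneg_of_le (fun _ => sq_nonneg _) (fun x => ?_)
    ((summable_sum (s := (C.fin r).toFinset) fun s _ => sq_incr hf s).mul_left
      (4 * ((C.fin r).toFinset.card : ℝ)))
  have := sq_sum_le_card_mul_sum_sq (s := (C.fin r).toFinset) (f := fun s => |f (x * s) - f x|)
  simp only [sq_abs] at this
  rw [om, mul_pow]
  linarith

theorem Lw_mono {r' : ℕ} (h : r ≤ r') (t : ℝ) : C.Lw r f t ⊆ C.Lw r' f t := by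
  rintro x ⟨y, z, h1, h2, h3⟩
  exact ⟨y, z, h1.trans h, h2.trans h, h3⟩

theorem lev_abs_le {x y : Γ} (h : C.d x y ≤ r) : |f y - f x| ≤ C.om r f x / 2 := by
  have := Finset.single_le_sum (f := fun s => |f (x * s) - f x|) (s := (C.fin r).toFinset)
    (fun _ _ => abs_nonneg _) (a := x⁻¹ * y) ((Set.Finite.mem_toFinset _).2 h)
  simp only [mul_inv_cancel_left] at this
  rw [om]
  linarith

theorem vol_Lw (x : Γ) : volume {t | x ∈ C.Lw r f t} ≤ ENNReal.ofReal (C.om r f x) := by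
  refine (measure_mono (t := Icc (f x - C.om r f x / 2) (f x + C.om r f x / 2)) ?_).trans (le_of_eq ?_)
  · rintro t ⟨y, z, h1, h2, h3, h4⟩
    have a := abs_le.1 (lev_abs_le (f := f) h1)
    have b := abs_le.1 (lev_abs_le (f := f) h2)
    exact ⟨by linarith [a.1], by linarith [b.2]⟩
  · rw [Real.volume_Icc]
    congr 1
    ring

theorem isOpen_Lw (x : Γ) : IsOpen {t | x ∈ C.Lw r f t} := by
  refine isOpen_iff_mem_nhds.2 ?_
  rintro t ⟨y, z, h1, h2, h3, h4⟩
  exact mem_of_superset (Ioo_mem_nhds h3 h4) fun u hu => ⟨y, z, h1, h2, hu.1, hu.2⟩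

theorem lev_ind (a : Γ → ℝ) (x : Γ) :
    (fun t => (C.Lw r f t).indicator (fun x => ENNReal.ofReal (a x)) x) =
      {t | x ∈ C.Lw r f t}.indicator fun _ => ENNReal.ofReal (a x) := by
  funext t
  by_cases h : x ∈ C.Lw r f t
  · rw [indicator_of_mem h, indicator_of_mem (show t ∈ {t | x ∈ C.Lw r f t} from h)]
  · rw [indicator_of_notMem h, indicator_of_notMem (show t ∉ {t | x ∈ C.Lw r f t} from h)]

theorem lev_meas (a : Γ → ℝ) (x : Γ) :
    Measurable fun t => (C.Lw r f t).indicator (fun x => ENNReal.ofReal (a x)) x := by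
  rw [lev_ind]
  exact measurable_const.indicator (isOpen_Lw x).measurableSet

theorem lev_ofReal {ι : Type} {a : ι → ℝ} (h : Summable a) (h0 : ∀ i, 0 ≤ a i) :
    ∑' i, ENNReal.ofReal (a i) ≠ ⊤ := by
  rw [← ENNReal.ofReal_tsum_of_nonneg h0 h]
  exact ENNReal.ofReal_ne_top

theorem lint_Lw (a : Γ → ℝ) :
    ∫⁻ t, ∑' x, (C.Lw r f t).indicator (fun x => ENNReal.ofReal (a x)) x ≤
      ∑' x, ENNReal.ofReal (C.om r f x) * ENNReal.ofReal (a x) := by
  have := C.countable
  rw [lintegral_tsum fun x => (lev_meas a x).aemeasurable]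
  refine ENNReal.tsum_le_tsum fun x => ?_
  rw [lev_ind, lintegral_indicator_const (isOpen_Lw x).measurableSet, mul_comm]
  exact mul_le_mul_left (vol_Lw x) _

theorem ae_good (hf : C.FinE f) (r : ℕ) : ∀ᵐ s, C.Good r f s := by
  have := C.countable
  refine ((countable_range f).ae_notMem volume).and (ae_all_iff.2 fun g => ?_)
  have h1 : Summable fun x => C.om r f x * C.om r f (g * x) := by
    refine Summable.of_nonneg_of_le (fun x => mul_nonneg (om_nonneg _) (om_nonneg _)) (fun x => ?_)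
      ((om_sq hf r).add ((om_sq hf r).comp_injective (mul_right_injective g)))
    simp only [Function.comp_apply]
    nlinarith [sq_nonneg (C.om r f x - C.om r f (g * x)), sq_nonneg (C.om r f x),
      sq_nonneg (C.om r f (g * x))]
  have h2 := lev_ofReal h1 fun x => mul_nonneg (om_nonneg _) (om_nonneg _)
  simp only [ENNReal.ofReal_mul (om_nonneg _)] at h2
  have h3 := ae_lt_top (Measurable.ennreal_tsum (lev_meas (C := C) (r := r) (f := f)
    fun x => C.om r f (g * x))) (ne_top_of_le_ne_top h2 (lint_Lw _))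
  filter_upwards [h3] with s hs
  rw [← tsum_subtype] at hs
  have h4 := ENNReal.summable_toReal hs.ne
  simpa only [ENNReal.toReal_ofReal (om_nonneg _)] using h4

theorem Good.ae_fin {s : ℝ} (h : C.Good r f s) (g : Γ) :
    ∀ᵐ t, (C.Lw r f s ∩ g • C.Lw r f t).Finite := by
  have := C.countable
  have h1 := lev_ofReal (h.2 g⁻¹) fun x => om_nonneg _
  have h2 := ae_finite_setOfPred_mem (μ := volume)
    (s := fun x : C.Lw r f s => {t | g⁻¹ * (x : Γ) ∈ C.Lw r f t})
    (ne_top_of_le_ne_top h1 (ENNReal.tsum_le_tsum fun x => vol_Lw _))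
  filter_upwards [h2] with t ht
  refine (ht.image Subtype.val).subset ?_
  rintro x ⟨hx1, hx2⟩
  exact ⟨⟨x, hx1⟩, mem_smul_set_iff_inv_smul_mem.1 hx2, rfl⟩

theorem choose_levels (hf : C.FinE f) {s₀ : ℝ} (h0 : C.Good r f s₀) {n : ℕ} (g : Fin n → Γ)
    {a b : Fin n → ℝ} (hab : ∀ i, a i < b i) : ∃ t : Fin n → ℝ, (∀ i, t i ∈ Ioo (a i) (b i)) ∧
      (∀ i, C.Good r f (t i)) ∧
      (∀ i j, i ≠ j → (g i • C.Lw r f (t i) ∩ g j • C.Lw r f (t j)).Finite) ∧
      ∀ i, (C.Lw r f s₀ ∩ g i • C.Lw r f (t i)).Finite := by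
  induction n with
  | zero => exact ⟨fun i => i.elim0, fun i => i.elim0, fun i => i.elim0, fun i => i.elim0, fun i => i.elim0⟩
  | succ n ih =>
    obtain ⟨t, t1, t2, t3, t4⟩ := ih (fun i => g i.succ) (a := fun i => a i.succ)
      (b := fun i => b i.succ) fun i => hab i.succ
    have hae := (ae_good hf r).and ((h0.ae_fin (g 0)).and
      (ae_all_iff.2 fun j => (t2 j).ae_fin ((g j.succ)⁻¹ * g 0)))
    obtain ⟨u, u1, u2, u3, u4⟩ := Measure.exists_mem_of_measure_ne_zero_of_ae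
      (s := Ioo (a 0) (b 0)) (by rw [Real.volume_Ioo]; simpa using hab 0) (ae_restrict_of_ae hae)
    have u5 : ∀ j, (g j.succ • C.Lw r f (t j) ∩ g 0 • C.Lw r f u).Finite := fun j => by
      have := (u4 j).smul_set (a := g j.succ)
      rwa [smul_set_inter, smul_smul, mul_inv_cancel_left] at this
    refine ⟨Fin.cons u t, fun i => ?_, fun i => ?_, fun i j => ?_, fun i => ?_⟩
    · refine Fin.cases ?_ (fun i => ?_) i
      · exact u1
      · exact t1 i
    · refine Fin.cases ?_ (fun i => ?_) i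
      · exact u2
      · exact t2 i
    · refine Fin.cases ?_ (fun i => ?_) i <;> refine Fin.cases ?_ (fun j => ?_) j
      · exact fun h => (h rfl).elim
      · exact fun _ => inter_comm _ _ ▸ u5 j
      · exact fun _ => u5 i
      · exact fun h => t3 i j fun e => h (e ▸ rfl)
    · refine Fin.cases ?_ (fun i => ?_) i
      · exact u3
      · exact t4 i

/-- Points that see both sides of an upper level set lie in the level wall. -/
theorem mem_Lw {t : ℝ} (ht : t ∉ range f) {g x a b : Γ} (ha : C.d x a ≤ r) (hb : C.d x b ≤ r)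
    (h : ¬(a ∈ Up f g t ↔ b ∈ Up f g t)) : x ∈ g • C.Lw r f t := by
  rw [mem_smul_set_iff_inv_smul_mem, smul_eq_mul]
  have key : ∀ {a b : Γ}, C.d x a ≤ r → C.d x b ≤ r → a ∈ Up f g t → b ∉ Up f g t →
      g⁻¹ * x ∈ C.Lw r f t := fun {a b} ha hb h1 h2 =>
    ⟨g⁻¹ * b, g⁻¹ * a, by rwa [d_mul], by rwa [d_mul],
      lt_of_le_of_ne (not_lt.1 h2) fun e => ht ⟨_, e⟩, h1⟩
  by_cases h1 : a ∈ Up f g t
  · exact key ha hb h1 fun h2 => h (iff_of_true h1 h2)
  · exact key hb ha (by by_contra h2; exact h (iff_of_false h1 h2)) h1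

theorem Pot.conn_Up (h : C.Pot f x₀ y₀) (g : Γ) {t : ℝ} (ht : t ∈ Ioo (0 : ℝ) 1)
    (ht' : t ∉ range f) : C.Conn (Up f g t) ∧ C.Conn (Up f g t)ᶜ ∧ g * y₀ ∈ Up f g t ∧
      g * x₀ ∉ Up f g t := by
  have e1 : Up f g t = g • {x | t < f x} := by
    ext x; rw [mem_smul_set_iff_inv_smul_mem]; rfl
  have e2 : (Up f g t)ᶜ = g • {x | f x < t} := by
    ext x
    rw [mem_smul_set_iff_inv_smul_mem]
    show ¬ t < f (g⁻¹ * x) ↔ f (g⁻¹ * x) < t
    exact ⟨fun h => lt_of_le_of_ne (not_lt.1 h) fun e => ht' ⟨_, e⟩, fun h => not_lt.2 (le_of_lt h)⟩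
  refine ⟨e1 ▸ C.conn_smul (h.up t ht) g, e2 ▸ C.conn_smul (h.dn t ht) g, ?_, ?_⟩
  · show t < f (g⁻¹ * (g * y₀))
    rw [inv_mul_cancel_left, h.f1]; exact ht.2
  · show ¬ t < f (g⁻¹ * (g * x₀))
    rw [inv_mul_cancel_left, h.f0]; exact not_lt.2 ht.1.le

end Cay

end Crest.Agent.R224
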