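import Crest.Agent.R224.Par

/-! R224, task Null: the walls form a null family.

`null_cut`: otherwise take a cofinite ultrafilter on the set of these `b`, with `x b ∈ Wst b`,
`ε ≤ dist (x b • o) b`.  `(x b)⁻¹ • b` lies in a finite set (`Wst_fin`, `Wst_smul`), so it is eventually a fixed cut
point `b₀`: `b = x b • b₀`, and `x b → ∞`.  Let `x b • o → t`, `b → y`, `(x b)⁻¹ • o → c`; `y ≠ t`.  If `c ≠ b₀`,
`conv` gives `y = t`; if `c = b₀`, `not_conical` does.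
`null`: finitely many `b`; for each, finitely many `x ∈ Wst b` are `ε`-far from `b` (`Lam_Wst`,
`finite_of_disjoint`); each lies on finitely many walls.
`small`: otherwise take a cofinite ultrafilter on these `Q`, with `b Q → y`, `q Q → q`, `q' Q → q'`,
`ε ≤ dist q y, dist q' y`.  By `null`, eventually `W (St Q)` lies within `ε / 2` of `y`.  Fix `x₀` within `ε / 16`
of `q`.  Eventually `q Q` is within `ε / 32` of `q`, and points near `q Q` lie in `St Q` (`isOpenQ`,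
`Clo.not_mem_closure`, `Lam_St`, `St_compl`, `away`), so `x₀ ∈ St Q` (`joined`, `Ch.same`).  Likewise `x₀' ∉ St Q`
(`q' Q ∉ closure Q`).  A fixed finite set `P` joining `x₀` to `x₀'` meets `W (St Q)` for all these `Q`, against
`LF.fin`.
`rays`: for each of the finitely many `Q₀` with `1 ∈ W (St Q₀)`, `ray` (with `deep_clo`) gives `z Q₀`; `D` bounds
their lengths.  For `x ∈ W (St Q)` take `Q₀ = x⁻¹ • Q` and the point `x * z Q₀` (`Ch.smul`). -/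

set_option autoImplicit false
set_option linter.unusedSectionVars false

namespace Crest.Agent.R224

open Set Filter Topology Pointwise

variable {Γ : Type} [Group Γ] {C : Cay Γ} {Z : Type} [MetricSpace Z] [CompactSpace Z]
  [MulAction Γ Z] [ContinuousConstSMul Γ Z] {o : Z} {r : ℕ} {ξ : Fin 3 → Z}

namespace Cv

theorem null_cut (h : Cv C o) (hy : C.Hyp r) (hl : LF C o ξ) {ε : ℝ} (hε : 0 < ε) :
    {b | IsCut (Bd Γ o) b ∧ ∃ x ∈ Wst C (Bd Γ o) ξ b, ε ≤ dist (x • o) b}.Finite := by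
  by_contra hinf
  obtain ⟨𝒰, hs, hcof⟩ := ultra_inf hinf
  have H : ∀ b : Z, ∃ x : Γ, b ∈ {b | IsCut (Bd Γ o) b ∧ ∃ x ∈ Wst C (Bd Γ o) ξ b,
      ε ≤ dist (x • o) b} → x ∈ Wst C (Bd Γ o) ξ b ∧ ε ≤ dist (x • o) b := by
    intro b
    by_cases hb : ∃ x ∈ Wst C (Bd Γ o) ξ b, ε ≤ dist (x • o) b
    · obtain ⟨x, hx⟩ := hb
      exact ⟨x, fun _ => hx⟩
    · exact ⟨1, fun h => (hb h.2).elim⟩
  choose x hx using H
  have hF : ∀ᶠ b in (𝒰 : Filter Z),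
      (x b)⁻¹ • b ∈ {b | IsCut (Bd Γ o) b ∧ (1 : Γ) ∈ Wst C (Bd Γ o) ξ b} := by
    filter_upwards [hs] with b hb
    refine ⟨hb.1.smul smul_Bd _, ?_⟩
    rw [Wst_smul]
    exact ⟨x b, (hx b hb).1, by simp⟩
  rcases ultra_dich 𝒰 (fun b => (x b)⁻¹ • b) with h1 | ⟨b₀, h1⟩
  · obtain ⟨b, hb, hb'⟩ := (hF.and (h1.eventually (h.Wst_fin hy hl 1).compl_mem_cofinite)).exists
    exact hb' hb
  have hb₀ : IsCut (Bd Γ o) b₀ := by
    obtain ⟨b, hb, hb'⟩ := (hF.and h1).exists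
    exact hb' ▸ hb.1
  have h2 : ∀ᶠ b in (𝒰 : Filter Z), b = x b • b₀ := by
    filter_upwards [h1] with b hb
    rw [← hb, smul_inv_smul]
  rcases ultra_dich 𝒰 x with hg | ⟨a, ha⟩
  swap
  · have h3 : ∀ᶠ b in (𝒰 : Filter Z), b ≠ a • b₀ := hcof (finite_singleton (a • b₀)).compl_mem_cofinite
    obtain ⟨b, ⟨hb1, hb2⟩, hb3⟩ := ((h2.and ha).and h3).exists
    exact hb3 (hb2 ▸ hb1)
  obtain ⟨t, ht⟩ := ultra_lim 𝒰 fun b => x b • o
  obtain ⟨y, hy'⟩ := ultra_lim 𝒰 fun b : Z => b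
  obtain ⟨c, hc⟩ := ultra_lim 𝒰 fun b => (x b)⁻¹ • o
  have hy2 : Tendsto (fun b => x b • b₀) 𝒰 (𝓝 y) := hy'.congr' h2
  have hd : ε ≤ dist t y := by
    refine ge_of_tendsto (ht.dist hy') ?_
    filter_upwards [hs] with b hb using (hx b hb).2
  have e : y = t := by
    by_cases hbc : b₀ = c
    · subst hbc
      exact h.not_conical (h.par hy hl hb₀).1 (h.par hy hl hb₀).2 𝒰 hg ht hc hy2
    · exact tendsto_nhds_unique hy2 (h.conv hg ht hc tendsto_const_nhds hbc)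
  rw [e, dist_self] at hd
  exact absurd hε (not_lt.2 hd)

theorem null (h : Cv C o) (hy : C.Hyp r) (hl : LF C o ξ) {ε : ℝ} (hε : 0 < ε) :
    {Q | ∃ b, IsQ (Bd Γ o) b Q ∧ ∃ x ∈ C.W (St ξ Q), ε ≤ dist (x • o) b}.Finite := by
  have H : ∀ b ∈ {b | IsCut (Bd Γ o) b ∧ ∃ x ∈ Wst C (Bd Γ o) ξ b, ε ≤ dist (x • o) b},
      (⋃ x ∈ {x | x ∈ Wst C (Bd Γ o) ξ b ∧ x • o ∈ {z | ε ≤ dist z b}},
        {Q | (∃ b, IsQ (Bd Γ o) b Q) ∧ x ∈ C.W (St ξ Q)}).Finite := by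
    intro b hb
    refine (h.finite_of_disjoint (isClosed_le continuous_const (by fun_prop)) ?_).biUnion
      fun x _ => hl.fin x
    refine disjoint_left.2 fun z hz hz' => ?_
    obtain rfl : z = b := h.Lam_Wst hy hl hb.1 hz
    have : ε ≤ dist z z := hz'
    rw [dist_self] at this
    exact absurd hε (not_lt.2 this)
  refine ((h.null_cut hy hl hε).biUnion H).subset ?_
  rintro Q ⟨b, hQ, x, hx, hd⟩
  have hW : x ∈ Wst C (Bd Γ o) ξ b := Or.inr ⟨Q, hQ, hx⟩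
  exact mem_biUnion (x := b) ⟨hQ.1, x, hW, hd⟩ (mem_biUnion (x := x) ⟨hW, hd⟩ ⟨⟨b, hQ⟩, hx⟩)

theorem null_side (h : Cv C o) {ε : ℝ} (hε : 0 < ε) {U : Set Γ} {p q y : Z} {x : Γ}
    (hp : p ∈ Bd Γ o) (hn : p ∉ Lam o Uᶜ) (hpq : dist p q < ε / 32) (hx : dist (x • o) q < ε / 16)
    (hq : ε ≤ dist q y) (hW : ∀ w ∈ C.W U, dist (w • o) y < ε / 2) : x ∈ U := by
  obtain ⟨η, hη, hU⟩ := h.away hp hn
  obtain ⟨x', hx'⟩ := h.exists_near p (η := min η (ε / 32)) (by positivity)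
  have h1 : x' ∈ U := by
    by_contra hc
    exact absurd (hx'.trans_le (min_le_left _ _)) (not_lt.2 (hU x' hc))
  have h2 : dist (x' • o) q < ε / 4 / 4 := by
    linarith [dist_triangle (x' • o) p q, hx'.trans_le (min_le_right _ _)]
  refine ((h.joined (η := ε / 4) (by linarith) h2).same (disjoint_left.2 fun w hw hw' => ?_)).2 h1
  have h3 : dist (w • o) q < ε / 4 := hw
  linarith [dist_triangle_left q y (w • o), hW w hw']

theorem small (h : Cv C o) (hy : C.Hyp r) (hl : LF C o ξ) {ε : ℝ} (hε : 0 < ε) :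
    {Q | ∃ b, IsQ (Bd Γ o) b Q ∧ (∃ y ∈ Q, ε ≤ dist y b) ∧
      ∃ y ∈ Bd Γ o \ Q, ε ≤ dist y b}.Finite := by
  by_contra hinf
  obtain ⟨𝒰, hs, hcof⟩ := ultra_inf hinf
  have H : ∀ Q : Set Z, ∃ b q q' : Z, Q ∈ {Q | ∃ b, IsQ (Bd Γ o) b Q ∧ (∃ y ∈ Q, ε ≤ dist y b) ∧
      ∃ y ∈ Bd Γ o \ Q, ε ≤ dist y b} → IsQ (Bd Γ o) b Q ∧ (q ∈ Q ∧ ε ≤ dist q b) ∧
        q' ∈ Bd Γ o \ Q ∧ ε ≤ dist q' b := by
    intro Q
    by_cases hQ : ∃ b, IsQ (Bd Γ o) b Q ∧ (∃ y ∈ Q, ε ≤ dist y b) ∧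
      ∃ y ∈ Bd Γ o \ Q, ε ≤ dist y b
    · obtain ⟨b, h1, ⟨q, h2⟩, q', h3⟩ := hQ
      exact ⟨b, q, q', fun _ => ⟨h1, h2, h3⟩⟩
    · exact ⟨o, o, o, fun h => (hQ h).elim⟩
  choose b q q' hb using H
  obtain ⟨y, hy'⟩ := ultra_lim 𝒰 b
  obtain ⟨q₀, hq⟩ := ultra_lim 𝒰 q
  obtain ⟨q₁, hq'⟩ := ultra_lim 𝒰 q'
  have hd₀ : ε ≤ dist q₀ y := by
    refine ge_of_tendsto (hq.dist hy') ?_
    filter_upwards [hs] with Q hQ using (hb Q hQ).2.1.2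
  have hd₁ : ε ≤ dist q₁ y := by
    refine ge_of_tendsto (hq'.dist hy') ?_
    filter_upwards [hs] with Q hQ using (hb Q hQ).2.2.2
  obtain ⟨x₀, hx₀⟩ := h.exists_near q₀ (η := ε / 16) (by positivity)
  obtain ⟨x₁, hx₁⟩ := h.exists_near q₁ (η := ε / 16) (by positivity)
  obtain ⟨P, -, hPf, -, -, hP⟩ :=
    (C.conn_univ x₀ (mem_univ _) x₁ (mem_univ _)).exists_finite (mem_univ _)
  have e1 := hcof (h.null hy hl (ε := ε / 4) (by positivity)).compl_mem_cofinite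
  have e2 := hcof (hPf.biUnion fun x _ => hl.fin x).compl_mem_cofinite
  have e3 := Metric.tendsto_nhds.1 hy' (ε / 4) (by positivity)
  have e4 := Metric.tendsto_nhds.1 hq (ε / 32) (by positivity)
  have e5 := Metric.tendsto_nhds.1 hq' (ε / 32) (by positivity)
  obtain ⟨Q, hQ, h1, h2, h3, h4, h5⟩ : ∃ Q, _ ∧ _ ∧ _ ∧ _ ∧ _ ∧ _ :=
    (Filter.Eventually.and hs (Filter.Eventually.and e1 (Filter.Eventually.and e2
      (e3.and (e4.and e5))))).exists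
  obtain ⟨hQ1, ⟨hq1, -⟩, hq2, hq3⟩ := hb Q hQ
  have hW : ∀ x ∈ C.W (St ξ Q), dist (x • o) y < ε / 2 := by
    intro x hx
    have : dist (x • o) (b Q) < ε / 4 := not_le.1 fun hle => h1 ⟨b Q, hQ1, x, hx, hle⟩
    linarith [dist_triangle (x • o) (b Q) y]
  have a0 : x₀ ∈ St ξ Q := by
    refine h.null_side hε (hQ1.subset hq1).1 ?_ h4 hx₀ hd₀ hW
    rw [← St_compl hl.mem]
    exact fun hc => (h.isOpenQ hy hl hQ1).not_mem_closure hq1 (h.Lam_St hl.inj _ hc)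
  have a1 : x₁ ∈ (St ξ Q : Set Γ)ᶜ := by
    refine h.null_side hε hq2.1 ?_ h5 hx₁ hd₁ (by rwa [C.W_compl])
    rw [compl_compl]
    intro hc
    rcases closure_minimal (subset_insert _ _) (hQ1.closed h.isClosed_Bd) (h.Lam_St hl.inj _ hc) with
      e | e
    · rw [e, dist_self] at hq3
      exact absurd hε (not_lt.2 hq3)
    · exact hq2.2 e
  exact a1 ((hP.same (disjoint_left.2 fun x hx hx' =>
    h2 (mem_biUnion hx ⟨⟨b Q, hQ1⟩, hx'⟩))).1 a0)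

theorem rays (h : Cv C o) (hy : C.Hyp r) (hl : LF C o ξ) : ∃ D, 1 ≤ D ∧
    ∀ b Q, IsQ (Bd Γ o) b Q → ∀ x ∈ C.W (St ξ Q), {y | C.Ch D (C.W (St ξ Q)) x y}.Infinite := by
  have H : ∀ Q : Set Z, ∃ z : Γ, (∃ b, IsQ (Bd Γ o) b Q) →
      z ∈ C.W (St ξ Q) ∧ {y | C.Ch 1 (C.W (St ξ Q)) z y}.Infinite := by
    intro Q
    by_cases hQ : ∃ b, IsQ (Bd Γ o) b Q
    · obtain ⟨b, hQ⟩ := hQ
      obtain ⟨z, hz⟩ := Cay.ray hy (h.deep_clo hl (h.isOpenQ hy hl hQ) hQ.nonempty hQ.exists_out)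
      exact ⟨z, fun _ => hz⟩
    · exact ⟨1, fun h => (hQ h).elim⟩
  choose z hz using H
  obtain ⟨D, hD⟩ := ((hl.fin 1).image fun Q => C.len (z Q)).bddAbove
  refine ⟨max 1 D, le_max_left _ _, fun b Q hQ x hx => ?_⟩
  have hQ₀ : IsQ (Bd Γ o) (x⁻¹ • b) (x⁻¹ • Q) := hQ.smul smul_Bd _
  have e : C.W (St ξ (x⁻¹ • Q)) = x⁻¹ • C.W (St ξ Q) := by rw [St_smul, C.W_smul]
  have h1 : (1 : Γ) ∈ C.W (St ξ (x⁻¹ • Q)) := by
    rw [e]; exact ⟨x, hx, by simp⟩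
  obtain ⟨h2, h3⟩ := hz _ ⟨_, hQ₀⟩
  have h4 : C.len (z (x⁻¹ • Q)) ≤ D := hD ⟨_, ⟨⟨_, hQ₀⟩, h1⟩, rfl⟩
  have e' : x • C.W (St ξ (x⁻¹ • Q)) = C.W (St ξ Q) := by rw [e, smul_inv_smul]
  refine (h3.image (mul_right_injective x).injOn).mono ?_
  rintro _ ⟨y, hy', rfl⟩
  have h5 := Cay.Ch.smul hy' x
  rw [e'] at h5
  refine Relation.ReflTransGen.head ⟨hx, ?_, ?_⟩ (h5.mono (le_max_left _ _) subset_rfl)
  · rw [← e']; exact smul_mem_smul_set h2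
  · rw [C.d_mul_right]; exact h4.trans (le_max_right _ _)

theorem exists_tame (h : Cv C o) (hy : C.Hyp r) (hn : (Bd Γ o).Nontrivial) :
    ∃ (ξ : Fin 3 → Z) (D : ℕ), Tame C o ξ D := by
  obtain ⟨ξ, hl⟩ := h.exists_LF hy hn
  obtain ⟨D, hD, hr⟩ := h.rays hy hl
  refine ⟨ξ, D, hl, hD, fun b Q hQ => h.isOpenQ hy hl hQ, h.cut_countable hy hl, fun b Q hQ => ?_,
    fun ε hε => h.null hy hl hε, fun ε hε => h.small hy hl hε, hr⟩
  exact (Lam_mono fun x hx => Or.inr ⟨Q, hQ, hx⟩).trans (h.Lam_Wst hy hl hQ.1)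

end Cv

end Crest.Agent.R224
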