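import Crest.Agent.R224.Unif
import Crest.Agent.R224.Chain
import Crest.Agent.R224.Null
import Crest.Agent.R224.Blk2

/-! R224, task Lim: a block has no weak cut point.

`limit`: let `H' = {y | ∀ᶠ J in 𝒰, y ∈ H J}`.  For `y ∈ L`, `y ≠ p'`, take `j` with `4 / (j + 1) < dist y p'` and
`δ ≤ 1 / (j + 1)` such that no `x` with `len x < ρ j` has `dist (x • o) y < δ` (`away`, `Lam_finite`).  For
`𝒰`-most `J` (`j ≤ J`, `dist (p J) p' < 1 / (j + 1)`) the hypotheses of `unif` hold for `H J`, so `H J` is constant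
on `L ∩ ball y δ₃`; hence `LocC L H' y`.  Apply `cut_blk`.

`no_ws`: choose `Hn n` for `ε = 1 / (n + 1)`, `F n = FL L (Hn n)`.  Case A: for every `J` there is `n ≥ J` with
`dist (x • o) p < 1 / (J + 1)` on `F n`; apply `limit` with constant `p`, `ρ = 0`, `ζ = z`, `ζ' = z'`.  Case B:
there is `J₀` such that every `F n`, `n ≥ J₀`, has a point `x₀` with `ε₀ = 1 / (J₀ + 1) ≤ dist (x₀ • o) p`.  For
each `J` take `θ` (`chain`), `η` (`look_small ε₀ θ`), `n ≥ J₀` with `1 / (n + 1) ≤ η`.  The closed set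
`{w | θ ≤ ang x₀ w p}` misses `Lam (F n)` (`Lam_FL`), so `chain` gives `x = x J ∈ F n` with partner `x'`.  Put
`L J = x⁻¹ • L`, `H J = x⁻¹ • Hn n`, `p J = x⁻¹ • p`, `s J = x⁻¹ * x'`.  Along a non-principal ultrafilter
`L J = L'` (`blk_fin`, `VL_smul`, `Blk.smul`) and `s J = s` are constant, `s ∈ VL L'`, `p J → p' ∈ Bd`.  Exactly one of
`1, s` lies in `Lb L' (H J)` (`Lb_smul`), so among the six points `Xi L' o i`, `s • Xi (s⁻¹ • L') o i` of `L'` two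
distinct ones lie in `H J` and two distinct ones do not; the pattern is eventually constant; choose
`ζ, ζ' ≠ p'`.  The hypotheses of `limit` hold for `𝒰`-most `J` (`FL_smul`, `LocC.smul`, `ang`). -/

set_option autoImplicit false
set_option linter.unusedSectionVars false

namespace Crest.Agent.R224

open Set Filter Topology Pointwise

variable {Γ : Type} [Group Γ] {C : Cay Γ} {Z : Type} [MetricSpace Z] [CompactSpace Z]
  [MulAction Γ Z] [ContinuousConstSMul Γ Z] {o : Z} {r D : ℕ} {ξ : Fin 3 → Z} {L : Set Z}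

theorem lim_const {α : Type} (𝒰 : Ultrafilter ℕ) {S : Set α} (hS : S.Finite) (f : ℕ → α)
    (hf : ∀ J, f J ∈ S) : ∃ a ∈ S, ∀ᶠ J in (𝒰 : Filter ℕ), f J = a :=
  (Ultrafilter.eventually_exists_mem_iff hS).1 (Eventually.of_forall fun J => ⟨f J, hf J, rfl⟩)

theorem lim_two (𝒰 : Ultrafilter ℕ) (hL : Blk (Bd Γ o) L) (t : Γ) (G : ℕ → Set Z)
    (hG : ∀ᶠ J in (𝒰 : Filter ℕ), ∃ i j, i ≠ j ∧ t • Xi (t⁻¹ • L) o i ∈ G J ∧ t • Xi (t⁻¹ • L) o j ∈ G J)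
    (q : Z) : ∃ ζ ∈ L, ζ ≠ q ∧ ∀ᶠ J in (𝒰 : Filter ℕ), ζ ∈ G J := by
  obtain ⟨hi, hm⟩ := (hL.smul smul_Bd t⁻¹).Xi_spec o
  have hm' : ∀ i, t • Xi (t⁻¹ • L) o i ∈ L := fun i => by
    have := hm i
    rwa [mem_inv_smul_set_iff] at this
  obtain ⟨i, hG⟩ := Ultrafilter.eventually_exists_iff.1 hG
  obtain ⟨j, hG⟩ := Ultrafilter.eventually_exists_iff.1 hG
  obtain ⟨J, hij, -⟩ := hG.exists
  by_cases e : t • Xi (t⁻¹ • L) o i = q
  · refine ⟨_, hm' j, fun e' => hij (hi (MulAction.injective t (e.trans e'.symm))), hG.mono fun J hJ => hJ.2.2⟩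
  · exact ⟨_, hm' i, e, hG.mono fun J hJ => hJ.2.1⟩

namespace Cv

theorem limit (h : Cv C o) (h2 : C.H2) (ht : Tame C o ξ D) (hL : Blk (Bd Γ o) L)
    (𝒰 : Ultrafilter ℕ) (h𝒰 : (𝒰 : Filter ℕ) ≤ atTop) {p : ℕ → Z} {p' : Z} (hp' : p' ∈ Bd Γ o)
    (hp : Tendsto p 𝒰 (𝓝 p')) {H : ℕ → Set Z} {ρ : ℕ → ℕ}
    (ha : ∀ᶠ J : ℕ in (𝒰 : Filter ℕ), ∀ y ∈ L, 1 / ((J : ℝ) + 1) ≤ dist y (p J) → LocC L (H J) y)
    (hb : ∀ᶠ J : ℕ in (𝒰 : Filter ℕ), ∀ j ≤ J, ∀ x ∈ FL C o ξ D L (H J), ρ j ≤ C.len x →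
      dist (x • o) (p J) < 1 / ((j : ℝ) + 1))
    {ζ ζ' : Z} (h1 : ζ ∈ L) (h1' : ζ' ∈ L) (h3 : ζ ≠ p') (h3' : ζ' ≠ p')
    (h4 : ∀ᶠ J in (𝒰 : Filter ℕ), ζ ∈ H J ∧ ζ' ∉ H J) : False := by
  refine h.cut_blk h2 ht hL hp' (H := {y | ∀ᶠ J in (𝒰 : Filter ℕ), y ∈ H J}) (fun y hy hne => ?_) h1 h1' h3 h3'
    (h4.mono fun J hJ => hJ.1) fun h5 => ?_
  swap
  · obtain ⟨J, hJ, hJ'⟩ := (h4.and h5).exists
    exact hJ.2 hJ'
  have hd : 0 < dist y p' / 4 := div_pos (dist_pos.2 hne) (by norm_num)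
  obtain ⟨j, hj⟩ := exists_nat_one_div_lt hd
  have hj0 : (0 : ℝ) < 1 / ((j : ℝ) + 1) := Nat.one_div_pos_of_nat
  obtain ⟨η, hη, haw⟩ := h.away (A := {x | C.len x ≤ ρ j}) (hL.sub hy)
    (by rw [Lam_finite (C.fin _)]; exact notMem_empty _)
  obtain ⟨δ₃, hδ₃, hu⟩ := h.unif h2 ht hL hy (lt_min hη hj0)
  have hJ : ∀ᶠ J : ℕ in (𝒰 : Filter ℕ), j ≤ J := h𝒰 (eventually_ge_atTop j)
  have hpJ : ∀ᶠ J : ℕ in (𝒰 : Filter ℕ), dist (p J) p' < 1 / ((j : ℝ) + 1) :=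
    Metric.tendsto_nhds.1 hp _ hj0
  have key : ∀ᶠ J : ℕ in (𝒰 : Filter ℕ), ∀ y' ∈ L, dist y' y < δ₃ → (y' ∈ H J ↔ y ∈ H J) := by
    filter_upwards [ha, hb, hJ, hpJ] with J haJ hbJ hJ hpJ
    refine hu (H J) (fun x hx => ?_) fun y' hy' hd' => haJ y' hy' ?_
    · rcases le_total (C.len x) (ρ j) with hx' | hx'
      · exact (min_le_left _ _).trans (haw x hx')
      · have e1 := hbJ j hJ x hx hx'
        have e2 := dist_triangle4 y (x • o) (p J) p'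
        rw [dist_comm y (x • o)] at e2
        refine (min_le_right _ _).trans ?_
        linarith
    · have e1 := Nat.one_div_le_one_div (α := ℝ) hJ
      have e2 := dist_triangle4 y y' (p J) p'
      have e3 := hd'.trans_le (min_le_right _ _)
      rw [dist_comm y y'] at e2
      linarith
  exact LocC.iff_dist.2 ⟨δ₃, hδ₃, fun y' hy' hd' => eventually_congr (key.mono fun J hJ => hJ y' hy' hd')⟩

theorem no_ws (h : Cv C o) (h2 : C.H2) (ht : Tame C o ξ D) (hL : Blk (Bd Γ o) L) {p z z' : Z}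
    (hp : p ∈ L) (hz : z ∈ L) (hz' : z' ∈ L) (hw : WS L p z z') : False := by
  obtain ⟨hpz, hpz', hH⟩ := hw
  choose Hn hn1 hn2 hn3 using fun n : ℕ => hH (1 / ((n : ℝ) + 1)) Nat.one_div_pos_of_nat
  let 𝒰 : Ultrafilter ℕ := Ultrafilter.of atTop
  have h𝒰 : (𝒰 : Filter ℕ) ≤ atTop := Ultrafilter.of_le _
  by_cases hA : ∀ J : ℕ, ∃ n, J ≤ n ∧ ∀ x ∈ FL C o ξ D L (Hn n), dist (x • o) p < 1 / ((J : ℝ) + 1)
  · choose n hn hn' using hA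
    refine h.limit h2 ht hL 𝒰 h𝒰 (p := fun _ => p) (hL.sub hp) tendsto_const_nhds (H := fun J => Hn (n J))
      (ρ := fun _ => 0) (Eventually.of_forall fun J y hy hd => hn3 _ y hy ?_)
      (Eventually.of_forall fun J j hj x hx _ => ?_) hz hz' hpz.symm hpz'.symm
      (Eventually.of_forall fun J => ⟨hn1 _, hn2 _⟩)
    · exact (Nat.one_div_le_one_div (hn J)).trans hd
    · exact (hn' J x hx).trans_le (Nat.one_div_le_one_div hj)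
  push Not at hA
  obtain ⟨J₀, hJ₀⟩ := hA
  obtain ⟨ρ, hρ⟩ := h.chain
  have key : ∀ J : ℕ, ∃ (L' H' : Set Z) (p' : Z), Blk (Bd Γ o) L' ∧ p' ∈ Bd Γ o ∧
      (1 : Γ) ∈ FL C o ξ D L' H' ∧ (∀ w ∈ L', 1 / ((J : ℝ) + 1) ≤ dist w p' → LocC L' H' w) ∧
      ∀ j ≤ J, ∀ y ∈ FL C o ξ D L' H', ρ j ≤ C.len y → dist (y • o) p' < 1 / ((j : ℝ) + 1) := by
    intro J
    obtain ⟨θ, hθ, hc⟩ := hρ J
    obtain ⟨η, hη, hl⟩ := h.look_small (ε₀ := 1 / ((J₀ : ℝ) + 1)) Nat.one_div_pos_of_nat hθ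
    obtain ⟨m, hm⟩ := exists_nat_one_div_lt hη
    have hn : 1 / (((max J₀ m : ℕ) : ℝ) + 1) ≤ η := (Nat.one_div_le_one_div (le_max_right _ _)).trans hm.le
    obtain ⟨x₀, hx₀, hx₀'⟩ := hJ₀ (max J₀ m) (le_max_left _ _)
    have hloc : ∀ w ∈ L, θ ≤ ang x₀ w p → LocC L (Hn (max J₀ m)) w := fun w hw hθw =>
      hn3 _ w hw (hn.trans (not_lt.1 fun hlt => (hl x₀ p w hx₀' hlt.le).not_ge hθw))
    have hK : IsClosed {w : Z | θ ≤ ang x₀ w p} :=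
      isClosed_le continuous_const ((continuous_const_smul x₀⁻¹).dist continuous_const)
    have hfin := h.finite_of_disjoint (A := FL C o ξ D L (Hn (max J₀ m))) hK
      (disjoint_left.2 fun w hw hw' => (h.Lam_FL h2 ht hL _ hw).2 (hloc w (h.Lam_FL h2 ht hL _ hw).1 hw'))
    obtain ⟨x, hx, hx1, hx2⟩ := hc p _ x₀ hx₀ hfin
    refine ⟨x⁻¹ • L, x⁻¹ • Hn (max J₀ m), x⁻¹ • p, hL.smul smul_Bd _, smul_mem_Bd.2 (hL.sub hp), ?_, ?_, ?_⟩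
    · rw [FL_smul]
      exact ⟨x, hx, inv_mul_cancel x⟩
    · rintro _ ⟨w, hw, rfl⟩ hd
      exact (hloc w hw (hx2 w hd)).smul x⁻¹
    · intro j hj y hy hρy
      rw [FL_smul] at hy
      obtain ⟨y, hy, rfl⟩ := hy
      have := hx1 j hj y hy hρy
      rwa [ang, ← mul_smul] at this
  choose L' H' p' k1 k2 k3 k4 k5 using key
  choose s ks1 ks2 ks3 using fun J => (k3 J).2
  obtain ⟨L₀, hL₀, hE1⟩ := lim_const 𝒰 (h.blk_fin h2 ht 1) L' fun J => ⟨k1 J, (k3 J).1⟩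
  obtain ⟨s₀, -, hE2⟩ := lim_const 𝒰 (C.finite_ball 1 D) s ks2
  obtain ⟨q, hq⟩ := ultra_lim 𝒰 p'
  have hqB : q ∈ Bd Γ o := h.isClosed_Bd.mem_of_tendsto hq (Eventually.of_forall k2)
  have hE3 : ∀ᶠ J in (𝒰 : Filter ℕ), ¬((1 : Γ) ∈ Lb o L₀ (H' J) ↔ s₀ ∈ Lb o L₀ (H' J)) := by
    filter_upwards [hE1, hE2] with J e1 e2
    rw [← e1, ← e2]
    exact ks3 J
  obtain ⟨t, t', ht1, ht2⟩ : ∃ t t' : Γ, (∀ᶠ J in (𝒰 : Filter ℕ), t ∈ Lb o L₀ (H' J)) ∧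
      ∀ᶠ J in (𝒰 : Filter ℕ), t' ∉ Lb o L₀ (H' J) := by
    rcases 𝒰.em fun J => (1 : Γ) ∈ Lb o L₀ (H' J) with e | e
    · exact ⟨1, s₀, e, (hE3.and e).mono fun J hJ => by tauto⟩
    · exact ⟨s₀, 1, (hE3.and e).mono fun J hJ => by tauto, e⟩
  obtain ⟨ζ, z1, z2, z3⟩ := lim_two 𝒰 hL₀.1 t H' ht1 q
  obtain ⟨ζ', z1', z2', z3'⟩ := lim_two 𝒰 hL₀.1 t' (fun J => (H' J)ᶜ) (ht2.mono fun J hJ => not_mem_St hJ) q
  refine h.limit h2 ht hL₀.1 𝒰 h𝒰 hqB hq (H := H') (ρ := ρ) ?_ ?_ z1 z1' z2 z2' (z3.and z3')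
  · filter_upwards [hE1] with J e1
    rw [← e1]
    exact k4 J
  · filter_upwards [hE1] with J e1
    rw [← e1]
    exact k5 J

/-- A weak cut point separates two different points. -/
theorem nontrivial_of_WC {Y : Set Z} (hw : WC Y) : Y.Nontrivial := by
  obtain ⟨z, hz, z', hz', hc⟩ := hw
  by_contra hn
  refine hc ?_
  have : {p | p ∈ Y ∧ WS Y p z z'} = ∅ := by
    refine eq_empty_of_forall_notMem fun p hp => hn ⟨p, hp.1, z, hz, hp.2.1⟩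
  rw [this]
  exact countable_empty

/-- Part C. -/
theorem not_WC (h : Cv C o) (hy : C.Hyp r) : ¬WC (Bd Γ o) := fun hw => by
  obtain ⟨ξ, D, ht⟩ := h.exists_tame hy (nontrivial_of_WC hw)
  obtain ⟨L, p, z, z', hL, hp, hz, hz', hs⟩ := h.exists_blk hy.h2 ht hw
  exact h.no_ws hy.h2 ht hL hp hz hz' hs

end Cv

end Crest.Agent.R224
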