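import Crest.Agent.R224.TDefs
import Crest.Prelude.Def_ClassifyingComplex
import Crest.Prelude.Def_DeckCochains

/-! R224, task TDeck: the fundamental group acts on the contractible cover.

`E` is simply connected, locally path connected (locally homeomorphic to `M`) and Hausdorff
(`IsCoveringMap.isSeparatedMap`).  Let `G` be the group of homeomorphisms `φ` of `E` with `p ∘ φ = p` (a `Subgroup`
of `E ≃ₜ E`; `Crest.Topology.deckGroup` in `Prelude/Def_DeckCochains` may be used).  It is transitive on fibres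
(`IsCoveringMap.existsUnique_continuousMap_lifts` gives maps in both directions, inverse to each other by
uniqueness, `IsCoveringMap.eq_of_comp_eq`) and acts freely; so `IsQuotientCoveringMap p G`
(`isQuotientCoveringMap_iff_isCoveringMap_and`), and `IsQuotientCoveringMap.fundamentalGroupEquiv` gives
`FundamentalGroup M x ≃* Gᵐᵒᵖ`; compose with `MulEquiv.inv'` and use `MulAction.compHom`.
`proper`: any two points `e, e'` have neighbourhoods `N, N'` with `g • N ∩ N' ≠ ∅` for at most one `g` (same fibre: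
translate the neighbourhood of `IsQuotientCoveringMap.disjoint`; different fibres: preimages of disjoint open sets);
cover `K ×ˢ K` by finitely many `N ×ˢ N'`.  `cc`: the images of the interiors of compact neighbourhoods cover the
compact space `M` (`p` is open).  `loc`: compose a local homeomorphism with a chart. -/

set_option autoImplicit false

namespace Crest.Agent.R224

open Set Topology Crest.Topology

section aux

open Crest.GeometryTopology.DeckCochains Pointwise

variable {E M : Type} [TopologicalSpace E] [TopologicalSpace M] {p : E → M}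

theorem tdk_t2 [T2Space M] (hp : IsCoveringMap p) : T2Space E := by
  refine ⟨fun a b hab => ?_⟩
  by_cases h : p a = p b
  · exact hp.isSeparatedMap a b h hab
  · obtain ⟨u, v, hu, hv, hau, hbv, huv⟩ := t2_separation h
    exact ⟨p ⁻¹' u, p ⁻¹' v, hu.preimage hp.continuous, hv.preimage hp.continuous, hau, hbv,
      huv.preimage p⟩

theorem tdk_loc [ChartedSpace V4 M] (hp : IsCoveringMap p) : Loc4 E := by
  intro e
  obtain ⟨φ, hφ, h⟩ := hp.isLocalHomeomorph e
  refine ⟨φ.trans (chartAt V4 (p e)), ?_⟩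
  rw [OpenPartialHomeomorph.trans_source]
  refine ⟨hφ, ?_⟩
  rw [mem_preimage, ← h]
  exact mem_chart_source _ _

/-- A locally Euclidean space is a charted space. -/
@[reducible] noncomputable def tdk_chart (h : Loc4 E) : ChartedSpace V4 E where
  atlas := range fun x => (h x).choose
  chartAt x := (h x).choose
  mem_chart_source x := (h x).choose_spec
  chart_mem_atlas x := ⟨x, rfl⟩

theorem tdk_lpc (h : Loc4 E) : LocallyPathConnectedSpace E :=
  letI := tdk_chart h
  ChartedSpace.locallyPathConnectedSpace V4 E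

theorem tdk_lc (h : Loc4 E) : LocallyCompactSpace E :=
  letI := tdk_chart h
  ChartedSpace.locallyCompactSpace V4 E

/-- The deck group acts on the total space. -/
@[reducible] def tdk_act (p : E → M) : MulAction (deckGroup p) E where
  smul g e := g.1 e
  one_smul _ := rfl
  mul_smul _ _ _ := rfl

theorem tdk_trans [SimplyConnectedSpace E] [LocallyPathConnectedSpace E] (hp : IsCoveringMap p)
    {a b : E} (h : p a = p b) : ∃ g : deckGroup p, g.1 b = a := by
  obtain ⟨F, ⟨hF, hF'⟩, -⟩ := hp.existsUnique_continuousMap_lifts ⟨p, hp.continuous⟩ b a h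
  obtain ⟨G, ⟨hG, hG'⟩, -⟩ := hp.existsUnique_continuousMap_lifts ⟨p, hp.continuous⟩ a b h.symm
  have hF2 : ∀ e, p (F e) = p e := fun e => congrFun hF' e
  have hG2 : ∀ e, p (G e) = p e := fun e => congrFun hG' e
  have h1 : (G ∘ F : E → E) = id :=
    hp.eq_of_comp_eq (G.continuous.comp F.continuous) continuous_id
      (funext fun e => (hG2 _).trans (hF2 e)) b (by simp [hF, hG])
  have h2 : (F ∘ G : E → E) = id :=
    hp.eq_of_comp_eq (F.continuous.comp G.continuous) continuous_id
      (funext fun e => (hF2 _).trans (hG2 e)) a (by simp [hF, hG])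
  exact ⟨⟨⟨⟨F, G, fun e => congrFun h1 e, fun e => congrFun h2 e⟩, F.continuous, G.continuous⟩,
    hF2⟩, hF⟩

theorem tdk_quot [SimplyConnectedSpace E] [LocallyPathConnectedSpace E] (hp : IsCoveringMap p)
    (hs : Function.Surjective p) :
    letI := tdk_act p
    IsQuotientCoveringMap p (deckGroup p) := by
  let := tdk_act p
  refine (isQuotientCoveringMap_iff_isCoveringMap_and p (deckGroup p)).2
    ⟨hp, hs, ⟨fun g => g.1.continuous⟩, ?_, fun {a b} => ⟨fun h => tdk_trans hp h, ?_⟩⟩
  · refine { right_cancel' := fun g g' e h => ?_ }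
    have : (g.1 : E → E) = g'.1 :=
      hp.eq_of_comp_eq g.1.continuous g'.1.continuous
        (funext fun x => (g.2 x).trans (g'.2 x).symm) e h
    exact Subtype.ext (Homeomorph.ext fun x => congrFun this x)
  · rintro ⟨g, rfl⟩
    exact g.2 b

variable {G : Type} [Group G] [MulAction G E]

theorem tdk_transfer {Γ : Type} [Group Γ] (θ : Γ ≃* G) (h : IsQuotientCoveringMap p G) :
    letI := MulAction.compHom E θ.toMonoidHom
    IsQuotientCoveringMap p Γ := by
  let := MulAction.compHom E θ.toMonoidHom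
  refine { toIsQuotientMap := h.toIsQuotientMap
           continuous_const_smul := fun g => h.continuous_const_smul (θ g)
           apply_eq_iff_mem_orbit := fun {a b} => h.apply_eq_iff_mem_orbit.trans ⟨?_, ?_⟩
           disjoint := fun e => ?_ }
  · rintro ⟨g, rfl⟩
    refine ⟨θ.symm g, ?_⟩
    show θ (θ.symm g) • b = g • b
    rw [θ.apply_symm_apply]
  · rintro ⟨g, rfl⟩
    exact ⟨θ g, rfl⟩
  · obtain ⟨U, hU, hU'⟩ := h.disjoint e
    exact ⟨U, hU, fun g hg => θ.injective ((hU' (θ g) hg).trans (map_one θ).symm)⟩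

theorem tdk_pair [T2Space M] (h : IsQuotientCoveringMap p G) (a b : E) :
    ∃ N ∈ nhds a, ∃ N' ∈ nhds b, {g : G | (g • N ∩ N').Nonempty}.Finite := by
  have := h.toContinuousConstSMul
  by_cases hab : p b = p a
  · obtain ⟨g₀, rfl⟩ := h.apply_eq_iff_mem_orbit.1 hab
    obtain ⟨U, hU, hU'⟩ := h.disjoint a
    refine ⟨U, hU, g₀ • U, smul_mem_nhds_smul g₀ hU, (finite_singleton g₀).subset ?_⟩
    rintro g ⟨_, ⟨u, hu, rfl⟩, v, hv, huv⟩
    have h1 : g₀⁻¹ * g = 1 := by
      refine hU' _ ⟨v, ⟨u, hu, ?_⟩, hv⟩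
      have huv' : g₀ • v = g • u := huv
      show (g₀⁻¹ * g) • u = v
      rw [mul_smul, ← huv', inv_smul_smul]
    exact (inv_mul_eq_one.1 h1).symm
  · obtain ⟨u, v, hu, hv, hau, hbv, huv⟩ := t2_separation hab
    have hc := h.isCoveringMap.continuous
    refine ⟨p ⁻¹' v, (hv.preimage hc).mem_nhds hbv, p ⁻¹' u, (hu.preimage hc).mem_nhds hau,
      finite_empty.subset ?_⟩
    rintro g ⟨_, ⟨x, hx, rfl⟩, hx'⟩
    have h1 : p (g • x) ∈ u := hx'
    rw [h.map_smul] at h1
    exact (Set.disjoint_left.1 huv h1 hx).elim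

theorem tdk_proper [T2Space M] (h : IsQuotientCoveringMap p G) {K : Set E} (hK : IsCompact K) :
    {g : G | (g • K ∩ K).Nonempty}.Finite := by
  choose N hN N' hN' hfin using tdk_pair h
  obtain ⟨t, -, ht⟩ := (hK.prod hK).elim_nhds_subcover (fun q => N q.1 q.2 ×ˢ N' q.1 q.2)
    fun q _ => prod_mem_nhds (hN q.1 q.2) (hN' q.1 q.2)
  refine (t.finite_toSet.biUnion fun q _ => hfin q.1 q.2).subset ?_
  rintro g ⟨_, ⟨x, hx, rfl⟩, hx'⟩
  obtain ⟨q, hq, hq'⟩ := mem_iUnion₂.1 (ht (mk_mem_prod hx hx'))
  exact mem_iUnion₂.2 ⟨q, hq, _, ⟨x, hq'.1, rfl⟩, hq'.2⟩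

theorem tdk_cc [CompactSpace M] [LocallyCompactSpace E] (h : IsQuotientCoveringMap p G) :
    ∃ L : Set E, IsCompact L ∧ ∀ e : E, ∃ g : G, g⁻¹ • e ∈ interior L := by
  choose K hK hK' using fun e : E => exists_compact_mem_nhds e
  obtain ⟨t, ht⟩ := isCompact_univ.elim_finite_subcover (fun e => p '' interior (K e))
    (fun e => h.isCoveringMap.isOpenMap _ isOpen_interior) fun y _ => by
      obtain ⟨e, rfl⟩ := h.surjective y
      exact mem_iUnion.2 ⟨e, e, mem_interior_iff_mem_nhds.2 (hK' e), rfl⟩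
  refine ⟨⋃ e ∈ t, K e, t.isCompact_biUnion fun e _ => hK e, fun e => ?_⟩
  obtain ⟨a, ha, b, hb, hbe⟩ := mem_iUnion₂.1 (ht (mem_univ (p e)))
  obtain ⟨g, hg⟩ := h.apply_eq_iff_mem_orbit.1 hbe.symm
  refine ⟨g, ?_⟩
  have hg' : g • b = e := hg
  rw [← hg', inv_smul_smul]
  exact interior_mono (subset_biUnion_of_mem (u := K) ha) hb

end aux

theorem deck (M : Type) [TopologicalSpace M] [T2Space M] [CompactSpace M]
    [ChartedSpace (EuclideanSpace ℝ (Fin 4)) M] (hM : HasContractibleCover M) (x : M) :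
    ∃ (E : Type) (_ : TopologicalSpace E) (_ : MulAction (FundamentalGroup M x) E),
      Act (FundamentalGroup M x) E := by
  obtain ⟨E, _, p, hE, hp, hs⟩ := hM
  have hl : Loc4 E := tdk_loc hp
  have := tdk_lpc hl
  have := tdk_lc hl
  let := tdk_act p
  have hq := tdk_quot hp hs
  obtain ⟨e, he⟩ := hs x
  let θ := (hq.fundamentalGroupEquiv ⟨e, he⟩).trans (MulEquiv.inv' _).symm
  let := MulAction.compHom E θ.toMonoidHom
  have hq' := tdk_transfer θ hq
  exact ⟨E, inferInstance, inferInstance, tdk_t2 hp, hE, hq'.toContinuousConstSMul, hl,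
    fun K hK => tdk_proper hq' hK, tdk_cc hq'⟩

end Crest.Agent.R224
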