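import Crest.Agent.R224.TCo

/-! R224, task TH: from chains to the cochain hypotheses.

`cob_of_bds`: `pair_vb` and `vdual`.  Translate between functions of two or three variables and functions on
tuples (`fun v => c (v 0) (v 1)`, `Fin.sum_univ_succ`, `![x, y]`).
`h2_of`: let `K = N r' (W U)`; for `x, y ∉ K'` the chain `single ![x] 1 + single ![y] 1` is a cycle, and `1_U` is a
cocycle on pairs at scale `r'` outside `K` (`mem_N_W`); so `U` is constant outside `K'`.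
`h3_of`: `ω = δα` at scale `r₁`; let `K` be the finite set of `ω`; `α` is a cocycle on triples at scale `r₁` outside
`K`, so `α = δφ` on edges outside `K'`.  `β x y = α x y + φ x + φ y` if `d x y ≤ 1`, else `0`; its support lies in
`N 1 K'`. -/

set_option autoImplicit false
set_option linter.unusedSectionVars false

namespace Crest.Agent.R224

open Set Finsupp Topology Crest.Agent.R251

variable {Γ : Type} [Group Γ] {C : Cay Γ}

theorem cob_of_bds {p r r' : ℕ} {K' K : Set Γ} (h : C.Bds p r r' K' K)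
    (φ : (Fin (p + 1) → Γ) → ZMod 2)
    (hφ : ∀ u ∈ C.Tup r' K (p + 2), ∑ i : Fin (p + 2), φ (fun j => u (i.succAbove j)) = 0) :
    ∃ ψ : (Fin p → Γ) → ZMod 2, ∀ v ∈ C.Tup r K' (p + 1),
      φ v = ∑ i : Fin (p + 1), ψ (fun j => v (i.succAbove j)) := by
  refine vdual _ φ fun c hc h0 => ?_
  obtain ⟨e, he, rfl⟩ := h c hc h0
  exact pair_vb φ hφ he

theorem cob0 {r r' : ℕ} {K' K : Set Γ} (h : C.Bds 0 r r' K' K) (φ : Γ → ZMod 2)
    (hφ : ∀ x y, x ∉ K → y ∉ K → C.d x y ≤ r' → φ y + φ x = 0) :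
    ∃ a : ZMod 2, ∀ x, x ∉ K' → φ x = a := by
  obtain ⟨ψ, hψ⟩ := cob_of_bds h (fun v => φ (v 0)) fun u hu => by
    simpa [Fin.sum_univ_succ] using hφ (u 0) (u 1) (hu.2 0) (hu.2 1) (hu.1 0 1)
  refine ⟨ψ ![], fun x hx => ?_⟩
  have := hψ ![x] ⟨fun i j => by
    fin_cases i; fin_cases j; simp [C.d_self], fun i => by fin_cases i; simpa using hx⟩
  rw [Fin.sum_univ_one] at this
  exact this.trans (congrArg ψ (Subsingleton.elim _ _))

theorem cob1 {r r' : ℕ} {K' K : Set Γ} (h : C.Bds 1 r r' K' K) (c : Γ → Γ → ZMod 2)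
    (hc : ∀ x y z, x ∉ K → y ∉ K → z ∉ K → C.d x y ≤ r' → C.d y z ≤ r' → C.d x z ≤ r' →
      c y z + c x z + c x y = 0) :
    ∃ φ : Γ → ZMod 2, ∀ x y, x ∉ K' → y ∉ K' → C.d x y ≤ r → c x y = φ x + φ y := by
  obtain ⟨ψ, hψ⟩ := cob_of_bds h (fun v => c (v 0) (v 1)) fun u hu => by
    have := hc (u 0) (u 1) (u 2) (hu.2 0) (hu.2 1) (hu.2 2) (hu.1 0 1) (hu.1 1 2) (hu.1 0 2)
    rw [Fin.sum_univ_three]
    exact this
  refine ⟨fun x => ψ ![x], fun x y hx hy hd => ?_⟩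
  have := hψ ![x, y] ⟨fun i j => by
    fin_cases i <;> fin_cases j <;> simp [C.d_self, hd, C.d_comm y x], fun i => by
    fin_cases i <;> simpa⟩
  rw [Fin.sum_univ_two] at this
  rw [add_comm]
  exact this.trans (congrArg₂ (· + ·) (congrArg ψ (by ext j; fin_cases j; rfl))
    (congrArg ψ (by ext j; fin_cases j; rfl)))

theorem cob2 {r r' : ℕ} (h : C.Bds 2 r r' ∅ ∅) (ω : Γ → Γ → Γ → ZMod 2) (hω : C.Coc2 r' ω) :
    ∃ α : Γ → Γ → ZMod 2, ∀ x y z, C.d x y ≤ r → C.d y z ≤ r → C.d x z ≤ r →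
      ω x y z = α y z + α x z + α x y := by
  obtain ⟨ψ, hψ⟩ := cob_of_bds h (fun v => ω (v 0) (v 1) (v 2)) fun u hu => by
    have := hω (u 0) (u 1) (u 2) (u 3) (hu.1 0 1) (hu.1 0 2) (hu.1 0 3) (hu.1 1 2) (hu.1 1 3)
      (hu.1 2 3)
    rw [Fin.sum_univ_four]
    exact this
  refine ⟨fun x y => ψ ![x, y], fun x y z h1 h2 h3 => ?_⟩
  have := hψ ![x, y, z] ⟨fun i j => by
    fin_cases i <;> fin_cases j <;>
      simp [C.d_self, h1, h2, h3, C.d_comm y x, C.d_comm z x, C.d_comm z y], fun i => by simp⟩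
  rw [Fin.sum_univ_three] at this
  exact this.trans (congrArg₂ (· + ·) (congrArg₂ (· + ·)
    (congrArg ψ (by ext j; fin_cases j <;> rfl)) (congrArg ψ (by ext j; fin_cases j <;> rfl)))
    (congrArg ψ (by ext j; fin_cases j <;> rfl)))

theorem h1_of {r' : ℕ} (h : C.Bds 1 1 r' ∅ ∅) : C.H1 r' := by
  intro c hc
  obtain ⟨φ, hφ⟩ := cob1 h c fun x y z _ _ _ => hc x y z
  exact ⟨φ, fun x y => hφ x y (notMem_empty _) (notMem_empty _)⟩

theorem h2_of {r r' : ℕ} (h : ∀ K : Set Γ, K.Finite → ∃ K' : Set Γ, K'.Finite ∧ C.Bds 0 r r' K' K) :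
    C.H2 := by
  classical
  intro U hU
  obtain ⟨K', hK', hb⟩ := h _ (C.finite_N r' hU)
  obtain ⟨a, ha⟩ := cob0 hb (fun x => if x ∈ U then 1 else 0) fun x y hx _ hd => by
    have : x ∈ U ↔ y ∈ U := by
      by_contra hn
      exact hx (C.mem_N_W hd hn)
    by_cases hy : y ∈ U <;> simp [this, hy]
    decide
  by_cases h0 : a = 0
  · refine Or.inl (hK'.subset fun x hx => ?_)
    by_contra hn
    have := ha x hn
    simp [hx, h0] at this
  · refine Or.inr (hK'.subset fun x hx => ?_)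
    by_contra hn
    have := ha x hn
    simp only [show x ∉ U from hx, if_false] at this
    exact h0 this.symm

theorem h3_of {r₁ r : ℕ} (h1 : 1 ≤ r₁) (hr : r₁ ≤ r) (h : C.Bds 2 r₁ r ∅ ∅)
    (h' : ∀ K : Set Γ, K.Finite → ∃ K' : Set Γ, K'.Finite ∧ C.Bds 1 1 r₁ K' K) : C.H3 r := by
  rintro ω hω ⟨K, hK, hs⟩
  obtain ⟨α, hα⟩ := cob2 h ω hω
  obtain ⟨K', hK', hb⟩ := h' K hK
  obtain ⟨φ, hφ⟩ := cob1 hb α fun x y z hx _ _ h1 h2 h3 => by
    rw [← hα x y z h1 h2 h3]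
    by_contra hn
    exact hx (hs x y z (h1.trans hr) (h2.trans hr) (h3.trans hr) hn)
  have h2 : ∀ a : ZMod 2, a + a = 0 := by decide
  refine ⟨fun x y => if C.d x y ≤ 1 then α x y + (φ x + φ y) else 0, C.N 1 K', C.finite_N 1 hK',
    fun x y hn => ?_, fun x y z hxy hyz hxz => ?_⟩
  · by_cases hd : C.d x y ≤ 1
    · simp only [hd, if_true] at hn
      by_cases hx : x ∈ K'
      · exact ⟨C.subset_N _ _ hx, x, hx, by rwa [C.d_comm]⟩
      by_cases hy : y ∈ K'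
      · exact ⟨⟨y, hy, hd⟩, C.subset_N _ _ hy⟩
      exact absurd (by rw [hφ x y hx hy hd, h2]) hn
    · simp [hd] at hn
  · simp only [hxy, hyz, hxz, if_true]
    rw [hα x y z (hxy.trans h1) (hyz.trans h1) (hxz.trans h1)]
    linear_combination (exp := 1) -(h2 (φ x)) - h2 (φ y) - h2 (φ z)

/-- Part A. -/
theorem Act.coarse {E : Type} [TopologicalSpace E] [MulAction Γ E] (h : Act Γ E) (C : Cay Γ) :
    (∃ r, 1 ≤ r ∧ C.H1 r) ∧ C.H2 ∧ ∃ r, 1 ≤ r ∧ C.H3 r := by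
  obtain ⟨r₀, -, -, h0⟩ := h.bds C 0 1
  obtain ⟨r₁, hr₁, h1, h1'⟩ := h.bds C 1 1
  obtain ⟨r₂, hr₂, h2, -⟩ := h.bds C 2 r₁
  exact ⟨⟨r₁, hr₁, h1_of h1⟩, h2_of (h0 (by omega)), r₂, hr₁.trans hr₂,
    h3_of hr₁ hr₂ h2 (h1' le_rfl)⟩

end Crest.Agent.R224
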