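import Crest.Agent.R224.ZDefs

/-! R224, task QC1: quasi-components of the complement of a point in a continuum (pure topology).

`LocC.const`: `K ∩ H` is clopen in `K` (`IsPreconnected.constant`/`IsLocallyConstant`, or
`isPreconnected_iff_subset_of_disjoint`).
`Clo.conn`: `insert b S` is closed (a limit `y ≠ b` of points of `S` lies in `S` by `LocC`).  If it is the disjoint
union of closed sets `A ∋ b` and `B ≠ ∅`, then `B` and `A ∪ insert b (Y \ insert b S)` are disjoint closed sets that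
cover `Y`.
`qc_conn`: `insert b (qc Y b z)` is the intersection of the directed family of the compact connected sets
`insert b S` (`Clo Y b S`, `z ∈ S`; the family contains `Y \ {b}` and is closed under intersections).  If it lies in
the union of disjoint open sets `u, v` then so does one `insert b S`
(`IsCompact.elim_directed_family_closed`), which therefore lies in `u` or in `v`
(`isPreconnected_iff_subset_of_disjoint_closed`/`..._of_fully_disjoint_closed` + normality).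
`compl_conn`: `Y \ Q` is the union of `{b}` and the sets `insert b S` with `Clo Y b S`, `z ∉ S`.
`IsQ.closure`: `Q ≠ ∅`, `insert b Q` is closed and preconnected, so `b ∈ closure Q`. -/

set_option autoImplicit false
set_option linter.unusedSectionVars false

namespace Crest.Agent.R224

open Set Filter Topology Pointwise

variable {Z : Type} [MetricSpace Z] [CompactSpace Z] {Y L H S Q K : Set Z} {b b' y z : Z}

theorem LocC.iff_dist : LocC L H y ↔ ∃ η > 0, ∀ y' ∈ L, dist y' y < η → (y' ∈ H ↔ y ∈ H) := by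
  unfold LocC
  rw [eventually_nhdsWithin_iff, Metric.eventually_nhds_iff]
  exact ⟨fun ⟨η, h0, h⟩ => ⟨η, h0, fun y' h1 h2 => h h2 h1⟩,
    fun ⟨η, h0, h⟩ => ⟨η, h0, fun y' h2 h1 => h y' h1 h2⟩⟩

theorem LocC.mono {L' : Set Z} (h : LocC L H y) (hL : L' ⊆ L) : LocC L' H y := by
  exact Filter.Eventually.filter_mono (nhdsWithin_mono y hL) h

theorem LocC.compl (h : LocC L H y) : LocC L Hᶜ y := by
  exact Filter.Eventually.mono h fun y' h' => not_congr h'

theorem LocC.const (hK : IsPreconnected K) (h : ∀ y ∈ K, LocC K H y) {u v : Z} (hu : u ∈ K)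
    (hv : v ∈ K) : u ∈ H ↔ v ∈ H := by
  classical
  have hc : ContinuousOn (fun x => decide (x ∈ H)) K := by
    intro x hx
    have e : (fun x' => decide (x' ∈ H)) =ᶠ[𝓝[K] x] fun _ => decide (x ∈ H) :=
      Filter.Eventually.mono (h x hx) fun x' h' => by simp only [h']
    exact (continuousWithinAt_const.congr_of_eventuallyEq e rfl)
  have := hK.constant hc hu hv
  simpa using this

theorem clo_univ : Clo Y b (Y \ {b}) := by
  refine ⟨subset_rfl, fun y hy hb => ?_⟩
  have h1 : ∀ᶠ y' in 𝓝[Y] y, y' ≠ b := (isOpen_ne.eventually_mem hb).filter_mono nhdsWithin_le_nhds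
  filter_upwards [h1, self_mem_nhdsWithin] with y' h2 h3
  exact ⟨fun _ => ⟨hy, hb⟩, fun _ => ⟨h3, h2⟩⟩

theorem Clo.inter {S' : Set Z} (h : Clo Y b S) (h' : Clo Y b S') : Clo Y b (S ∩ S') := by
  refine ⟨inter_subset_left.trans h.1, fun y hy hb => ?_⟩
  filter_upwards [h.2 y hy hb, h'.2 y hy hb] with y' h1 h2
  exact and_congr h1 h2

theorem Clo.compl (h : Clo Y b S) : Clo Y b (Y \ insert b S) := by
  have e : Y \ insert b S = (Y \ {b}) ∩ Sᶜ := by
    ext x; simp only [Set.mem_sdiff, mem_insert_iff, mem_inter_iff, mem_singleton_iff, mem_compl_iff]; tauto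
  rw [e]
  refine ⟨inter_subset_left, fun y hy hb => ?_⟩
  filter_upwards [clo_univ.2 y hy hb, (h.2 y hy hb).compl] with y' h1 h2
  exact and_congr h1 h2

theorem Clo.closed (hY : IsClosed Y) (h : Clo Y b S) : IsClosed (insert b S) := by
  refine isClosed_of_closure_subset fun y hy => ?_
  rw [insert_eq, closure_union, closure_singleton] at hy
  rcases hy with hy | hy
  · exact Or.inl hy
  by_cases hb : y = b
  · exact Or.inl hb
  have hyY : y ∈ Y := hY.closure_subset_iff.2 (h.1.trans sdiff_subset) hy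
  have h1 := eventually_nhdsWithin_iff.1 (h.2 y hyY hb)
  obtain ⟨x, h2, h3⟩ := ((mem_closure_iff_frequently.1 hy).and_eventually h1).exists
  exact Or.inr ((h3 (h.1 h2).1).1 h2)

private theorem qc1_conn_aux (hY : IsClosed Y) (hc : IsPreconnected Y) (hb : b ∈ Y) (h : Clo Y b S)
    {u v : Set Z} (hu : IsClosed u) (hv : IsClosed v) (huv : insert b S ⊆ u ∪ v)
    (hd : insert b S ∩ (u ∩ v) = ∅) (hbu : b ∈ u) : insert b S ⊆ u := by
  have hT := h.closed hY
  have hT' := h.compl.closed hY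
  have hd' : ∀ x ∈ insert b S, x ∈ u → x ∈ v → False := fun x h1 h2 h3 =>
    (eq_empty_iff_forall_notMem.1 hd) x ⟨h1, h2, h3⟩
  have hTY : insert b S ⊆ Y := insert_subset hb (h.1.trans sdiff_subset)
  rcases isPreconnected_iff_subset_of_disjoint_closed.1 hc
    ((insert b S ∩ u) ∪ insert b (Y \ insert b S)) (insert b S ∩ v) ((hT.inter hu).union hT')
    (hT.inter hv) (fun x hx => by
      by_cases h1 : x ∈ insert b S
      · rcases huv h1 with h2 | h2
        · exact Or.inl (Or.inl ⟨h1, h2⟩)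
        · exact Or.inr ⟨h1, h2⟩
      · exact Or.inl (Or.inr (Or.inr ⟨hx, h1⟩)))
    (eq_empty_iff_forall_notMem.2 fun x ⟨_, h1, h2, h3⟩ => by
      rcases h1 with h1 | h1 | h1
      · exact hd' x h2 h1.2 h3
      · exact hd' x h2 (h1 ▸ hbu) h3
      · exact h1.2 h2) with h1 | h1
  · intro x hx
    rcases h1 (hTY hx) with h2 | h2 | h2
    · exact h2.2
    · exact h2 ▸ hbu
    · exact absurd hx h2.2
  · exact (hd' b (mem_insert _ _) hbu (h1 hb).2).elim

theorem Clo.conn (hY : IsClosed Y) (hc : IsPreconnected Y) (hb : b ∈ Y) (h : Clo Y b S) :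
    IsPreconnected (insert b S) := by
  refine isPreconnected_iff_subset_of_disjoint_closed.2 fun u v hu hv huv hd => ?_
  rcases huv (mem_insert _ _) with h1 | h1
  · exact Or.inl (qc1_conn_aux hY hc hb h hu hv huv hd h1)
  · exact Or.inr (qc1_conn_aux hY hc hb h hv hu (union_comm u v ▸ huv) (inter_comm u v ▸ hd) h1)

/-- Points of a clopen set are interior points. -/
theorem Clo.not_mem_closure (h : Clo Y b S) (hy : y ∈ S) : y ∉ closure (Y \ S) := by
  intro hc
  have h1 := eventually_nhdsWithin_iff.1 (h.2 y (h.1 hy).1 (h.1 hy).2)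
  obtain ⟨x, h2, h3⟩ := ((mem_closure_iff_frequently.1 hc).and_eventually h1).exists
  exact h2.2 ((h3 h2.1).2 hy)

theorem qc_subset : qc Y b z ⊆ Y \ {b} := by
  exact fun y hy => ⟨hy.1, hy.2.1⟩

theorem mem_qc_self (hz : z ∈ Y) (hb : z ≠ b) : z ∈ qc Y b z := by
  exact ⟨hz, hb, fun _ _ h => h⟩

theorem qc_eq (hz : z ∈ Y) (hb : z ≠ b) (hy : y ∈ qc Y b z) : qc Y b y = qc Y b z := by
  ext x
  refine ⟨fun hx => ⟨hx.1, hx.2.1, fun S hS h => hx.2.2 S hS (hy.2.2 S hS h)⟩,
    fun hx => ⟨hx.1, hx.2.1, fun S hS h => hx.2.2 S hS ?_⟩⟩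
  by_contra hzS
  exact (hy.2.2 _ hS.compl ⟨hz, fun h' => h'.elim hb hzS⟩).2 (Or.inr h)

theorem subset_qc (hK : IsPreconnected K) (hs : K ⊆ Y \ {b}) (hz : z ∈ K) : K ⊆ qc Y b z := by
  intro x hx
  refine ⟨(hs hx).1, (hs hx).2, fun S hS h => ?_⟩
  exact (LocC.const hK (fun y hy => (hS.2 y (hs hy).1 (hs hy).2).mono (hs.trans sdiff_subset))
    hx hz).2 h

private theorem qc1_insert_eq (hb : b ∈ Y) : insert b (qc Y b z) =
    Y ∩ ⋂ S : {S : Set Z // Clo Y b S ∧ z ∈ S}, insert b S.1 := by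
  ext x
  rw [mem_inter_iff, mem_iInter]
  constructor
  · rintro (rfl | hx)
    · exact ⟨hb, fun _ => mem_insert _ _⟩
    · exact ⟨hx.1, fun S => Or.inr (hx.2.2 _ S.2.1 S.2.2)⟩
  · rintro ⟨h1, h2⟩
    by_cases hx : x = b
    · exact Or.inl hx
    · exact Or.inr ⟨h1, hx, fun S hS h => (h2 ⟨S, hS, h⟩).resolve_left hx⟩

theorem qc_closed (hY : IsClosed Y) (hb : b ∈ Y) : IsClosed (insert b (qc Y b z)) := by
  rw [qc1_insert_eq hb]
  exact hY.inter (isClosed_iInter fun S => S.2.1.closed hY)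

theorem qc_conn (hY : IsClosed Y) (hc : IsPreconnected Y) (hb : b ∈ Y) (hz : z ∈ Y) (hzb : z ≠ b) :
    IsPreconnected (insert b (qc Y b z)) := by
  refine (isPreconnected_iff_subset_of_fully_disjoint_closed (qc_closed hY hb)).2
    fun u v hu hv huv hd => ?_
  obtain ⟨U, V, hU, hV, h1, h2, h3⟩ := normal_separation hu hv hd
  have : Nonempty {S : Set Z // Clo Y b S ∧ z ∈ S} := ⟨⟨_, clo_univ, hz, hzb⟩⟩
  have hK : IsCompact (Y ∩ (U ∪ V)ᶜ) := (hY.inter (hU.union hV).isClosed_compl).isCompact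
  obtain ⟨S, hS⟩ := hK.elim_directed_family_closed
    (fun S : {S : Set Z // Clo Y b S ∧ z ∈ S} => insert b S.1) (fun S => S.2.1.closed hY)
    (eq_empty_iff_forall_notMem.2 fun x ⟨⟨hx1, hx2⟩, hx3⟩ => by
      have : x ∈ insert b (qc Y b z) := by rw [qc1_insert_eq hb]; exact ⟨hx1, hx3⟩
      exact hx2 (union_subset_union h1 h2 (huv this)))
    (fun S S' => ⟨⟨S.1 ∩ S'.1, S.2.1.inter S'.2.1, S.2.2, S'.2.2⟩,
      insert_subset_insert inter_subset_left, insert_subset_insert inter_subset_right⟩)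
  have hTY : insert b S.1 ⊆ Y := insert_subset hb (S.2.1.1.trans sdiff_subset)
  have h4 : insert b S.1 ⊆ U ∪ V := fun x hx => by
    by_contra h5
    exact (eq_empty_iff_forall_notMem.1 hS) x ⟨⟨hTY hx, h5⟩, hx⟩
  have h5 : insert b (qc Y b z) ⊆ insert b S.1 :=
    insert_subset_insert fun x hx => hx.2.2 _ S.2.1 S.2.2
  rcases (S.2.1.conn hY hc hb).subset_or_subset hU hV h3 h4 with h6 | h6
  · exact Or.inl fun x hx => (huv hx).resolve_right fun h7 =>
      disjoint_left.1 h3 (h6 (h5 hx)) (h2 h7)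
  · exact Or.inr fun x hx => (huv hx).resolve_left fun h7 =>
      disjoint_left.1 h3 (h1 h7) (h6 (h5 hx))

namespace IsQ

theorem subset (h : IsQ Y b Q) : Q ⊆ Y \ {b} := by
  obtain ⟨_, z, _, _, rfl⟩ := h
  exact qc_subset

theorem nonempty (h : IsQ Y b Q) : Q.Nonempty := by
  obtain ⟨_, z, h1, h2, rfl⟩ := h
  exact ⟨z, mem_qc_self h1 h2⟩

theorem eq_qc (h : IsQ Y b Q) (hy : y ∈ Q) : Q = qc Y b y := by
  obtain ⟨_, z, h1, h2, rfl⟩ := h
  exact (qc_eq h1 h2 hy).symm

theorem eq_of_mem {Q' : Set Z} (h : IsQ Y b Q) (h' : IsQ Y b Q') (hy : y ∈ Q) (hy' : y ∈ Q') :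
    Q = Q' := by
  rw [h.eq_qc hy, h'.eq_qc hy']

theorem sub_or (h : IsQ Y b Q) (hS : Clo Y b S) : Q ⊆ S ∨ Disjoint Q S := by
  by_cases hd : Disjoint Q S
  · exact Or.inr hd
  obtain ⟨y, h1, h2⟩ := not_disjoint_iff.1 hd
  rw [h.eq_qc h1]
  exact Or.inl fun x hx => hx.2.2 S hS h2

theorem exists_out (h : IsQ Y b Q) : ∃ y ∈ Y, y ≠ b ∧ y ∉ Q := by
  obtain ⟨_, S, hS, ⟨x, hx⟩, y, h1, h2, h3⟩ := h.1
  rcases h.sub_or hS with h4 | h4
  · exact ⟨y, h1, h2, fun h5 => h3 (h4 h5)⟩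
  · exact ⟨x, (hS.1 hx).1, (hS.1 hx).2, fun h5 => disjoint_left.1 h4 h5 hx⟩

/-- A connected set that avoids `b` and meets `Q` lies in `Q`. -/
theorem absorb (h : IsQ Y b Q) (hK : IsPreconnected K) (hs : K ⊆ Y) (hb : b ∉ K) (hy : y ∈ K)
    (hy' : y ∈ Q) : K ⊆ Q := by
  rw [h.eq_qc hy']
  exact subset_qc hK (fun x hx => ⟨hs hx, fun e => hb (e ▸ hx)⟩) hy

theorem closed (hY : IsClosed Y) (h : IsQ Y b Q) : IsClosed (insert b Q) := by
  obtain ⟨h0, z, _, _, rfl⟩ := h
  exact qc_closed hY h0.1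

theorem conn (hY : IsClosed Y) (hc : IsPreconnected Y) (h : IsQ Y b Q) :
    IsPreconnected (insert b Q) := by
  obtain ⟨h0, z, h1, h2, rfl⟩ := h
  exact qc_conn hY hc h0.1 h1 h2

theorem compl_conn (hY : IsClosed Y) (hc : IsPreconnected Y) (h : IsQ Y b Q) :
    IsPreconnected (Y \ Q) := by
  have hb : b ∈ Y \ Q := ⟨h.1.1, fun h1 => (h.subset h1).2 rfl⟩
  obtain ⟨h0, z, h1, h2, rfl⟩ := h
  refine isPreconnected_of_forall b fun y hy => ?_
  by_cases hyb : y = b
  · exact ⟨{b}, singleton_subset_iff.2 hb, rfl, hyb, isPreconnected_singleton⟩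
  have : ∃ S, Clo Y b S ∧ z ∈ S ∧ y ∉ S := by
    by_contra hcon
    push Not at hcon
    exact hy.2 ⟨hy.1, hyb, hcon⟩
  obtain ⟨S, hS, h3, h4⟩ := this
  exact ⟨insert b (Y \ insert b S),
    insert_subset hb fun x hx => ⟨hx.1, fun h5 => hx.2 (Or.inr (h5.2.2 S hS h3))⟩, mem_insert _ _,
    Or.inr ⟨hy.1, fun h5 => h5.elim hyb h4⟩, hS.compl.conn hY hc h0.1⟩

theorem closure_eq (hY : IsClosed Y) (hc : IsPreconnected Y) (h : IsQ Y b Q) :
    closure Q = insert b Q := by
  have h1 : closure Q ⊆ insert b Q := (h.closed hY).closure_subset_iff.2 (subset_insert _ _)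
  refine h1.antisymm (insert_subset ?_ subset_closure)
  by_contra hb
  obtain ⟨y, hy⟩ := h.nonempty
  rcases (isPreconnected_iff_subset_of_fully_disjoint_closed (h.closed hY)).1 (h.conn hY hc) {b}
    (closure Q) isClosed_singleton isClosed_closure (insert_subset_insert subset_closure)
    (disjoint_singleton_left.2 hb) with h2 | h2
  · exact (h.subset hy).2 (h2 (Or.inr hy))
  · exact hb (h2 (mem_insert _ _))

theorem unique (hY : IsClosed Y) (hc : IsPreconnected Y) (h : IsQ Y b Q) (h' : IsQ Y b' Q) :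
    b = b' := by
  have h1 : b ∈ insert b' Q := by
    rw [← h'.closure_eq hY hc, h.closure_eq hY hc]; exact mem_insert _ _
  exact h1.resolve_right fun h2 => (h.subset h2).2 rfl

end IsQ

theorem IsCut.isQ (h : IsCut Y b) (hz : z ∈ Y) (hb : z ≠ b) : IsQ Y b (qc Y b z) := by
  exact ⟨h, z, hz, hb, rfl⟩

end Crest.Agent.R224
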