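import Crest.Agent.R224.ZB2
import Crest.Agent.R224.QC1
import Crest.Agent.R224.EG2
import Crest.Agent.R224.Lev

/-! R224, task WCut: weak cut points.

`ext_fun`: `f` is Lipschitz on the dense orbit (`LipschitzOnWith.extend_real`).
`one_level`: `U = {x | b < f x}`.  A limit point `y` of `W U` has `F y = b` (`Lam_W`, continuity), so
`z, z' ∉ Lam (W U)`, `z ∉ Lam U`, `z' ∈ Lam U`.  Fix `ε` and cells.  For `A k = U ∩ {cell = k}` the rainbow set is
finite: in a triple `a, b', c` the point `a` lies in `Lw r f b` (it sees `a` and `c`, `b ∉ range f`) and has a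
neighbour `b'` in another cell.  `fill` gives `V k`, `K k`.  Off `⋃ K k` an edge crosses `U` iff it crosses exactly
one `V k`, so `V = {x | 1_U x + ∑ k, 1_{V k} x = 1}` has a finite wall, and by `H2` this function is constant off a
finite set.  `W (V k) ⊆ K k ∪ (W U ∩ N 1 (A k))`, so `Λ k = Lam (W (V k)) ⊆ Lam (W U) ∩ Lam (A k)` has diameter `≤ ε`.
Each `V k` is constant near `z` and near `z'` (`const_near`); by parity some `V k` has different values.  For this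
`k`, `Λ k ≠ ∅` (`H2`), and `H = Lam (V k)` or `Lam (V k)ᶜ` separates `z` from `z'` and is locally constant off `Λ k`
(`side`, `W_compl`).  Take `p n ∈ Λ` for `ε = 1 / (n + 1)` and a cluster point `p`.
`wc`: `z ∈ Lam {f < a}`, `z' ∈ Lam {a' < f}`; the image under `F` of the set of weak cut points contains almost all
of `(a, a')`, and countable sets are null. -/

set_option autoImplicit false
set_option linter.unusedSectionVars false

namespace Crest.Agent.R224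

open Set Filter Topology Pointwise MeasureTheory

variable {Γ : Type} [Group Γ] {C : Cay Γ} {Z : Type} [MetricSpace Z] [CompactSpace Z]
  [MulAction Γ Z] [ContinuousConstSMul Γ Z] {o : Z} {r : ℕ} {f : Γ → ℝ}

namespace Cv

theorem ext_fun (h : Cv C o) {c : ℝ} (hc : ∀ x y, |f x - f y| ≤ c * dist (x • o) (y • o)) :
    ∃ F : Z → ℝ, Continuous F ∧ ∀ x : Γ, F (x • o) = f x := by
  have hl : ∀ x : Γ, Function.invFun (fun g : Γ => g • o) (x • o) = x :=
    Function.leftInverse_invFun h.inj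
  have hL : LipschitzOnWith (Real.toNNReal c) (fun z => f (Function.invFun (fun g : Γ => g • o) z))
      (range fun g : Γ => g • o) := by
    refine LipschitzOnWith.of_dist_le_mul ?_
    rintro _ ⟨x, rfl⟩ _ ⟨y, rfl⟩
    simp only [hl]
    exact (hc x y).trans (mul_le_mul_of_nonneg_right (Real.le_coe_toNNReal c) dist_nonneg)
  obtain ⟨F, hF, hF'⟩ := hL.extend_real
  exact ⟨F, hF.continuous, fun x => by rw [← hF' ⟨x, rfl⟩]; simp only [hl]⟩

theorem Lam_sub_closed {A : Set Γ} {K : Set Z} (hK : IsClosed K) (hA : ∀ x ∈ A, x • o ∈ K) :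
    Lam o A ⊆ K := fun _ hy => closure_minimal (by rintro _ ⟨x, hx, rfl⟩; exact hA x hx) hK hy.2

open Classical in
/-- The indicator with values in `ZMod 2`. -/
noncomputable def ind (P : Prop) : ZMod 2 := if P then 1 else 0

theorem ind_add (P Q : Prop) : ind P + ind Q = ind (¬(P ↔ Q)) := by
  by_cases hP : P <;> by_cases hQ : Q <;> simp [ind, hP, hQ]
  rfl

theorem ind_eq {P Q : Prop} : ind P = ind Q ↔ (P ↔ Q) := by
  by_cases hP : P <;> by_cases hQ : Q <;> simp [ind, hP, hQ]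

theorem zmod2_eq {a b : ZMod 2} (h : a = 1 ↔ b = 1) : a = b := by
  revert a b
  decide

theorem zmod2_add {a b : ZMod 2} (h : a + b = 0) : a = b := by
  revert a b
  decide

theorem sum_ind {n : ℕ} (cell : Γ → Fin n) (U : Set Γ) (x y : Γ) :
    ∑ k, ind ((x ∈ U ∩ {w | cell w = k} ∧ y ∉ U) ∨ (y ∈ U ∩ {w | cell w = k} ∧ x ∉ U)) =
      ind (¬(x ∈ U ↔ y ∈ U)) := by
  by_cases hx : x ∈ U <;> by_cases hy : y ∈ U <;> simp [ind, hx, hy]

theorem step (h : Cv C o) (hy : C.Hyp r) {F : Z → ℝ} (hF : Continuous F)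
    (hf : ∀ x : Γ, F (x • o) = f x) {b : ℝ} (hb : b ∉ range f) {ε : ℝ}
    (hc : C.Cells r (fun x y => dist (x • o) (y • o)) ε (C.Lw r f b)) {z z' : Z}
    (hz : z ∈ Bd Γ o) (hz' : z' ∈ Bd Γ o) (h1 : F z < b) (h2 : b < F z') :
    ∃ Λ : Set Z, Λ.Nonempty ∧ (∀ u ∈ Λ, u ∈ Bd Γ o ∧ F u = b) ∧ (∀ u ∈ Λ, ∀ v ∈ Λ, dist u v ≤ ε) ∧
      ∃ H : Set Z, z ∈ H ∧ z' ∉ H ∧ ∀ y ∈ Bd Γ o, y ∉ Λ → LocC (Bd Γ o) H y := by
  obtain ⟨n, cell, hsm, hfin⟩ := hc
  set U : Set Γ := {x | b < f x} with hU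
  have hLU : Lam o U ⊆ {u | b ≤ F u} := Lam_sub_closed (isClosed_le continuous_const hF)
    fun x hx => by rw [mem_ofPred_eq, hf]; exact le_of_lt hx
  have hLU' : Lam o Uᶜ ⊆ {u | F u ≤ b} := Lam_sub_closed (isClosed_le hF continuous_const)
    fun x hx => by rw [mem_ofPred_eq, hf]; exact not_lt.1 hx
  have hLW : ∀ u ∈ Lam o (C.W U), F u = b := fun u hu =>
    le_antisymm (hLU' (h.Lam_W U hu).2) (hLU (h.Lam_W U hu).1)
  have hrb : ∀ k, (C.Rb r (U ∩ {w | cell w = k}) U).Finite := by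
    intro k
    refine (C.finite_N r hfin).subset ?_
    rintro x ⟨a, b', c, ha, hb1, hb2, hc', d1, d2, d3, hx⟩
    have h0 : C.d a a ≤ r := (C.d_self a).trans_le (Nat.zero_le _)
    refine ⟨a, ⟨⟨c, a, d3, h0, lt_of_le_of_ne (not_lt.1 hc') fun e => hb ⟨c, e⟩, ha.1⟩, b', d1,
      fun e => hb2 ⟨hb1, e.symm.trans ha.2⟩⟩, ?_⟩
    rcases hx with rfl | rfl | rfl
    · exact h0
    · exact (C.d_comm _ _).trans_le d1
    · exact (C.d_comm _ _).trans_le d3
  choose V K hK hV using fun k => Cay.fill hy inter_subset_left (hrb k)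
  let ψ : Γ → ZMod 2 := fun x => ind (x ∈ U) + ∑ k, ind (x ∈ V k)
  have hWψ : (C.W {x | ψ x = 1}).Finite := by
    refine (finite_iUnion hK).subset ?_
    rintro x ⟨y, hxy, hne⟩
    by_contra hx
    refine hne ?_
    have e : ψ x = ψ y := by
      refine zmod2_add ?_
      have : ∑ k, ind (x ∈ V k) + ∑ k, ind (y ∈ V k) = ind (¬(x ∈ U ↔ y ∈ U)) := by
        rw [← Finset.sum_add_distrib, ← sum_ind cell U x y]
        refine Finset.sum_congr rfl fun k _ => ?_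
        rw [ind_add, ind_eq]
        exact hV k x y hxy fun hk => hx (mem_iUnion.2 ⟨k, hk⟩)
      simp only [ψ]
      rw [add_add_add_comm, this, ind_add]
      exact CharTwo.add_self_eq_zero _
    simp only [mem_ofPred_eq, e]
  obtain ⟨K₀, hK₀, hψ⟩ : ∃ K₀ : Set Γ, K₀.Finite ∧ ∀ x ∉ K₀, ∀ x' ∉ K₀, ψ x = ψ x' := by
    rcases hy.h2 _ hWψ with e | e
    · exact ⟨_, e, fun x hx x' hx' => zmod2_eq (iff_of_false hx hx')⟩
    · exact ⟨_, e, fun x hx x' hx' => zmod2_eq (iff_of_true (not_not.1 hx) (not_not.1 hx'))⟩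
  have hWV : ∀ k, Lam o (C.W (V k)) ⊆ Lam o (C.W U) ∩ Lam o (U ∩ {w | cell w = k}) := by
    intro k
    have : C.W (V k) ⊆ K k ∪ (C.W U ∩ C.N 1 (U ∩ {w | cell w = k})) := by
      rintro x ⟨y, hxy, hne⟩
      by_cases hx : x ∈ K k
      · exact Or.inl hx
      rcases (hV k x y hxy hx).1 hne with ⟨e1, e2⟩ | ⟨e1, e2⟩
      · exact Or.inr ⟨⟨y, hxy, fun e => e2 (e.1 e1.1)⟩, C.subset_N 1 _ e1⟩
      · exact Or.inr ⟨⟨y, hxy, fun e => e2 (e.2 e1.1)⟩, y, e1, hxy⟩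
    intro u hu
    have h3 := Lam_mono this hu
    rw [Lam_union, Lam_finite (hK k), empty_union] at h3
    exact ⟨Lam_mono inter_subset_left h3, h.Lam_N 1 _ ▸ Lam_mono inter_subset_right h3⟩
  have hnz : ∀ k, z ∉ Lam o (C.W (V k)) := fun k e => h1.ne (hLW z (hWV k e).1)
  have hnz' : ∀ k, z' ∉ Lam o (C.W (V k)) := fun k e => h2.ne' (hLW z' (hWV k e).1)
  have near : ∀ y ∈ Bd Γ o, (∀ k, y ∉ Lam o (C.W (V k))) → ∀ A : Set Γ, y ∉ Lam o A →
      ∃ x, x ∉ K₀ ∧ x ∉ A ∧ ∀ k, x ∈ V k ↔ y ∈ Lam o (V k) := by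
    intro y hy1 hy2 A hA
    obtain ⟨𝒰, -, h𝒰, hlim⟩ := h.exists_ultra (h.Lam_univ ▸ hy1 : y ∈ Lam o (univ : Set Γ))
    have e1 : ∀ B : Set Γ, y ∉ Lam o B → ∀ᶠ x in (𝒰 : Filter Γ), x ∉ B := fun B hB =>
      Ultrafilter.eventually_not.2 fun e => hB (h.mem_Lam_of (g := id) h𝒰 hlim e)
    have e2 : ∀ k, ∀ᶠ x in (𝒰 : Filter Γ), (x ∈ V k ↔ y ∈ Lam o (V k)) := by
      intro k
      by_cases hk : y ∈ Lam o (V k)
      · filter_upwards [e1 _ ((h.side hy1 (hy2 k)).2.1 hk)] with x hx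
        exact iff_of_true (not_not.1 hx) hk
      · filter_upwards [e1 _ hk] with x hx
        exact iff_of_false hx hk
    obtain ⟨x, hx1, hx2, hx3⟩ := ((e1 K₀ (by rw [Lam_finite hK₀]; exact notMem_empty _)).and
      ((e1 A hA).and (eventually_all.2 e2))).exists
    exact ⟨x, hx1, hx2, hx3⟩
  obtain ⟨x, hx1, hx2, hx3⟩ := near z hz hnz U fun e => not_lt.2 (hLU e) h1
  obtain ⟨x', hx1', hx2', hx3'⟩ := near z' hz' hnz' Uᶜ fun e => not_lt.2 (hLU' e) h2
  obtain ⟨k, hk⟩ : ∃ k, ¬(z ∈ Lam o (V k) ↔ z' ∈ Lam o (V k)) := by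
    by_contra hcon
    push Not at hcon
    have e := hψ x hx1 x' hx1'
    simp only [ψ] at e
    rw [Finset.sum_congr rfl fun k _ =>
      (ind_eq.2 ((hx3 k).trans ((hcon k).trans (hx3' k).symm)) : ind (x ∈ V k) = ind (x' ∈ V k)),
      add_left_inj, ind_eq] at e
    exact hx2 (e.2 (not_not.1 hx2'))
  have s1 := (h.side hz (hnz k)).2
  have s2 := (h.side hz' (hnz' k)).2
  refine ⟨Lam o (C.W (V k)), h.Lam_nonempty fun e => ?_,
    fun u hu => ⟨Lam_subset _ hu, hLW u (hWV k hu).1⟩, fun u hu v hv => ?_, ?_⟩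
  · rcases hy.h2 _ e with e' | e'
    · rw [Lam_finite e'] at hk
      exact hk (iff_of_false (notMem_empty _) (notMem_empty _))
    · rw [Lam_finite e'] at s1 s2
      exact hk (iff_of_true (s1.2 (notMem_empty _)) (s2.2 (notMem_empty _)))
  · have e1 : ∀ a ∈ U ∩ {w | cell w = k}, dist (a • o) v ≤ ε := fun a ha =>
      Lam_sub_closed (K := {w | dist (a • o) w ≤ ε})
        (isClosed_le (continuous_const.dist continuous_id) continuous_const)
        (fun a' ha' => hsm a a' (ha.2.trans ha'.2.symm)) (hWV k hv).2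
    exact Lam_sub_closed (K := {w | dist w v ≤ ε})
      (isClosed_le (continuous_id.dist continuous_const) continuous_const) e1 (hWV k hu).2
  · by_cases e : z ∈ Lam o (V k)
    · exact ⟨Lam o (V k), e, fun e' => hk (iff_of_true e e'), fun y hy1 hy2 => (h.side hy1 hy2).1⟩
    · exact ⟨(Lam o (V k))ᶜ, e, fun e' => hk (iff_of_false e e'),
        fun y hy1 hy2 => (h.side hy1 hy2).1.compl⟩

theorem one_level (h : Cv C o) (hy : C.Hyp r) {F : Z → ℝ} (hF : Continuous F)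
    (hf : ∀ x : Γ, F (x • o) = f x) {b : ℝ} (hb : b ∉ range f)
    (hc : ∀ ε > 0, C.Cells r (fun x y => dist (x • o) (y • o)) ε (C.Lw r f b)) {z z' : Z}
    (hz : z ∈ Bd Γ o) (hz' : z' ∈ Bd Γ o) (h1 : F z < b) (h2 : b < F z') :
    ∃ p ∈ Bd Γ o, F p = b ∧ WS (Bd Γ o) p z z' := by
  choose Λ hne hΛ hd H hH using fun n : ℕ =>
    h.step hy hF hf hb (hc (1 / ((n : ℝ) + 1)) Nat.one_div_pos_of_nat) hz hz' h1 h2
  choose q hq using hne
  obtain ⟨p, hp⟩ := ultra_lim (Filter.hyperfilter ℕ) q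
  have hle : (Filter.hyperfilter ℕ : Filter ℕ) ≤ atTop := by
    rw [← Nat.cofinite_eq_atTop]
    exact Filter.hyperfilter_le_cofinite
  have hpb : F p = b := tendsto_nhds_unique ((hF.tendsto p).comp hp)
    (tendsto_const_nhds.congr fun n => (hΛ n _ (hq n)).2.symm)
  refine ⟨p, h.isClosed_Bd.mem_of_tendsto hp (Eventually.of_forall fun n => (hΛ n _ (hq n)).1), hpb,
    fun e => h1.ne (e ▸ hpb), fun e => h2.ne' (e ▸ hpb), fun ε hε => ?_⟩
  have e1 := Metric.tendsto_nhds.1 hp (ε / 2) (half_pos hε)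
  have e2 : ∀ᶠ n : ℕ in (Filter.hyperfilter ℕ : Filter ℕ), 1 / ((n : ℝ) + 1) < ε / 2 :=
    hle (tendsto_one_div_add_atTop_nhds_zero_nat.eventually (gt_mem_nhds (half_pos hε)))
  obtain ⟨n, hn1, hn2⟩ := (e1.and e2).exists
  refine ⟨H n, (hH n).1, (hH n).2.1, fun y hy1 hy2 => (hH n).2.2 y hy1 fun e => ?_⟩
  linarith [hd n y e _ (hq n), dist_triangle y (q n) p]

theorem wc (h : Cv C o) (hy : C.Hyp r) {c : ℝ}
    (hc : ∀ x y, |f x - f y| ≤ c * dist (x • o) (y • o)) {a a' : ℝ} (haa : a < a')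
    (h1 : {x | f x < a}.Infinite) (h2 : {x | a' < f x}.Infinite)
    (hg : ∀ᵐ b, b ∉ range f ∧
      ∀ ε > 0, C.Cells r (fun x y => dist (x • o) (y • o)) ε (C.Lw r f b)) : WC (Bd Γ o) := by
  obtain ⟨F, hF, hf⟩ := h.ext_fun hc
  obtain ⟨z, hz⟩ := h.Lam_nonempty h1
  obtain ⟨z', hz'⟩ := h.Lam_nonempty h2
  have e1 : F z ≤ a := Lam_sub_closed (K := {u | F u ≤ a}) (isClosed_le hF continuous_const)
    (fun x hx => by rw [mem_ofPred_eq, hf]; exact le_of_lt hx) hz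
  have e2 : a' ≤ F z' := Lam_sub_closed (K := {u | a' ≤ F u}) (isClosed_le continuous_const hF)
    (fun x hx => by rw [mem_ofPred_eq, hf]; exact le_of_lt hx) hz'
  refine ⟨z, hz.1, z', hz'.1, fun hcount => ?_⟩
  have h3 : ∀ᵐ b : ℝ, b ∉ F '' {p | p ∈ Bd Γ o ∧ WS (Bd Γ o) p z z'} :=
    (hcount.image F).ae_notMem volume
  have h4 : ∀ᵐ b : ℝ, b ∉ Ioo a a' := by
    filter_upwards [hg, h3] with b hb hb' hab
    obtain ⟨p, hp1, hp2, hp3⟩ := h.one_level hy hF hf hb.1 hb.2 hz.1 hz'.1 (e1.trans_lt hab.1)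
      (hab.2.trans_le e2)
    exact hb' ⟨p, ⟨hp1, hp3⟩, hp2⟩
  have h5 : volume (Ioo a a') = 0 := measure_eq_zero_iff_ae_notMem.2 h4
  rw [Real.volume_Ioo, ENNReal.ofReal_eq_zero] at h5
  linarith

end Cv

end Crest.Agent.R224
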