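import Crest.Agent.R224.Max
import Crest.Agent.R224.Far
import Crest.Agent.R224.Compl
import Crest.Agent.R224.WCut
import Crest.Agent.R224.Lim
import Crest.Agent.R224.Gen
import Crest.Agent.R224.TH
import Crest.Agent.R224.TDeck

/-! R224: assembly. -/

set_option autoImplicit false
set_option linter.unusedSectionVars false

namespace Crest.Agent.R224

open Set Filter Topology Pointwise MeasureTheory

namespace Cay

variable {Γ : Type} [Group Γ] {C : Cay Γ} {r : ℕ} {f : Γ → ℝ} {x₀ y₀ : Γ}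

/-- The coarse hypotheses imply that every function of finite energy is approximable. -/
theorem appr (hy : C.Hyp r) {φ : Γ → ℝ} (hφ : C.FinE φ) : C.Appr φ := by
  by_contra hn
  obtain ⟨f, x₀, y₀, hp⟩ := exists_pot ⟨φ, hφ, hn⟩
  obtain ⟨a, a', haa, h1, h2⟩ := hp.osc
  haveI : Infinite Γ := Set.infinite_univ_iff.1 (h1.mono (subset_univ _))
  obtain ⟨w, hw, hs⟩ := C.exists_w
  have hρ := isRho hw hs hp.mem
  have hcell : ∀ s, C.Good r f s → ∀ ε > 0, C.Cells r (C.md (rho w f)) ε (C.Lw r f s) :=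
    fun s h0 ε hε => cells hy hp hρ hε.le (exists_sys hw hs hp.mem hε).some h0
  obtain ⟨s₀, hs₀⟩ := (ae_good hp.finE r).exists
  obtain ⟨Z, _, _, _, _, o, h, hd⟩ := compl (C := C) (md_isRho hρ)
    (fun ε hε => by
      obtain ⟨n, cell, hc, -⟩ := hcell s₀ hs₀ ε hε
      exact ⟨n, cell, hc⟩)
    (fun ε hε ε' hε' => by
      obtain ⟨R, hR⟩ := far hy hp hρ hε.le hε'.le (exists_sys hw hs hp.mem hε).some
        (exists_sys hw hs hp.mem hε').some
      refine ⟨R, fun g hg z => ?_⟩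
      obtain ⟨T, T', hT, hT', hd⟩ := hR g hg
      exact skel_ucp hT hT' hd z)
    (fun x y ε hε => md_sp hρ hε)
  refine h.not_WC hy (h.wc hy (c := (w 1)⁻¹) (fun x y => ?_) haa h1 h2 ?_)
  · rw [hd, ← div_eq_inv_mul, le_div_iff₀ (hw 1), mul_comm]
    exact (le_rho hw hs hp.mem x y).trans (le_md hρ x y)
  · filter_upwards [ae_good hp.finE r] with b hb
    refine ⟨hb.1, fun ε hε => ?_⟩
    simp only [hd]
    exact hcell b hb ε hε

end Cay

theorem main {Γ E : Type} [Group Γ] [TopologicalSpace E] [MulAction Γ E] (h : Act Γ E)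
    (S : Finset Γ) (hS : Subgroup.closure (S : Set Γ) = ⊤) (f : Γ → ℝ)
    (hf : Summable fun p : Γ × S => (f (p.1 * (p.2 : Γ)) - f p.1) ^ 2) (ε : ℝ) (hε : 0 < ε) :
    ∃ u : Γ → ℝ, (Function.support u).Finite ∧ ∃ E : ℝ,
      HasSum (fun p : Γ × S => ((f - u) (p.1 * (p.2 : Γ)) - (f - u) p.1) ^ 2) E ∧ E < ε := by
  obtain ⟨C₀, h0⟩ := Cay.exists_cay S hS
  obtain ⟨⟨r₀, hr₀, h1⟩, -, -⟩ := h.coarse C₀
  obtain ⟨C, hC, h1'⟩ := Cay.rescale hr₀ h1
  obtain ⟨-, h2, r, hr, h3⟩ := h.coarse C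
  have hE := C.finE_of hS hf
  obtain ⟨u, hu, hlt⟩ := Cay.appr ⟨hr, h1', h2, h3⟩ hE ε hε
  obtain ⟨E', hE', hle⟩ := Cay.hasSum_le (fun s hs => hC s (h0 s hs)) (hE.sub_fin hu)
  exact ⟨u, hu, E', hE', hle.trans_lt hlt⟩

end Crest.Agent.R224
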