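import Crest.Agent.R224.Riesz

/-! R224, task Max: the maximum principle.

`no_improve`: if `φ` has no larger increments than `f` on every edge, and a strictly smaller one on some edge, then
`En φ < En f` (`Summable.tsum_lt_tsum`), against minimality.
`mem`: if `f x > 1` take `φ = min f 1`; a chain from `x` to `y₀` (`conn_univ`) has an edge `a, b` with
`f a > 1 ≥ f b`.  The same for `max f 0`.
`up`: if `x ∈ {b < f}` is not joined to `y₀` in `{b < f}`, let `U'` be its component and `φ = b` on `U'`, `f` elsewhere;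
neighbours of `U'` outside `U'` have `f ≤ b`; an edge leaves `U'` because `x₀ ∉ U'`.  `dn`: symmetric.
`osc`: otherwise, for all `a < a'` one of the two sets is finite.  Let `c = sInf {a | {f < a}.Infinite}` (if `Γ` is
finite, `u = f` shows `Appr f`); then for `η > 0` the set `{|f - c| > η}` is finite.  `u = (f - c) - clamp (f - c)` with
`clamp t = max (-η) (min t η)` is finitely supported, `En (f - u) = En (clamp (f - c))`, whose terms are bounded by
those of `f` and by `4 η ^ 2`; it tends to `0` (`tendsto_tsum_of_dominated_convergence`). -/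

set_option autoImplicit false
set_option linter.unusedSectionVars false

namespace Crest.Agent.R224

open Set Filter Topology Pointwise MeasureTheory

namespace Cay

variable {Γ : Type} [Group Γ] {C : Cay Γ} {r : ℕ} {f : Γ → ℝ} {x₀ y₀ : Γ}

theorem no_improve (hf : C.FinE f) (h0 : f x₀ = 0) (h1 : f y₀ = 1)
    (hmin : ∀ φ, C.FinE φ → φ y₀ - φ x₀ = 1 → C.En f ≤ C.En φ) {φ : Γ → ℝ} (g0 : φ x₀ = 0)
    (g1 : φ y₀ = 1) (hle : ∀ a b, C.d a b ≤ 1 → |φ b - φ a| ≤ |f b - f a|) {a b : Γ}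
    (hab : C.d a b ≤ 1) (hlt : |φ b - φ a| < |f b - f a|) : False := by
  have h2 : ∀ p : Γ × C.T, (φ (p.1 * (p.2 : Γ)) - φ p.1) ^ 2 ≤ (f (p.1 * (p.2 : Γ)) - f p.1) ^ 2 := fun p =>
    sq_le_sq.2 (hle _ _ (by rw [d_mul_right]; exact C.mem_T.1 p.2.2))
  have h3 : C.FinE φ := Summable.of_nonneg_of_le (fun _ => sq_nonneg _) h2 hf
  refine (hmin φ h3 (by rw [g0, g1, sub_zero])).not_gt
    (Summable.tsum_lt_tsum (i := (a, ⟨a⁻¹ * b, C.mem_T.2 hab⟩)) h2 ?_ h3 hf)
  simpa only [mul_inv_cancel_left] using sq_lt_sq.2 hlt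

theorem max_trunc (hf : C.FinE f) (h0 : f x₀ = 0) (h1 : f y₀ = 1)
    (hmin : ∀ φ, C.FinE φ → φ y₀ - φ x₀ = 1 → C.En f ≤ C.En φ) {U : Set Γ} {b : ℝ} (hx : x₀ ∉ U)
    (hy : y₀ ∉ U) (h : ∀ a ∈ U, ∀ c ∉ U, C.d a c ≤ 1 → f c ≤ b ∧ b < f a ∨ f a < b ∧ b ≤ f c) (x : Γ) :
    x ∉ U := by
  classical
  intro hxU
  have h2 : ∀ a ∈ U, ∀ c ∉ U, C.d a c ≤ 1 →
      |(if c ∈ U then b else f c) - if a ∈ U then b else f a| < |f c - f a| := fun a ha c hc hd => by
    rw [if_pos ha, if_neg hc]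
    rcases h a ha c hc hd with h3 | h3
    · rw [abs_of_nonpos (by linarith), abs_of_nonpos (by linarith)]
      linarith
    · rw [abs_of_nonneg (by linarith), abs_of_nonneg (by linarith)]
      linarith
  have h3 : ∀ a ∉ U, ∀ c ∈ U, C.d a c ≤ 1 →
      |(if c ∈ U then b else f c) - if a ∈ U then b else f a| < |f c - f a| := fun a ha c hc hd => by
    rw [abs_sub_comm, abs_sub_comm (f c)]
    exact h2 c hc a ha (C.d_comm a c ▸ hd)
  obtain ⟨a, c, hd, hac⟩ := W_nonempty (C := C) ⟨x, hxU⟩ ⟨x₀, hx⟩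
  refine no_improve hf h0 h1 hmin (φ := fun x => if x ∈ U then b else f x) (by rw [if_neg hx, h0])
    (by rw [if_neg hy, h1]) (fun a c hd => ?_) hd ?_
  · by_cases ha : a ∈ U <;> by_cases hc : c ∈ U
    · simp [ha, hc]
    · exact (h2 a ha c hc hd).le
    · exact (h3 a ha c hc hd).le
    · simp [ha, hc]
  · by_cases ha : a ∈ U
    · exact h2 a ha c (fun hc => hac (iff_of_true ha hc)) hd
    · exact h3 a ha c (not_not.1 fun hc => hac (iff_of_false ha hc)) hd

theorem max_appr (hf : C.FinE f) {c : ℝ} (h : ∀ η > 0, {x | η < |f x - c|}.Finite) : C.Appr f := by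
  intro ε hε
  have h1 := tendsto_tsum_of_dominated_convergence (𝓕 := 𝓝[>] (0 : ℝ)) (g := fun _ => (0 : ℝ))
    (f := fun η (p : Γ × C.T) => (max (min (f (p.1 * (p.2 : Γ)) - c) η) (-η) -
      max (min (f p.1 - c) η) (-η)) ^ 2) hf
    (fun p => (Continuous.tendsto' (by fun_prop) 0 0 (by simp)).mono_left nhdsWithin_le_nhds)
    (Eventually.of_forall fun η p => by
      rw [Real.norm_of_nonneg (sq_nonneg _), sq_le_sq]
      refine (abs_max_sub_max_le_abs _ _ _).trans ((abs_min_sub_min_le_max _ _ _ _).trans ?_)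
      simp)
  rw [tsum_zero] at h1
  obtain ⟨η, h2, h3⟩ := ((h1.eventually_lt_const hε).and self_mem_nhdsWithin).exists
  refine ⟨fun x => f x - c - max (min (f x - c) η) (-η), (h η h3).subset fun x hx => ?_, ?_⟩
  · by_contra h4
    obtain ⟨h5, h6⟩ := abs_le.1 (not_lt.1 h4 : |f x - c| ≤ η)
    exact hx (by simp [min_eq_left h6, max_eq_left h5])
  · refine lt_of_eq_of_lt (tsum_congr fun p => ?_) h2
    simp only [Pi.sub_apply]
    ring

theorem exists_pot (h : ∃ φ, C.FinE φ ∧ ¬C.Appr φ) : ∃ (f : Γ → ℝ) (x₀ y₀ : Γ), C.Pot f x₀ y₀ := by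
  obtain ⟨f, x₀, y₀, hd, hf, h0, h1, hA, hmin⟩ := riesz h
  have hm : ∀ x, f x ∈ Icc (0 : ℝ) 1 := fun x =>
    ⟨not_lt.1 (max_trunc hf h0 h1 hmin (U := {x | f x < 0}) (b := 0) (by simp [h0]) (by simp [h1])
      (fun a ha c hc _ => Or.inr ⟨ha, not_lt.1 hc⟩) x),
    not_lt.1 (max_trunc hf h0 h1 hmin (U := {x | 1 < f x}) (b := 1) (by simp [h0]) (by simp [h1])
      (fun a ha c hc _ => Or.inl ⟨not_lt.1 hc, ha⟩) x)⟩
  refine ⟨f, x₀, y₀, hf, hd, h0, h1, hm, fun b hb => ?_, fun b hb => ?_, ?_⟩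
  · have h2 := max_trunc hf h0 h1 hmin (U := {x | b < f x ∧ ¬ C.Ch 1 {x | b < f x} x y₀}) (b := b)
      (fun h => hb.1.not_gt (h0 ▸ h.1)) (fun h => h.2 Relation.ReflTransGen.refl)
      fun a ha c hc hac => Or.inl ⟨not_lt.1 fun h3 => hc ⟨h3, fun h4 =>
        ha.2 (Relation.ReflTransGen.head ⟨ha.1, h3, hac⟩ h4)⟩, ha.1⟩
    exact fun x hx y hy => (not_not.1 fun h3 => h2 x ⟨hx, h3⟩ : C.Ch 1 _ x y₀).trans
      (Ch.symm (not_not.1 fun h3 => h2 y ⟨hy, h3⟩))
  · have h2 := max_trunc hf h0 h1 hmin (U := {x | f x < b ∧ ¬ C.Ch 1 {x | f x < b} x x₀}) (b := b)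
      (fun h => h.2 Relation.ReflTransGen.refl) (fun h => hb.2.not_gt (h1 ▸ h.1))
      fun a ha c hc hac => Or.inr ⟨ha.1, not_lt.1 fun h3 => hc ⟨h3, fun h4 =>
        ha.2 (Relation.ReflTransGen.head ⟨ha.1, h3, hac⟩ h4)⟩⟩
    exact fun x hx y hy => (not_not.1 fun h3 => h2 x ⟨hx, h3⟩ : C.Ch 1 _ x x₀).trans
      (Ch.symm (not_not.1 fun h3 => h2 y ⟨hy, h3⟩))
  · by_contra hc
    have hb : BddBelow {a | {x | f x < a}.Infinite} := ⟨0, fun a ha => by
      obtain ⟨x, hx⟩ := ha.nonempty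
      exact (hm x).1.trans hx.le⟩
    refine hA (max_appr hf (c := sInf {a | {x | f x < a}.Infinite}) fun η hη => ?_)
    by_cases h2 : {x | f x < 2}.Infinite
    swap
    · exact (not_infinite.1 h2).subset fun x _ => (hm x).2.trans_lt one_lt_two
    obtain ⟨a, h3, h4⟩ := exists_lt_of_csInf_lt (s := {a | {x | f x < a}.Infinite}) ⟨2, h2⟩
      (lt_add_of_pos_right _ hη)
    refine (Finite.union (not_infinite.1 fun h5 => hc ⟨_, _, h4, h3, h5⟩)
      (not_infinite.1 (notMem_of_lt_csInf (sub_lt_self _ hη) hb))).subset fun x hx => ?_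
    rcases lt_abs.1 (mem_ofPred.1 hx) with h5 | h5
    · exact Or.inl (lt_sub_iff_add_lt'.1 h5)
    · refine Or.inr (show f x < _ from ?_)
      linarith

end Cay

end Crest.Agent.R224
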