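import Crest.Agent.R224.LF

/-! R224, task Par: cut points are parabolic.

`centre`: if `b ≠ b'`, `Q = qc b b'` and `Q' = qc b' b` cover `Bd` (`cover_of`), so one of them contains two of
the points `x • ξ i`.
`Wst_fin`: `centre`, `LF.fin`, `IsQ.unique`.
`Wst_cc`: for each of the finitely many `b₀` with `1 ∈ Wst b₀` that is of the form `x⁻¹ • b`, `x ∈ Wst b`,
choose one such `x = f b₀`; then `x * (f b₀)⁻¹` fixes `b` (`Wst_smul`).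
`W_clo`: let `x ∈ St S`, `x' ∉ St S` be adjacent.  If `x ∈ St Q` then `Q` meets `S` (`St_disjoint`), `Q ⊆ S`, so
`x' ∉ St Q` and both `x, x'` lie in `W (St Q)`.  If `x` is central then `x ∈ Wst`, and `x'` is central or lies
in `W (St Q')`.
`deep_clo`: `deep_St` with `y ∈ S`, `y' ∈ Bd \\ insert b S` (`Clo.not_mem_closure`, `Clo.closed`).
`par`: otherwise `tukia`, `Wst_cc`, `W_clo` and `vcyc` give a contradiction.
`isOpenQ`: let `y ∈ Bd`, `y ≠ b`.  `y ∉ Lam (Wst b)`, so a ball about `y` misses `Wst b` (`away`).  A point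
`x₀` near `y` lies in some `St Q₀`, and then all points near `y` do (`joined`, `Ch.same`).  For `y' ∈ Bd` near
`y`, `y' ≠ b`, and `Clo b S`, `y' ∈ S`: points near `y'` lie in `St S` (`Lam_St`, `St_compl`,
`Clo.not_mem_closure`), so `Q₀ ⊆ S`; hence `Q₀ ⊆ qc b y'`, `y' ∈ Q₀`.  So a neighbourhood of `y` lies in `Q₀`.
`cut_countable`: every cut point is `x • b₀` with `1 ∈ Wst b₀` (`Wst b ≠ ∅`). -/

set_option autoImplicit false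
set_option linter.unusedSectionVars false

namespace Crest.Agent.R224

open Set Filter Topology Pointwise

variable {Γ : Type} [Group Γ] {C : Cay Γ} {Z : Type} [MetricSpace Z] [CompactSpace Z]
  [MulAction Γ Z] [ContinuousConstSMul Γ Z] {o : Z} {r : ℕ} {ξ : Fin 3 → Z}

theorem par_mem (g : Γ) {b : Z} {x : Γ} (h : x ∈ Wst C (Bd Γ o) ξ b) :
    g * x ∈ Wst C (Bd Γ o) ξ (g • b) := by
  rcases h with h | ⟨Q, hQ, h⟩
  · refine Or.inl fun Q hQ hx => h (g⁻¹ • Q) (by simpa using hQ.smul smul_Bd g⁻¹) ?_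
    rw [St_smul, mem_smul_set_iff_inv_smul_mem, inv_inv]
    exact hx
  · refine Or.inr ⟨g • Q, hQ.smul smul_Bd g, ?_⟩
    rw [St_smul, C.W_smul]
    exact smul_mem_smul_set h

theorem Wst_smul (g : Γ) (b : Z) : Wst C (Bd Γ o) ξ (g • b) = g • Wst C (Bd Γ o) ξ b := by
  ext x
  rw [mem_smul_set_iff_inv_smul_mem, smul_eq_mul]
  refine ⟨fun h => ?_, fun h => ?_⟩
  · simpa using par_mem g⁻¹ h
  · simpa using par_mem g h

namespace Cv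

theorem centre (h : Cv C o) (hy : C.Hyp r) (hl : LF C o ξ) (x : Γ) :
    {b | IsCut (Bd Γ o) b ∧ ∀ Q, IsQ (Bd Γ o) b Q → x ∉ St ξ Q}.Subsingleton := by
  intro b ⟨hb, h1⟩ b' ⟨hb', h2⟩
  by_contra hne
  have q1 : IsQ (Bd Γ o) b (qc (Bd Γ o) b b') := ⟨hb, b', hb'.1, Ne.symm hne, rfl⟩
  have q2 : IsQ (Bd Γ o) b' (qc (Bd Γ o) b' b) := ⟨hb', b, hb.1, hne, rfl⟩
  have hc := IsQ.cover_of h.isClosed_Bd (h.preconn hy.h2) q1 q2 (mem_qc_self hb'.1 (Ne.symm hne))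
    (mem_qc_self hb.1 hne)
  obtain ⟨i, j, hij, a1, a2⟩ := not_mem_St (h1 _ q1)
  have hm : ∀ i, x • ξ i ∈ qc (Bd Γ o) b b' ∪ qc (Bd Γ o) b' b := fun i =>
    hc.symm ▸ smul_mem_Bd.2 (hl.mem i)
  exact h2 _ q2 ⟨i, j, hij, (hm i).resolve_left a1, (hm j).resolve_left a2⟩

theorem Wst_fin (h : Cv C o) (hy : C.Hyp r) (hl : LF C o ξ) (x : Γ) :
    {b | IsCut (Bd Γ o) b ∧ x ∈ Wst C (Bd Γ o) ξ b}.Finite := by
  refine ((h.centre hy hl x).finite.union ((hl.fin x).biUnion (t := fun Q => {b | IsQ (Bd Γ o) b Q})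
    fun Q _ => Set.Subsingleton.finite fun b hb b' hb' =>
      IsQ.unique h.isClosed_Bd (h.preconn hy.h2) hb hb')).subset ?_
  rintro b ⟨hb, h1 | ⟨Q, hQ, h1⟩⟩
  · exact Or.inl ⟨hb, h1⟩
  · exact Or.inr (mem_biUnion (show Q ∈ {Q | _} from ⟨⟨b, hQ⟩, h1⟩) hQ)

theorem Wst_cc (h : Cv C o) (hy : C.Hyp r) (hl : LF C o ξ) {b : Z} (hb : IsCut (Bd Γ o) b) :
    ∃ F : Set Γ, F.Finite ∧ ∀ x ∈ Wst C (Bd Γ o) ξ b, ∃ g : Γ, g • b = b ∧ ∃ f ∈ F, x = g * f := by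
  have : ∀ b₀ : Z, ∃ f : Γ, (∃ x : Γ, x⁻¹ • b = b₀) → f⁻¹ • b = b₀ := fun b₀ => by
    by_cases hx : ∃ x : Γ, x⁻¹ • b = b₀
    · exact ⟨hx.choose, fun _ => hx.choose_spec⟩
    · exact ⟨1, fun h => absurd h hx⟩
  choose f hf using this
  refine ⟨_, (h.Wst_fin hy hl 1).image f, fun x hx => ⟨x * (f (x⁻¹ • b))⁻¹, ?_, f (x⁻¹ • b),
    ⟨x⁻¹ • b, ⟨hb.smul smul_Bd _, ?_⟩, rfl⟩, by simp⟩⟩
  · rw [mul_smul, hf _ ⟨x, rfl⟩, smul_inv_smul]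
  · simpa using par_mem x⁻¹ hx

theorem W_clo (h : Cv C o) (hl : LF C o ξ) {b : Z} (hb : IsCut (Bd Γ o) b) {S : Set Z}
    (hS : Clo (Bd Γ o) b S) : C.W (St ξ S) ⊆ Wst C (Bd Γ o) ξ b := by
  rintro x ⟨y, hd, hn⟩
  by_contra hc
  rw [Wst, mem_ofPred_eq, not_or] at hc
  obtain ⟨h1, h2⟩ := hc
  push Not at h1 h2
  obtain ⟨Q, hQ, hx⟩ := h1
  have hyQ : y ∈ St ξ Q := by
    by_contra hc
    exact h2 Q hQ ⟨y, hd, fun e => hc (e.1 hx)⟩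
  rcases hQ.sub_or hS with h3 | h3
  · exact hn (iff_of_true (St_mono h3 hx) (St_mono h3 hyQ))
  · exact hn (iff_of_false (disjoint_left.1 (St_disjoint h3) hx)
      (disjoint_left.1 (St_disjoint h3) hyQ))

theorem deep_clo (h : Cv C o) (hl : LF C o ξ) {b : Z} {S : Set Z} (hS : Clo (Bd Γ o) b S)
    (h1 : S.Nonempty) (h2 : ∃ y ∈ Bd Γ o, y ≠ b ∧ y ∉ S) : C.Deep (St ξ S) := by
  obtain ⟨y, hy⟩ := h1
  obtain ⟨y', a1, a2, a3⟩ := h2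
  refine h.deep_St hl.mem hl.inj (hS.1 hy).1 a1 (hS.not_mem_closure hy) fun hc => ?_
  exact ((hS.closed h.isClosed_Bd).closure_subset_iff.2 (subset_insert _ _) hc).elim a2 a3

theorem Wst_inf (h : Cv C o) (hy : C.Hyp r) (hl : LF C o ξ) {b : Z} (hb : IsCut (Bd Γ o) b) :
    (Wst C (Bd Γ o) ξ b).Infinite := by
  obtain ⟨-, S, hS, h1, h2⟩ := id hb
  obtain ⟨x, hx, hi⟩ := Cay.ray hy (h.deep_clo hl hS h1 h2)
  exact hi.mono fun y hy' => h.W_clo hl hb hS (Cay.Ch.mem hy' hx)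

theorem par (h : Cv C o) (hy : C.Hyp r) (hl : LF C o ξ) {b : Z} (hb : IsCut (Bd Γ o) b) :
    {g : Γ | g • b = b}.Infinite ∧ Lam o {g : Γ | g • b = b} ⊆ {b} := by
  obtain ⟨F, hF, H⟩ := h.Wst_cc hy hl hb
  refine ⟨fun hf => h.Wst_inf hy hl hb ((hf.mul hF).subset fun x hx => ?_), fun a ha => ?_⟩
  · obtain ⟨g, hg, f, hf, rfl⟩ := H x hx
    exact mul_mem_mul hg hf
  · by_contra hne
    obtain ⟨k, F', a', hF', hk, H', -⟩ := h.tukia ha hne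
    obtain ⟨-, S, hS, h1, h2⟩ := id hb
    refine Cay.vcyc hy (h.deep_clo hl hS h1 h2) hk (hF'.mul hF) fun x hx => ?_
    obtain ⟨g, hg, f, hf, rfl⟩ := H x (h.W_clo hl hb hS hx)
    obtain ⟨m, f', hf', rfl⟩ := H' g hg
    exact ⟨m, f' * f, mul_mem_mul hf' hf, mul_assoc _ _ _⟩

theorem Lam_Wst (h : Cv C o) (hy : C.Hyp r) (hl : LF C o ξ) {b : Z} (hb : IsCut (Bd Γ o) b) :
    Lam o (Wst C (Bd Γ o) ξ b) ⊆ {b} := by
  obtain ⟨F, hF, H⟩ := h.Wst_cc hy hl hb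
  exact (h.Lam_mul hF H).trans (h.par hy hl hb).2

theorem isOpenQ (h : Cv C o) (hy : C.Hyp r) (hl : LF C o ξ) {b : Z} {Q : Set Z}
    (hQ : IsQ (Bd Γ o) b Q) : Clo (Bd Γ o) b Q := by
  refine ⟨hQ.subset, fun y hyY hyb => ?_⟩
  obtain ⟨η, hη, H⟩ := h.away hyY fun hc => hyb (h.Lam_Wst hy hl hQ.1 hc)
  obtain ⟨x₀, hx₀⟩ := h.exists_near y (η := η / 4) (by positivity)
  have h1 : x₀ ∉ Wst C (Bd Γ o) ξ b := fun hc => by linarith [H x₀ hc]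
  obtain ⟨Q₀, hQ₀, h2⟩ : ∃ Q₀, IsQ (Bd Γ o) b Q₀ ∧ x₀ ∈ St ξ Q₀ := by
    by_contra hc
    exact h1 (Or.inl fun Q hQ hx => hc ⟨Q, hQ, hx⟩)
  have h3 : ∀ x x' : Γ, dist (x • o) y < η / 4 → dist (x' • o) y < η / 4 →
      (x ∈ St ξ Q₀ ↔ x' ∈ St ξ Q₀) := fun x x' hx hx' => (h.joined hx hx').same
    (disjoint_left.2 fun w hw hw' => absurd (H w (Or.inr ⟨Q₀, hQ₀, hw'⟩)) (not_le.2 hw))
  have h4 : ∀ y' ∈ Bd Γ o, y' ≠ b → dist y' y < η / 4 → y' ∈ Q₀ := fun y' a1 a2 a3 =>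
    ((hQ₀.closed h.isClosed_Bd).closure_subset_iff.2 (subset_insert _ _)
      (h.Lam_St hl.inj _ ((h.zb2_iff h3 hx₀ a1 a3).2 h2))).resolve_left a2
  have h5 : y ∈ Q₀ := h4 y hyY hyb (by rw [dist_self]; positivity)
  refine LocC.iff_dist.2 ⟨min (η / 4) (dist b y), lt_min (by positivity) (dist_pos.2 (Ne.symm hyb)),
    fun y' a1 a2 => ?_⟩
  rw [lt_min_iff] at a2
  have h6 : y' ∈ Q₀ := h4 y' a1 (fun e => absurd a2.2 (by rw [e]; exact lt_irrefl _)) a2.1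
  exact ⟨fun a => hQ.eq_of_mem hQ₀ a h6 ▸ h5, fun a => hQ.eq_of_mem hQ₀ a h5 ▸ h6⟩

theorem cut_countable (h : Cv C o) (hy : C.Hyp r) (hl : LF C o ξ) :
    {b | IsCut (Bd Γ o) b}.Countable := by
  have := C.countable
  refine (countable_iUnion fun x : Γ => (h.Wst_fin hy hl x).countable).mono fun b hb => ?_
  obtain ⟨x, hx⟩ := (h.Wst_inf hy hl hb).nonempty
  exact mem_iUnion.2 ⟨x, hb, hx⟩

end Cv

end Crest.Agent.R224
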