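import Crest.Agent.R224.Bas

/-! R224, task Riesz: the free potential of an edge.

Work in the Hilbert space `ℋ = lp (fun _ : Γ × C.T => ℝ) 2`.  `𝒟 = {ω | ∃ φ, ∀ p, ω p = φ (p.1 * p.2) - φ p.1}` is a
submodule.  It is closed: if `ω n → ω` with potentials `φ n` normalised by `φ n 1 = 0`, then `φ n x` converges for
every `x` (induction on `len x` with `C.geo`; evaluation is continuous, `lp.evalCLM`/`lp.norm_apply_le_norm`).
`𝒟₀` = closure of the differentials of finitely supported functions; `‖dφ‖ ^ 2 = En φ` (`lp.norm_rpow_eq_tsum`), so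
`Appr φ ↔ dφ ∈ 𝒟₀`.  If `dφ ∉ 𝒟₀`, `h = dφ - proj_{𝒟₀} dφ ∈ 𝒟` is non-zero and orthogonal to `𝒟₀`; pick `e = (x₀, s)`
with `h e ≠ 0` and `π = proj_𝒟 (lp.single 2 e 1)`, so `⟪π, ω⟫ = ω e` for `ω ∈ 𝒟`.  Then `π ∉ 𝒟₀`, `π e = ‖π‖ ^ 2 > 0`,
and `f` is the potential of `π / ‖π‖ ^ 2` with `f x₀ = 0`; minimality is the Cauchy–Schwarz inequality.
(Differentials do not see additive constants: state `Appr` through `d (f - u) = d f - d u`.) -/

set_option autoImplicit false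
set_option linter.unusedSectionVars false

namespace Crest.Agent.R224

open Set Filter Topology Pointwise MeasureTheory

namespace Cay

variable {Γ : Type} [Group Γ] {C : Cay Γ} {r : ℕ} {f : Γ → ℝ} {x₀ y₀ : Γ}

/-- The Hilbert space of square summable functions on edges. -/
abbrev RzH (C : Cay Γ) : Type := lp (fun _ : Γ × C.T => ℝ) 2

/-- `ω` is the differential of `φ`. -/
def RzD (C : Cay Γ) (ω : C.RzH) (φ : Γ → ℝ) : Prop :=
  ∀ p : Γ × C.T, (ω : (Γ × C.T) → ℝ) p = φ (p.1 * (p.2 : Γ)) - φ p.1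

theorem RzD.sub {ω ω' : C.RzH} {φ φ' : Γ → ℝ} (h : C.RzD ω φ) (h' : C.RzD ω' φ') :
    C.RzD (ω - ω') (φ - φ') := by
  intro p
  rw [lp.coeFn_sub, Pi.sub_apply, h p, h' p]
  simp only [Pi.sub_apply]
  ring

theorem RzD.add {ω ω' : C.RzH} {φ φ' : Γ → ℝ} (h : C.RzD ω φ) (h' : C.RzD ω' φ') :
    C.RzD (ω + ω') (φ + φ') := by
  intro p
  rw [lp.coeFn_add, Pi.add_apply, h p, h' p]
  simp only [Pi.add_apply]
  ring

theorem RzD.smul {ω : C.RzH} {φ : Γ → ℝ} (h : C.RzD ω φ) (c : ℝ) :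
    C.RzD (c • ω) (c • φ) := by
  intro p
  rw [lp.coeFn_smul, Pi.smul_apply, h p]
  simp only [Pi.smul_apply, smul_eq_mul]
  ring

theorem rzD_zero : C.RzD 0 0 := by
  intro p
  simp

theorem RzD.hasSum {ω : C.RzH} {φ : Γ → ℝ} (h : C.RzD ω φ) :
    HasSum (fun p : Γ × C.T => (φ (p.1 * (p.2 : Γ)) - φ p.1) ^ 2) (‖ω‖ ^ 2) := by
  have h1 := lp.hasSum_norm (p := 2) (by norm_num) ω
  simp only [ENNReal.toReal_ofNat, Real.rpow_ofNat, Real.norm_eq_abs, sq_abs] at h1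
  convert h1 using 2 with p
  rw [h p]

theorem RzD.finE {ω : C.RzH} {φ : Γ → ℝ} (h : C.RzD ω φ) : C.FinE φ := h.hasSum.summable

theorem RzD.en {ω : C.RzH} {φ : Γ → ℝ} (h : C.RzD ω φ) : C.En φ = ‖ω‖ ^ 2 := h.hasSum.tsum_eq

theorem FinE.exists_rzD {φ : Γ → ℝ} (h : C.FinE φ) : ∃ ω, C.RzD ω φ := by
  have hm : Memℓp (fun p : Γ × C.T => φ (p.1 * (p.2 : Γ)) - φ p.1) 2 := by
    refine memℓp_gen ?_
    simpa only [ENNReal.toReal_ofNat, Real.rpow_ofNat, Real.norm_eq_abs, sq_abs, FinE] using h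
  exact ⟨⟨_, hm⟩, fun p => rfl⟩

theorem rz_finE_of_finite {u : Γ → ℝ} (hu : (Function.support u).Finite) : C.FinE u := by
  refine summable_of_hasFiniteSupport ?_
  have h1 : {p : Γ × C.T | p.1 ∈ C.N 1 (Function.support u)}.Finite := by
    have : {p : Γ × C.T | p.1 ∈ C.N 1 (Function.support u)} =
        C.N 1 (Function.support u) ×ˢ (univ : Set C.T) := by
      ext p; simp
    rw [this]
    exact (C.finite_N 1 hu).prod finite_univ
  refine h1.subset fun p hp => ?_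
  by_contra hc
  have e1 : u p.1 = 0 := by
    by_contra h0
    exact hc (C.subset_N 1 _ h0)
  have e2 : u (p.1 * (p.2 : Γ)) = 0 := by
    by_contra h0
    exact hc ⟨_, h0, by rw [C.d_mul_right]; exact C.mem_T.1 p.2.2⟩
  exact hp (by simp [e1, e2])

/-- The space of differentials. -/
def rzAll (C : Cay Γ) : Submodule ℝ C.RzH where
  carrier := {ω | ∃ φ, C.RzD ω φ}
  add_mem' := fun ⟨_, h⟩ ⟨_, h'⟩ => ⟨_, h.add h'⟩
  zero_mem' := ⟨0, rzD_zero⟩
  smul_mem' := fun c _ ⟨_, h⟩ => ⟨_, h.smul c⟩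

/-- The space of differentials of finitely supported functions. -/
def rzFin (C : Cay Γ) : Submodule ℝ C.RzH where
  carrier := {ω | ∃ φ, (Function.support φ).Finite ∧ C.RzD ω φ}
  add_mem' := fun ⟨_, g, h⟩ ⟨_, g', h'⟩ =>
    ⟨_, (g.union g').subset (Function.support_add _ _), h.add h'⟩
  zero_mem' := ⟨0, by simp, rzD_zero⟩
  smul_mem' := fun c _ ⟨φ, g, h⟩ =>
    ⟨_, g.subset (Function.support_const_smul_subset c φ), h.smul c⟩

theorem rz_tendsto_eval {ω : ℕ → C.RzH} {η : C.RzH} (h : Tendsto ω atTop (𝓝 η))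
    (p : Γ × C.T) :
    Tendsto (fun n => (ω n : (Γ × C.T) → ℝ) p) atTop (𝓝 ((η : (Γ × C.T) → ℝ) p)) := by
  rw [tendsto_iff_norm_sub_tendsto_zero] at h ⊢
  refine squeeze_zero (fun _ => norm_nonneg _) (fun n => ?_) h
  have := lp.norm_apply_le_norm (p := 2) (by norm_num) (ω n - η) p
  rwa [lp.coeFn_sub, Pi.sub_apply] at this

theorem rzAll_closed : IsClosed (C.rzAll : Set C.RzH) := by
  refine IsSeqClosed.isClosed fun ω η hω hη => ?_
  choose φ hφ using hω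
  have H : ∀ (k : ℕ) (x : Γ), C.len x = k →
      ∃ l, Tendsto (fun n => φ n x - φ n 1) atTop (𝓝 l) := by
    intro k
    induction k with
    | zero =>
      intro x hx
      rw [(C.len_zero x).1 hx]
      exact ⟨0, by simp⟩
    | succ k ih =>
      intro x hx
      obtain ⟨y, hy, hyx⟩ := C.geo x k hx
      obtain ⟨l, hl⟩ := ih y hy
      have h2 := rz_tendsto_eval hη (y, ⟨y⁻¹ * x, C.mem_T.2 hyx⟩)
      refine ⟨_, (hl.add h2).congr fun n => ?_⟩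
      rw [hφ n]
      simp
  choose l hl using fun x => H _ x rfl
  refine ⟨l, fun p => ?_⟩
  refine tendsto_nhds_unique (rz_tendsto_eval hη p) (((hl _).sub (hl p.1)).congr fun n => ?_)
  rw [hφ n]
  ring

theorem RzD.appr_iff {ω : C.RzH} {φ : Γ → ℝ} (h : C.RzD ω φ) :
    C.Appr φ ↔ ω ∈ C.rzFin.topologicalClosure := by
  rw [← SetLike.mem_coe, Submodule.topologicalClosure_coe, Metric.mem_closure_iff]
  constructor
  · intro ha ε hε
    obtain ⟨u, hu, he⟩ := ha (ε ^ 2) (by positivity)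
    obtain ⟨η, hη⟩ := (rz_finE_of_finite (C := C) hu).exists_rzD
    refine ⟨η, ⟨u, hu, hη⟩, ?_⟩
    rw [(h.sub hη).en] at he
    rw [dist_eq_norm]
    exact lt_of_pow_lt_pow_left₀ 2 hε.le he
  · intro ha ε hε
    obtain ⟨η, ⟨u, hu, hη⟩, he⟩ := ha (Real.sqrt ε) (Real.sqrt_pos.2 hε)
    refine ⟨u, hu, ?_⟩
    rw [(h.sub hη).en]
    rw [dist_eq_norm] at he
    exact (Real.lt_sqrt (norm_nonneg _)).1 he

theorem riesz (h : ∃ φ, C.FinE φ ∧ ¬C.Appr φ) : ∃ (f : Γ → ℝ) (x₀ y₀ : Γ), C.d x₀ y₀ ≤ 1 ∧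
    C.FinE f ∧ f x₀ = 0 ∧ f y₀ = 1 ∧ ¬C.Appr f ∧
    ∀ φ, C.FinE φ → φ y₀ - φ x₀ = 1 → C.En f ≤ C.En φ := by
  classical
  obtain ⟨φ, hφ, hna⟩ := h
  obtain ⟨ω, hω⟩ := hφ.exists_rzD
  rw [hω.appr_iff] at hna
  have hle : C.rzFin.topologicalClosure ≤ C.rzAll :=
    Submodule.topologicalClosure_minimal _ (fun η ⟨u, _, hu⟩ => ⟨u, hu⟩) rzAll_closed
  have : CompleteSpace C.rzFin.topologicalClosure :=
    C.rzFin.isClosed_topologicalClosure.completeSpace_coe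
  have : CompleteSpace C.rzAll := rzAll_closed.completeSpace_coe
  obtain ⟨η, hη⟩ : ∃ η, η = ω - C.rzFin.topologicalClosure.starProjection ω := ⟨_, rfl⟩
  have hη1 : η ∈ C.rzFin.topologicalClosureᗮ := by
    rw [hη]; exact Submodule.sub_starProjection_mem_orthogonal ω
  have hη2 : η ∈ C.rzAll := by
    rw [hη]
    exact Submodule.sub_mem _ ⟨φ, hω⟩ (hle (Submodule.starProjection_apply_mem _ ω))
  have hη3 : η ≠ 0 := by
    intro h0
    rw [hη, sub_eq_zero] at h0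
    exact hna (h0 ▸ Submodule.starProjection_apply_mem _ ω)
  obtain ⟨e, he⟩ : ∃ e : Γ × C.T, (η : (Γ × C.T) → ℝ) e ≠ 0 := by
    by_contra hc
    push Not at hc
    exact hη3 (lp.ext (funext hc))
  obtain ⟨π, hπ⟩ : ∃ π : C.RzH, π = C.rzAll.starProjection (lp.single 2 e (1 : ℝ)) := ⟨_, rfl⟩
  have hπ1 : π ∈ C.rzAll := hπ ▸ Submodule.starProjection_apply_mem _ _
  have hπ2 : ∀ θ ∈ C.rzAll, inner ℝ π θ = (θ : (Γ × C.T) → ℝ) e := by
    intro θ hθ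
    rw [hπ, Submodule.inner_starProjection_left_eq_right,
      Submodule.starProjection_eq_self_iff.2 hθ, lp.inner_single_left]
    simp
  have hπ3 : π ∉ C.rzFin.topologicalClosure := fun hc =>
    he ((hπ2 η hη2).symm.trans (Submodule.inner_right_of_mem_orthogonal hc hη1))
  have hπ4 : 0 < ‖π‖ := norm_pos_iff.2 fun h0 => hπ3 (h0 ▸ Submodule.zero_mem _)
  obtain ⟨ψ, hψ⟩ := hπ1
  have hπ5 : ψ (e.1 * (e.2 : Γ)) - ψ e.1 = ‖π‖ ^ 2 := by
    rw [← hψ e, ← hπ2 π ⟨ψ, hψ⟩, real_inner_self_eq_norm_sq]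
  have hD : C.RzD ((‖π‖ ^ 2)⁻¹ • π) fun x => (‖π‖ ^ 2)⁻¹ * (ψ x - ψ e.1) := by
    intro p
    rw [lp.coeFn_smul, Pi.smul_apply, hψ p, smul_eq_mul]
    ring
  refine ⟨fun x => (‖π‖ ^ 2)⁻¹ * (ψ x - ψ e.1), e.1, e.1 * (e.2 : Γ), ?_, hD.finE, by simp, ?_,
    ?_, ?_⟩
  · rw [C.d_mul_right]; exact C.mem_T.1 e.2.2
  · simp only [hπ5]
    exact inv_mul_cancel₀ (by positivity)
  · rw [hD.appr_iff]
    intro hc
    have := Submodule.smul_mem _ (‖π‖ ^ 2) hc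
    rw [smul_smul, mul_inv_cancel₀ (by positivity), one_smul] at this
    exact hπ3 this
  · intro χ hχ h1
    obtain ⟨θ, hθ⟩ := hχ.exists_rzD
    have h2 : inner ℝ π θ = 1 := by rw [hπ2 θ ⟨χ, hθ⟩, hθ e, h1]
    have h3 : 1 ≤ ‖π‖ * ‖θ‖ := h2 ▸ real_inner_le_norm π θ
    rw [hD.en, hθ.en, norm_smul, Real.norm_eq_abs, abs_of_pos (by positivity)]
    have h4 : (‖π‖ ^ 2)⁻¹ * ‖π‖ = ‖π‖⁻¹ := by field_simp
    rw [h4]
    refine pow_le_pow_left₀ (by positivity) ?_ 2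
    rw [inv_le_iff_one_le_mul₀' hπ4]
    exact h3

end Cay

end Crest.Agent.R224
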