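import Crest.Agent.R224.TDefs

/-! R224, task TBas: elementary facts on singular chains.

Identities of linear maps are checked on `single τ 1` (`sc_ext`; `On_le` for statements on `On S n`).
`cob (uni X n) τ = sb (single τ 1)` because `(-1) ^ i • a = a` in characteristic two; so `sb_sb` follows from
`cob_cob`, or from `ev_bd`, `bd_bd` (see `R251/Chain`): `sb (ev (uni X (n+1)) K c) = ev (uni X n) K (bd c)`.
`exists_compact`: the union of the ranges of the simplices in the support. -/

set_option autoImplicit false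
set_option linter.unusedSectionVars false

namespace Crest.Agent.R224

open Set Finsupp Topology Crest.Agent.R251

variable {X X' : Type} {n : ℕ}

theorem sc_add_self (z : SC X n) : z + z = 0 := by
  ext τ
  simp [CharTwo.add_self_eq_zero]

theorem sc_sub (z w : SC X n) : z - w = z + w := by
  rw [sub_eq_add_neg, neg_eq_of_add_eq_zero_right (sc_add_self w)]

theorem sc_ext {N : Type} [AddCommGroup N] [Module (ZMod 2) N] {f g : SC X n →ₗ[ZMod 2] N}
    (h : ∀ τ, f (single τ 1) = g (single τ 1)) (z : SC X n) : f z = g z := by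
  have : f = g := Finsupp.lhom_ext' fun b => LinearMap.ext_ring (by simpa using h b)
  rw [this]

theorem sb_single (τ : Δ (n + 1) → X) :
    sb (single τ 1) = ∑ i : Fin (n + 2), single (fun x => τ (face i x)) (1 : ZMod 2) := by
  simp [sb]

theorem cob_uni (τ : Δ (n + 1) → X) : cob (uni X n) τ = sb (single τ 1) := by
  rw [sb_single, cob]
  refine Finset.sum_congr rfl fun i _ => ?_
  rcases neg_one_pow_eq_or ℤ (i : ℕ) with h | h
  · rw [h, one_smul]; rfl
  · rw [h, neg_smul, one_smul, neg_eq_of_add_eq_zero_right (sc_add_self _)]; rfl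

theorem sb_ev {W : Type} [AddCommGroup W] [Module ℝ W] (K : W → X) (c : LC W (n + 2)) :
    sb (ev (uni X (n + 1)) K c) = ev (uni X n) K (bd c) := by
  rw [ev_bd]
  refine lc_ext (f := (sb : SC X (n + 1) →ₗ[ZMod 2] SC X n).toAddMonoidHom.toIntLinearMap ∘ₗ
    ev (uni X (n + 1)) K) (g := ev (cob (uni X n)) K) (fun v => ?_) c
  rw [LinearMap.comp_apply, ev_single, ev_single, cob_uni]
  rfl

theorem sb_sb (z : SC X (n + 2)) : sb (sb z) = 0 := by
  refine sc_ext (f := sb ∘ₗ sb) (g := 0) (fun τ => ?_) z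
  have h : (single τ 1 : SC X (n + 2)) = ev (uni X (n + 2)) (ext τ) (single (stdv (n + 2)) 1) := by
    rw [ev_single, sx_ext_stdv]; rfl
  rw [LinearMap.comp_apply, h, sb_ev, sb_ev, bd_bd, map_zero, LinearMap.zero_apply]

theorem aug_sb (z : SC X 1) : aug (sb z) = 0 := by
  refine sc_ext (f := aug ∘ₗ sb) (g := 0) (fun τ => ?_) z
  rw [LinearMap.comp_apply, sb_single, map_sum]
  simp only [aug, linearCombination_single, one_smul, Fin.sum_univ_two, LinearMap.zero_apply]
  exact CharTwo.add_self_eq_zero _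

theorem aug_pt (a : X) : aug (pt a) = 1 := by
  simp [aug, pt]

theorem cyc_sb (z : SC X (n + 1)) : Cyc n (sb z) := by
  cases n with
  | zero => exact aug_sb z
  | succ n => exact sb_sb z

theorem Cyc.add {z w : SC X n} (hz : Cyc n z) (hw : Cyc n w) : Cyc n (z + w) := by
  cases n with
  | zero =>
    show aug (z + w) = 0
    rw [map_add, show aug z = 0 from hz, show aug w = 0 from hw, add_zero]
  | succ n =>
    show sb (z + w) = 0
    rw [map_add, show sb z = 0 from hz, show sb w = 0 from hw, add_zero]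

theorem smap_single (f : X → X') (τ : Δ n → X) :
    smap f (single τ 1) = single (fun x => f (τ x)) (1 : ZMod 2) := by
  simp [smap]

theorem smap_sb (f : X → X') (z : SC X (n + 1)) : smap f (sb z) = sb (smap f z) := by
  refine sc_ext (f := smap f ∘ₗ sb) (g := sb ∘ₗ smap f) (fun τ => ?_) z
  simp only [LinearMap.comp_apply, sb_single, smap_single, map_sum]

theorem aug_smap (f : X → X') (z : SC X 0) : aug (smap f z) = aug z := by
  refine sc_ext (f := aug ∘ₗ smap f) (g := aug) (fun τ => ?_) z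
  rw [LinearMap.comp_apply, smap_single]
  simp [aug]

theorem Cyc.smap (f : X → X') {z : SC X n} (hz : Cyc n z) : Cyc n (smap f z) := by
  cases n with
  | zero => exact (aug_smap f z).trans hz
  | succ n =>
    show sb (R224.smap f z) = 0
    rw [← smap_sb, show sb z = 0 from hz, map_zero]

theorem smap_smap {X'' : Type} (f : X → X') (g : X' → X'') (z : SC X n) :
    smap g (smap f z) = smap (fun x => g (f x)) z := by
  refine sc_ext (f := smap g ∘ₗ smap f) (g := smap fun x => g (f x)) (fun τ => ?_) z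
  simp only [LinearMap.comp_apply, smap_single]

variable [TopologicalSpace X] [TopologicalSpace X'] {S S' : Set X}

theorem mem_On {z : SC X n} : z ∈ On S n ↔ ∀ τ ∈ z.support, Continuous τ ∧ ∀ x, τ x ∈ S := by
  exact Iff.rfl

theorem single_mem_On {τ : Δ n → X} (h : Continuous τ) (h' : ∀ x, τ x ∈ S) :
    single τ (1 : ZMod 2) ∈ On S n := by
  exact single_mem_supported (ZMod 2) 1 ⟨h, h'⟩

theorem pt_mem_On {a : X} (h : a ∈ S) : pt a ∈ On S 0 := by
  exact single_mem_On continuous_const fun _ => h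

theorem On_le {N : Type} [AddCommGroup N] [Module (ZMod 2) N] (f : SC X n →ₗ[ZMod 2] N)
    (Q : Submodule (ZMod 2) N)
    (h : ∀ τ : Δ n → X, Continuous τ → (∀ x, τ x ∈ S) → f (single τ 1) ∈ Q) {z : SC X n}
    (hz : z ∈ On S n) : f z ∈ Q := by
  rw [On, supported_eq_span_single] at hz
  have : Submodule.span (ZMod 2) ((fun i => single i (1 : ZMod 2)) ''
      {τ : Δ n → X | Continuous τ ∧ ∀ x, τ x ∈ S}) ≤ Q.comap f := by
    rw [Submodule.span_le]
    rintro _ ⟨v, hv, rfl⟩
    exact h v hv.1 hv.2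
  exact this hz

theorem On_mono (h : S ⊆ S') : On S n ≤ On S' n := by
  exact fun z hz => mem_On.2 fun τ hτ => ⟨(mem_On.1 hz τ hτ).1, fun x => h ((mem_On.1 hz τ hτ).2 x)⟩

theorem On_inter : On (S ∩ S') n = On S n ⊓ On S' n := by
  ext z
  rw [Submodule.mem_inf, mem_On, mem_On, mem_On]
  exact ⟨fun h => ⟨fun τ hτ => ⟨(h τ hτ).1, fun x => ((h τ hτ).2 x).1⟩,
    fun τ hτ => ⟨(h τ hτ).1, fun x => ((h τ hτ).2 x).2⟩⟩,
    fun h τ hτ => ⟨(h.1 τ hτ).1, fun x => ⟨(h.1 τ hτ).2 x, (h.2 τ hτ).2 x⟩⟩⟩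

theorem On_empty : On (∅ : Set X) n = ⊥ := by
  rw [eq_bot_iff]
  intro z hz
  exact On_le LinearMap.id ⊥ (fun τ _ h => (h (v0 n)).elim) hz

theorem sb_mem_On {z : SC X (n + 1)} (hz : z ∈ On S (n + 1)) : sb z ∈ On S n := by
  refine On_le sb _ (fun τ h h' => ?_) hz
  rw [sb_single]
  exact Submodule.sum_mem _ fun i _ => single_mem_On (h.comp (continuous_face i)) fun x => h' _

theorem ev_mem_On {W : Type} [NormedAddCommGroup W] [NormedSpace ℝ W] {K : W → X} {B : Set W}
    (hB : Convex ℝ B) (hK : ContinuousOn K B) (hS : MapsTo K B S) {c : LC W (n + 1)}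
    (hc : c ∈ In B (n + 1)) : ev (uni X n) K c ∈ On S n := by
  refine In_le (ev (uni X n) K) ((On S n).restrictScalars ℤ) (fun v hv => ?_) hc
  rw [ev_single]
  exact single_mem_On (hK.comp_continuous (continuous_cmb v) fun x => cmb_mem hB hv x)
    fun x => hS (cmb_mem hB hv x)

theorem smap_mem_On {f : X → X'} {T : Set X'} (hf : ContinuousOn f S) (hT : MapsTo f S T)
    {z : SC X n} (hz : z ∈ On S n) : smap f z ∈ On T n := by
  refine On_le (smap f) _ (fun τ h h' => ?_) hz
  rw [smap_single]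
  exact single_mem_On (hf.comp_continuous h h') fun x => hT (h' x)

theorem smap_congr {f g : X → X'} (h : EqOn f g S) {z : SC X n} (hz : z ∈ On S n) :
    smap f z = smap g z := by
  have := On_le (smap f - smap g) ⊥ (fun τ _ h' => by
    rw [LinearMap.sub_apply, smap_single, smap_single, funext fun x => h (h' x), sub_self]
    exact Submodule.zero_mem _) hz
  rwa [Submodule.mem_bot, LinearMap.sub_apply, sub_eq_zero] at this

theorem smap_id' {f : X → X} (h : ∀ x ∈ S, f x = x) {z : SC X n} (hz : z ∈ On S n) :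
    smap f z = z := by
  have := On_le (smap f - LinearMap.id) ⊥ (fun τ _ h' => by
    rw [LinearMap.sub_apply, smap_single, LinearMap.id_apply, funext fun x => h _ (h' x), sub_self]
    exact Submodule.zero_mem _) hz
  rwa [Submodule.mem_bot, LinearMap.sub_apply, sub_eq_zero] at this

theorem exists_compact {z : SC X n} (hz : z ∈ On S n) :
    ∃ K ⊆ S, IsCompact K ∧ z ∈ On K n := by
  refine ⟨⋃ τ ∈ z.support, range τ, iUnion₂_subset fun τ hτ => ?_,
    z.support.isCompact_biUnion fun τ hτ => isCompact_range (mem_On.1 hz τ hτ).1,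
    mem_On.2 fun τ hτ => ⟨(mem_On.1 hz τ hτ).1, fun x => mem_biUnion hτ (mem_range_self x)⟩⟩
  rintro _ ⟨x, rfl⟩
  exact (mem_On.1 hz τ hτ).2 x

variable {N N' : ∀ n, Submodule (ZMod 2) (SC X n)}

theorem NC.mono {z : SC X n} (h : NC N n z) (hN : ∀ n, N n ≤ N' n) : NC N' n z := by
  refine ⟨h.1, ?_⟩
  cases n with
  | zero => trivial
  | succ n => exact hN n h.2

theorem NB.mono {z : SC X n} (h : NB N n z) (hN : N n ≤ N' n) : NB N' n z := by
  obtain ⟨w, hw, h⟩ := h
  exact ⟨w, hw, hN h⟩

theorem NC.add {z w : SC X n} (hz : NC N n z) (hw : NC N n w) : NC N n (z + w) := by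
  refine ⟨Submodule.add_mem _ hz.1 hw.1, ?_⟩
  cases n with
  | zero => trivial
  | succ n =>
    show sb (z + w) ∈ N n
    rw [map_add]
    exact Submodule.add_mem _ hz.2 hw.2

theorem NC.sub {z w : SC X n} (hz : NC N n z) (hw : NC N n w) : NC N n (z - w) := by
  rw [sc_sub]
  exact hz.add hw

theorem NB.add {z w : SC X n} (hz : NB N n z) (hw : NB N n w) : NB N n (z + w) := by
  obtain ⟨a, ha, hz⟩ := hz
  obtain ⟨b, hb, hw⟩ := hw
  refine ⟨a + b, Submodule.add_mem _ ha hb, ?_⟩
  rw [map_add, add_sub_add_comm]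
  exact Submodule.add_mem _ hz hw

theorem NB.sub {z w : SC X n} (hz : NB N n z) (hw : NB N n w) : NB N n (z - w) := by
  rw [sc_sub]
  exact hz.add hw

theorem NB.of_mem {z : SC X n} (hz : z ∈ N n) : NB N n z := by
  exact ⟨0, Submodule.zero_mem _, by simpa using hz⟩

theorem NB.sb {w : SC X (n + 1)} (hw : w ∈ On univ (n + 1)) : NB N n (sb w) := by
  exact ⟨w, hw, by simp⟩

theorem RC.anti {A B : Set X} {z : SC X n} (h : RC A n z) (hB : B ⊆ A) : RC B n z := by
  exact NC.mono h fun _ => On_mono (compl_subset_compl.2 hB)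

theorem RB.anti {A B : Set X} {z : SC X n} (h : RB A n z) (hB : B ⊆ A) : RB B n z := by
  exact NB.mono h (On_mono (compl_subset_compl.2 hB))

theorem Fills.mono {S₁ S₂ : Set X} (h : Fills S S' n) (h1 : S₁ ⊆ S) (h2 : S' ⊆ S₂) :
    Fills S₁ S₂ n := by
  intro z hz hc
  obtain ⟨w, hw, e⟩ := h z (On_mono h1 hz) hc
  exact ⟨w, On_mono h2 hw, e⟩

end Crest.Agent.R224
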