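import Crest.Agent.R224.TNer
import Crest.Agent.R224.Bas

/-! R224, task TCo: coarse acyclicity of the group.

Fix `L` from `cc`, `e₀ ∈ E`, `κ e = g` with `g⁻¹ • e ∈ interior L`.  For a scale `r` define compact sets
`Lk 0 = insert e₀ L`, `Lk (k+1)` = `hull` of `⋃ len g ≤ r, g • Lk k`; `P g = g • e₀`, `Φ k g = g • Lk k`.  `Fills` is invariant
under translation (`smap`), so `Car P 𝒮 Φ p` holds for `𝒮 n = C.Tup r K' (n+1)`.  `U g = g • interior L`.  Let `D`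
bound the lengths of the `g` with `g • Lk p ∩ Lk p ≠ ∅` (`proper`, `L ⊆ Lk p`) and `r' = 2 (D + r)`.  If
`y ∈ g • Lk p` then `d g (κ y) ≤ D`; so both kinds of tuples in `transfer` have diameter `≤ r'`.
First part: `Ω₀ = Ω = univ` (`fills_univ`).  Second part: for finite `K` let `K_E = ⋃ g ∈ K, g • L`, `K₂` from
`fills_inf`, `K' = K ∪ {g | g • Lk p ∩ K₂ ≠ ∅}` (finite), `Ω₀ = K₂ᶜ`, `Ω = K_Eᶜ`; `y ∉ K_E` implies `κ y ∉ K`. -/

set_option autoImplicit false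
set_option linter.unusedSectionVars false

namespace Crest.Agent.R224

open Set Finsupp Topology Crest.Agent.R251

open Pointwise

variable {Γ E : Type} [Group Γ] [TopologicalSpace E] [MulAction Γ E]

theorem tco_fills_smul [ContinuousConstSMul Γ E] {S S' : Set E} {n : ℕ} (h : Fills S S' n) (g : Γ) :
    Fills (g • S) (g • S') n := by
  intro z hz hc
  obtain ⟨w, hw, hwz⟩ := h (smap (fun x => g⁻¹ • x) z)
    (smap_mem_On (continuous_const_smul _).continuousOn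
      (fun x hx => mem_smul_set_iff_inv_smul_mem.1 hx) hz) (hc.smap _)
  refine ⟨smap (fun x => g • x) w, smap_mem_On (continuous_const_smul _).continuousOn
    (fun x hx => smul_mem_smul_set hx) hw, ?_⟩
  rw [← smap_sb, hwz, smap_smap]
  exact smap_id' (fun x _ => smul_inv_smul g x) hz

theorem tco_tower [ContinuousConstSMul Γ E] [ContractibleSpace E] (C : Cay Γ) (r : ℕ) {L₀ : Set E}
    (hL : IsCompact L₀) : ∃ Lk : ℕ → Set E, Lk 0 = L₀ ∧ (∀ k, IsCompact (Lk k)) ∧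
      ∀ k, (⋃ g ∈ {g : Γ | C.len g ≤ r}, g • Lk k) ⊆ Lk (k + 1) ∧
        ∀ n, Fills (⋃ g ∈ {g : Γ | C.len g ≤ r}, g • Lk k) (Lk (k + 1)) n := by
  have h1 : ∀ S : {S : Set E // IsCompact S}, ∃ S' : {S : Set E // IsCompact S},
      (⋃ g ∈ {g : Γ | C.len g ≤ r}, g • S.1) ⊆ S'.1 ∧
        ∀ n, Fills (⋃ g ∈ {g : Γ | C.len g ≤ r}, g • S.1) S'.1 n := by
    intro S
    obtain ⟨L', h1, h2, h3⟩ := hull ((C.fin r).isCompact_biUnion fun g _ => S.2.smul g)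
    exact ⟨⟨L', h1⟩, h2, h3⟩
  choose F hF using h1
  refine ⟨fun k => (F^[k] ⟨L₀, hL⟩).1, rfl, fun k => (F^[k] ⟨L₀, hL⟩).2, fun k => ?_⟩
  simp only [Function.iterate_succ_apply']
  exact hF _

theorem tco_car [ContinuousConstSMul Γ E] (C : Cay Γ) (p r : ℕ) (K' : Set Γ) {e₀ : E}
    {Lk : ℕ → Set E} (h0 : e₀ ∈ Lk 0)
    (hL : ∀ k, (⋃ g ∈ {g : Γ | C.len g ≤ r}, g • Lk k) ⊆ Lk (k + 1) ∧
        ∀ n, Fills (⋃ g ∈ {g : Γ | C.len g ≤ r}, g • Lk k) (Lk (k + 1)) n) :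
    Car (fun g : Γ => g • e₀) (fun n => C.Tup r K' (n + 1)) (fun k g => g • Lk k) p := by
  have key : ∀ k n, ∀ v ∈ C.Tup r K' (n + 1), ∀ i,
      v i • Lk k ⊆ v 0 • ⋃ g ∈ {g : Γ | C.len g ≤ r}, g • Lk k := by
    intro k n v hv i
    have e : v i • Lk k = v 0 • ((v 0)⁻¹ * v i) • Lk k := by
      rw [smul_smul, mul_inv_cancel_left]
    rw [e]
    exact smul_set_mono (subset_biUnion_of_mem (u := fun g : Γ => g • Lk k) (hv.1 0 i))
  refine ⟨fun n v hv i => ⟨fun a b => hv.1 _ _, fun a => hv.2 _⟩,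
    fun v _ => smul_mem_smul_set h0, fun k _ v hv i => ?_, fun k _ v hv => ?_⟩
  · exact (key k _ v hv i).trans (smul_set_mono (hL k).1)
  · exact (tco_fills_smul ((hL k).2 k) (v 0)).mono (iUnion_subset (key k _ v hv)) Subset.rfl

theorem tco_core [ContinuousConstSMul Γ E] (C : Cay Γ) {p r D : ℕ} {K K' : Set Γ} {e₀ : E}
    {L : Set E} {Lk : ℕ → Set E} {κ : E → Γ} {Ω₀ Ω : Set E}
    (hcar : Car (fun g : Γ => g • e₀) (fun n => C.Tup r K' (n + 1)) (fun k g => g • Lk k) p)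
    (hκ : ∀ e, (κ e)⁻¹ • e ∈ interior L) (hLp : L ⊆ Lk p)
    (hD : ∀ g : Γ, (g • Lk p ∩ Lk p).Nonempty → C.len g ≤ D)
    (ha : ∀ g ∉ K', g • Lk p ⊆ Ω₀) (hb : Fills Ω₀ Ω p) (hc : ∀ y ∈ Ω, κ y ∉ K)
    (hd : K ⊆ K') (he : Ω₀ ⊆ Ω) : C.Bds p r (2 * (D + r)) K' K := by
  intro c hc₁ hc₂
  have key : ∀ (g : Γ) (y : E), y ∈ g • Lk p → C.d g (κ y) ≤ D := by
    rintro g _ ⟨l, hl, rfl⟩
    rw [C.d_comm]
    refine hD _ ⟨_, ⟨l, hl, rfl⟩, ?_⟩
    show ((κ (g • l))⁻¹ * g) • l ∈ Lk p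
    rw [mul_smul]
    exact hLp (interior_subset (hκ _))
  have tri : ∀ (a x y : Γ), C.d a x ≤ D + r → C.d a y ≤ D + r → C.d x y ≤ 2 * (D + r) := by
    intro a x y hx hy
    have h1 := C.d_tri x a y
    have h2 := C.d_comm x a
    omega
  obtain ⟨e, he₁, he₂⟩ := transfer hcar κ hc₁ hc₂ (fun v hv => ha _ ((hc₁ v hv).2 0)) hb
    (U := fun g : Γ => g • interior L) (fun g => isOpen_interior.smul g)
    (fun y _ => mem_iUnion.2 ⟨κ y, mem_smul_set_iff_inv_smul_mem.2 (hκ y)⟩)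
  refine ⟨e, fun u hu => ?_, he₁⟩
  rcases he₂ u hu with ⟨g, hg⟩ | ⟨v, hv, hg⟩
  · have h1 : ∀ j, C.d g (u j) ≤ D + r ∧ u j ∉ K := by
      intro j
      obtain ⟨y, ⟨hy, hy'⟩, hyj⟩ := hg j
      rw [← hyj]
      exact ⟨(key g y (smul_set_mono (interior_subset.trans hLp) hy')).trans (Nat.le_add_right _ _),
        hc y hy⟩
    exact ⟨fun i j => tri g _ _ (h1 i).1 (h1 j).1, fun j => (h1 j).2⟩
  · have h1 : ∀ j, C.d (v 0) (u j) ≤ D + r ∧ u j ∉ K := by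
      intro j
      rcases hg j with ⟨i, hi⟩ | ⟨y, hy, hyj⟩
      · rw [← hi]
        exact ⟨((hc₁ v hv).1 0 i).trans (Nat.le_add_left _ _), fun h => (hc₁ v hv).2 i (hd h)⟩
      · rw [← hyj]
        exact ⟨(key _ y hy).trans (Nat.le_add_right _ _), hc y (he (ha _ ((hc₁ v hv).2 0) hy))⟩
    exact ⟨fun i j => tri (v 0) _ _ (h1 i).1 (h1 j).1, fun j => (h1 j).2⟩

theorem Act.bds (h : Act Γ E) (C : Cay Γ) (p r : ℕ) : ∃ r', r ≤ r' ∧ C.Bds p r r' ∅ ∅ ∧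
    (p ≤ 1 → ∀ K : Set Γ, K.Finite → ∃ K' : Set Γ, K'.Finite ∧ C.Bds p r r' K' K) := by
  have := h.t2
  have := h.contr
  have := h.cont
  obtain ⟨L, hL, hcc⟩ := h.cc
  choose κ hκ using hcc
  obtain ⟨e₀⟩ : Nonempty E := inferInstance
  obtain ⟨Lk, h0, hcp, hLk⟩ := tco_tower C r (hL.insert e₀)
  have hLp : ∀ k, L ⊆ Lk k := by
    intro k
    induction k with
    | zero => rw [h0]; exact subset_insert _ _
    | succ k ih =>
      refine ih.trans (Subset.trans ?_ (hLk k).1)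
      have h1 : (1 : Γ) ∈ {g : Γ | C.len g ≤ r} := by simp [C.len_one]
      have h2 := subset_biUnion_of_mem (u := fun g : Γ => g • Lk k) h1
      rwa [one_smul] at h2
  have he₀ : e₀ ∈ Lk 0 := by rw [h0]; exact mem_insert _ _
  obtain ⟨D, hD⟩ := ((h.proper _ (hcp p)).image C.len).bddAbove
  have hD' : ∀ g : Γ, (g • Lk p ∩ Lk p).Nonempty → C.len g ≤ D := fun g hg => hD ⟨g, hg, rfl⟩
  refine ⟨2 * (D + r), by omega, ?_, fun hp K hK => ?_⟩
  · exact tco_core C (tco_car C p r ∅ he₀ hLk) hκ (hLp p) hD' (fun g _ => subset_univ _)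
      (fills_univ p) (fun y _ => notMem_empty _) Subset.rfl Subset.rfl
  · obtain ⟨K₂, hK₂, h12, hf⟩ := fills_inf h.loc (hK.isCompact_biUnion fun g _ => hL.smul g)
    refine ⟨K ∪ {g | (g • Lk p ∩ K₂).Nonempty}, hK.union ?_, ?_⟩
    · refine (h.proper _ ((hcp p).union hK₂)).subset fun g hg => ?_
      exact Set.Nonempty.mono
        (inter_subset_inter (smul_set_mono subset_union_left) subset_union_right) hg
    · refine tco_core (Ω₀ := K₂ᶜ) C (tco_car C p r _ he₀ hLk) hκ (hLp p) hD'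
        (fun g hg y hy hy' => ?_)
        (hf p hp) (fun y hy hy' => hy ?_) subset_union_left (compl_subset_compl.2 h12)
      · exact hg (Or.inr ⟨y, hy, hy'⟩)
      · exact mem_biUnion hy' (mem_smul_set_iff_inv_smul_mem.2 (interior_subset (hκ y)))

end Crest.Agent.R224
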