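import Crest.Agent.R224.Defs
import Crest.Agent.R251.Sd

/-! R224: singular chains and vertex chains with coefficients in `ZMod 2`.
Definitions only: DO NOT CHANGE (owner helper75).

A chain is a finitely supported function on *all* maps `Δ n → X`; `On S n` is the subspace spanned by the
continuous simplices in `S`.  `RC A n z`: `z` is a cycle relative to the complement of `A`; `RB A n z`: a boundary
relative to the complement of `A`. -/

set_option autoImplicit false

namespace Crest.Agent.R224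

open Set Finsupp Crest.Agent.R251

/-- Euclidean four-space. -/
abbrev V4 : Type := EuclideanSpace ℝ (Fin 4)

/-- Singular chains. -/
abbrev SC (X : Type) (n : ℕ) : Type := (Δ n → X) →₀ ZMod 2

section sing

variable {X X' : Type}

/-- The boundary. -/
noncomputable def sb {n : ℕ} : SC X (n + 1) →ₗ[ZMod 2] SC X n :=
  linearCombination (ZMod 2) fun τ => ∑ i : Fin (n + 2), single (fun x => τ (face i x)) 1

/-- The augmentation. -/
noncomputable def aug : SC X 0 →ₗ[ZMod 2] ZMod 2 := linearCombination (ZMod 2) fun _ => 1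

/-- Reduced cycles. -/
def Cyc : ∀ n, SC X n → Prop
  | 0, z => aug z = 0
  | _ + 1, z => sb z = 0

/-- The chain map of a map. -/
noncomputable def smap (f : X → X') {n : ℕ} : SC X n →ₗ[ZMod 2] SC X' n :=
  lmapDomain (ZMod 2) (ZMod 2) fun τ x => f (τ x)

/-- The point simplex. -/
noncomputable def pt (a : X) : SC X 0 := single (fun _ => a) 1

/-- The universal cochain. -/
noncomputable def uni (X : Type) (n : ℕ) : Co X (SC X n) n := fun τ => single τ 1

/-- Iterated barycentric subdivision. -/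
noncomputable def sd (m n : ℕ) : SC X n →ₗ[ZMod 2] SC X n :=
  linearCombination (ZMod 2) fun τ => ev (uni X n) (ext τ) (Sdp (n + 1) m (single (stdv n) 1))

/-- The homotopy from the identity to `sd m`. -/
noncomputable def ht (m n : ℕ) : SC X n →ₗ[ZMod 2] SC X (n + 1) :=
  linearCombination (ZMod 2) fun τ => ∑ j ∈ Finset.range m,
    ev (uni X (n + 1)) (ext τ) (TT (n + 1) (Sdp (n + 1) j (single (stdv n) 1)))

variable [TopologicalSpace X]

/-- Chains of continuous simplices in `S`. -/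
def On (S : Set X) (n : ℕ) : Submodule (ZMod 2) (SC X n) :=
  supported (ZMod 2) (ZMod 2) {τ | Continuous τ ∧ ∀ x, τ x ∈ S}

/-- The boundary of `z` lies in `N` (no condition in degree `0`). -/
def BdIn (N : ∀ n, Submodule (ZMod 2) (SC X n)) : ∀ n, SC X n → Prop
  | 0, _ => True
  | n + 1, z => sb z ∈ N n

/-- Cycles modulo a subcomplex `N`. -/
def NC (N : ∀ n, Submodule (ZMod 2) (SC X n)) (n : ℕ) (z : SC X n) : Prop :=
  z ∈ On univ n ∧ BdIn N n z

/-- Boundaries modulo a subcomplex `N`. -/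
def NB (N : ∀ n, Submodule (ZMod 2) (SC X n)) (n : ℕ) (z : SC X n) : Prop :=
  ∃ w ∈ On univ (n + 1), z - sb w ∈ N n

/-- Local cycles at `A`. -/
abbrev RC (A : Set X) (n : ℕ) (z : SC X n) : Prop := NC (On Aᶜ) n z

/-- Local boundaries at `A`. -/
abbrev RB (A : Set X) (n : ℕ) (z : SC X n) : Prop := NB (On Aᶜ) n z

/-- `H_n(X | A) = 0`. -/
def Triv (A : Set X) (n : ℕ) : Prop := ∀ z, RC A n z → RB A n z

/-- `H_n(X | A)` has exactly two elements. -/
def Two (A : Set X) (n : ℕ) : Prop :=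
  ∃ μ, RC A n μ ∧ ¬RB A n μ ∧ ∀ z, RC A n z → RB A n z ∨ RB A n (z - μ)

/-- Reduced cycles in `S` bound in `S'`. -/
def Fills (S S' : Set X) (n : ℕ) : Prop :=
  ∀ z ∈ On S n, Cyc n z → ∃ w ∈ On S' (n + 1), sb w = z

/-- The local homology of a convex set. -/
structure P4 (B : Set X) : Prop where
  triv : ∀ n, n ≠ 4 → Triv B n
  inj : ∀ x ∈ B, ∀ z, RC B 4 z → RB {x} 4 z → RB B 4 z
  ex : ∃ μ, RC B 4 μ ∧ ∀ x ∈ B, ¬RB {x} 4 μ
  two : ∀ x ∈ B, ∀ z z', RC {x} 4 z → RC {x} 4 z' → ¬RB {x} 4 z → ¬RB {x} 4 z' →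
    RB {x} 4 (z - z')

/-- The local homology of a compact set in a four-manifold. -/
structure PM (A : Set X) : Prop where
  triv : ∀ n, 4 < n → Triv A n
  inj : ∀ z, RC A 4 z → (∀ x ∈ A, RB {x} 4 z) → RB A 4 z
  ex : ∃ μ, RC A 4 μ ∧ ∀ x ∈ A, ¬RB {x} 4 μ

/-- Non-empty compact sets that are convex in a chart. -/
def Cvx (B : Set X) : Prop :=
  ∃ φ : OpenPartialHomeomorph X V4, B ⊆ φ.source ∧ IsCompact B ∧ B.Nonempty ∧ Convex ℝ (φ '' B)

/-- Locally Euclidean of dimension four. -/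
def Loc4 (X : Type) [TopologicalSpace X] : Prop :=
  ∀ x : X, ∃ φ : OpenPartialHomeomorph X V4, x ∈ φ.source

/-- The subcomplex spanned by the simplices that miss one of the sets `A i`, `i ∈ σ`. -/
noncomputable def Ns {I : Type} (A : I → Set X) (σ : Finset I) (n : ℕ) : Submodule (ZMod 2) (SC X n) :=
  ⨆ i ∈ σ, On (A i)ᶜ n

/-- The Čech coboundary. -/
def cd {I M : Type} [DecidableEq I] [AddCommMonoid M] (a : Finset I → M) (τ : Finset I) : M :=
  ∑ i ∈ τ, a (τ.erase i)

/-- A metric on the compact set `K`, given as a function on the ambient space. -/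
structure Met (K : Set X) (ρ : X → X → ℝ) : Prop where
  self : ∀ x, ρ x x = 0
  symm : ∀ x y, ρ x y = ρ y x
  tri : ∀ x ∈ K, ∀ y ∈ K, ∀ z ∈ K, ρ x z ≤ ρ x y + ρ y z
  cont : ∀ x ∈ K, ContinuousOn (ρ x) K
  nhds : ∀ x ∈ K, ∀ O ∈ nhds x, ∃ r > 0, ∀ y ∈ K, ρ x y ≤ r → y ∈ O

/-- Closed balls of such a metric. -/
def Bl (K : Set X) (ρ : X → X → ℝ) (x : X) (r : ℝ) : Set X := {y | y ∈ K ∧ ρ x y ≤ r}

end sing

/-- Vertex chains (`n` is the number of vertices; `n = 0` is the augmentation). -/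
abbrev VC (W : Type) (n : ℕ) : Type := (Fin n → W) →₀ ZMod 2

/-- The boundary of vertex chains. -/
noncomputable def vb {W : Type} {n : ℕ} : VC W (n + 1) →ₗ[ZMod 2] VC W n :=
  linearCombination (ZMod 2) fun v => ∑ i : Fin (n + 1), single (fun j => v (i.succAbove j)) 1

open Pointwise in
/-- A proper cocompact action on a contractible four-manifold. -/
structure Act (Γ E : Type) [Group Γ] [TopologicalSpace E] [MulAction Γ E] : Prop where
  t2 : T2Space E
  contr : ContractibleSpace E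
  cont : ContinuousConstSMul Γ E
  loc : Loc4 E
  proper : ∀ K : Set E, IsCompact K → {g : Γ | (g • K ∩ K).Nonempty}.Finite
  cc : ∃ L : Set E, IsCompact L ∧ ∀ e : E, ∃ g : Γ, g⁻¹ • e ∈ interior L

/-- Tuples of diameter at most `r` with vertices outside `K`. -/
def Cay.Tup {Γ : Type} [Group Γ] (C : Cay Γ) (r : ℕ) (K : Set Γ) (n : ℕ) : Set (Fin n → Γ) :=
  {v | (∀ i j, C.d (v i) (v j) ≤ r) ∧ ∀ i, v i ∉ K}

/-- Cycles of `(p+1)`-tuples at scale `r` outside `K'` bound at scale `r'` outside `K`. -/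
def Cay.Bds {Γ : Type} [Group Γ] (C : Cay Γ) (p r r' : ℕ) (K' K : Set Γ) : Prop :=
  ∀ c : VC Γ (p + 1), (∀ v ∈ c.support, v ∈ C.Tup r K' (p + 1)) → vb c = 0 →
    ∃ e : VC Γ (p + 2), (∀ u ∈ e.support, u ∈ C.Tup r' K (p + 2)) ∧ vb e = c

end Crest.Agent.R224
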