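import Crest.Agent.R224.TBas
import Crest.Agent.R251.Prism

/-! R224, task TPr: homotopy invariance.

`prism`: `P τ = ev (uni X' (n+1)) (fun p => H (ext τ p.1, p.2)) (Pr (n+1) (single (stdv n) 1))`, extended
linearly; compare `R251/Prism.lean` (`bd_Pr`, `Pr_mem_In`, `Pr_nat`, `bd_stdv`, `ev_congr`, `ev_lmap`, `sb_ev`,
`ev_mem_On`): `sb (P z) + P (sb z) = smap h₁ z - smap h₀ z` (no second term in degree `0`).
`const_bd`: `smap (const a) z = s • single (const a) 1` with `s` the sum of the coefficients, and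
`sb (single (const a) 1) = (n + 2) • single (const a) 1` in degree `n + 1`.  Degree `0`: `s = aug z = 0`.  Degree
`n + 1`: if `n` is odd, `sb = 0` forces `s = 0`; if `n` is even, `single (const a) 1` is the boundary of the constant
simplex of the next degree.
`fills_star`: `H (x, t) = x + t • (a - x)`.  `hull`: `id` is homotopic to a constant
(`ContractibleSpace.hequiv_unit`/`id_nullhomotopic`); extend the homotopy by `projIcc`; `L'` is the image of
`L ×ˢ Icc 0 1`.  `Cvx.fills`: `H (x, t) = φ.symm (φ x + t • (φ a - φ x))`. -/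

set_option autoImplicit false
set_option linter.unusedSectionVars false

namespace Crest.Agent.R224

open Set Finsupp Topology Crest.Agent.R251

variable {X X' : Type} [TopologicalSpace X] [TopologicalSpace X'] {n : ℕ}

/-- The prism operator on singular chains. -/
noncomputable def tprP (H : X × ℝ → X') (n : ℕ) : SC X n →ₗ[ZMod 2] SC X' (n + 1) :=
  linearCombination (ZMod 2) fun τ =>
    ev (uni X' (n + 1)) (fun p => H (ext τ p.1, p.2)) (Pr (n + 1) (single (stdv n) 1))

theorem tprP_single (H : X × ℝ → X') (τ : Δ n → X) : tprP H n (single τ 1) =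
    ev (uni X' (n + 1)) (fun p => H (ext τ p.1, p.2)) (Pr (n + 1) (single (stdv n) 1)) := by
  rw [tprP, linearCombination_single, one_smul]

theorem tpr_neg_one (i : ℕ) (z : SC X n) : (-1 : ℤ) ^ i • z = z := by
  rcases neg_one_pow_eq_or ℤ i with h | h
  · rw [h, one_smul]
  · rw [h, neg_smul, one_smul, neg_eq_of_add_eq_zero_right (sc_add_self _)]

theorem tpr_conv (n : ℕ) : Convex ℝ (stdSimplex ℝ (Fin (n + 1)) ×ˢ Icc (0 : ℝ) 1) :=
  (convex_stdSimplex ℝ _).prod (convex_Icc 0 1)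

theorem tpr_In (n : ℕ) : Pr (n + 1) (single (stdv n) (1 : ℤ)) ∈
    In (stdSimplex ℝ (Fin (n + 1)) ×ˢ Icc (0 : ℝ) 1) (n + 2) :=
  Pr_mem_In _ (single_mem_In (stdv_mem n))

theorem tpr_end (H : X × ℝ → X') (τ : Δ n → X) (s : ℝ) :
    ev (uni X' n) (fun p : (Fin (n + 1) → ℝ) × ℝ => H (ext τ p.1, p.2))
      (lmap (fun w => (w, s)) (single (stdv n) 1)) = smap (fun x => H (x, s)) (single τ 1) := by
  rw [lmap_single, ev_single, smap_single, uni]
  congr 1
  funext x
  simp only [sx, cmb_prod, cmb_const, cmb_stdv, ext_val]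

theorem sb_tprP_zero (H : X × ℝ → X') (z : SC X 0) :
    sb (tprP H 0 z) = smap (fun x => H (x, 1)) z - smap (fun x => H (x, 0)) z := by
  refine sc_ext (f := sb ∘ₗ tprP H 0) (g := smap (fun x => H (x, 1)) - smap fun x => H (x, 0))
    (fun τ => ?_) z
  have hb := congrArg (ev (uni X' 0) fun p : (Fin (0 + 1) → ℝ) × ℝ => H (ext τ p.1, p.2))
    (bd_Pr 0 (single (stdv 0) 1))
  have h0 : Pr 0 (bd (single (stdv 0) (1 : ℤ))) = 0 := rfl
  rw [h0, add_zero, map_sub, tpr_end, tpr_end] at hb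
  rw [LinearMap.comp_apply, tprP_single, sb_ev, hb, LinearMap.sub_apply]

theorem sb_tprP (H : X × ℝ → X') (z : SC X (n + 1)) :
    sb (tprP H (n + 1) z) + tprP H n (sb z) =
      smap (fun x => H (x, 1)) z - smap (fun x => H (x, 0)) z := by
  refine sc_ext (f := sb ∘ₗ tprP H (n + 1) + tprP H n ∘ₗ sb)
    (g := smap (fun x => H (x, 1)) - smap fun x => H (x, 0)) (fun τ => ?_) z
  have hb := congrArg (ev (uni X' (n + 1)) fun p : (Fin (n + 1 + 1) → ℝ) × ℝ => H (ext τ p.1, p.2))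
    (bd_Pr (n + 1) (single (stdv (n + 1)) 1))
  rw [map_add, map_sub, tpr_end, tpr_end] at hb
  rw [LinearMap.add_apply, LinearMap.comp_apply, LinearMap.comp_apply, tprP_single, sb_ev,
    LinearMap.sub_apply, ← hb, sb_single, bd_stdv]
  congr 1
  simp only [map_sum, map_smul, tpr_neg_one]
  refine Finset.sum_congr rfl fun i _ => ?_
  rw [tprP_single, ← Pr_nat, ev_lmap _ _ (fun v x => cmb_linear ((fl i).prodMap LinearMap.id) v x)]
  refine ev_congr _ (tpr_conv n) (fun p hp => ?_) (tpr_In n)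
  simp only [ext_face τ i hp.1]

theorem tpr_ext_cont {τ : Δ n → X} (h : Continuous τ) :
    ContinuousOn (ext τ) (stdSimplex ℝ (Fin (n + 1))) := by
  rw [continuousOn_iff_continuous_domRestrict]
  convert h using 1
  funext y
  exact ext_val τ y

theorem tprP_mem {S : Set X} {S' : Set X'} {H : X × ℝ → X'} (hH : ContinuousOn H (S ×ˢ Icc 0 1))
    (hS : MapsTo H (S ×ˢ Icc 0 1) S') {z : SC X n} (hz : z ∈ On S n) :
    tprP H n z ∈ On S' (n + 1) := by
  refine On_le (tprP H n) _ (fun τ h h' => ?_) hz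
  rw [tprP_single]
  have hm : MapsTo (fun p : (Fin (n + 1) → ℝ) × ℝ => (ext τ p.1, p.2))
      (stdSimplex ℝ (Fin (n + 1)) ×ˢ Icc (0 : ℝ) 1) (S ×ˢ Icc 0 1) := fun p hp => by
    refine ⟨?_, hp.2⟩
    have e : ext τ p.1 = τ ⟨p.1, hp.1⟩ := ext_val τ ⟨p.1, hp.1⟩
    show ext τ p.1 ∈ S
    rw [e]
    exact h' _
  exact ev_mem_On (tpr_conv n) (hH.comp
    (((tpr_ext_cont h).comp continuousOn_fst fun _ hp => hp.1).prodMk continuousOn_snd) hm)
    (hS.comp hm) (tpr_In n)

theorem prism {S : Set X} {S' : Set X'} {H : X × ℝ → X'} (hH : ContinuousOn H (S ×ˢ Icc 0 1))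
    (hS : MapsTo H (S ×ˢ Icc 0 1) S') {z : SC X n} (hz : z ∈ On S n) (hc : Cyc n z) :
    ∃ w ∈ On S' (n + 1), sb w = smap (fun x => H (x, 1)) z - smap (fun x => H (x, 0)) z := by
  refine ⟨tprP H n z, tprP_mem hH hS hz, ?_⟩
  cases n with
  | zero => exact sb_tprP_zero H z
  | succ n =>
    have h := sb_tprP H z
    rwa [show sb z = 0 from hc, map_zero, add_zero] at h

theorem tpr_smap_const (a : X') (z : SC X n) :
    smap (fun _ => a) z =
      (linearCombination (ZMod 2) (fun _ => (1 : ZMod 2)) z) • single (fun _ => a) 1 := by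
  refine sc_ext (f := smap fun _ => a) (g := (LinearMap.toSpanSingleton (ZMod 2) _
    (single (fun _ => a) 1)) ∘ₗ linearCombination (ZMod 2) fun _ => (1 : ZMod 2)) (fun τ => ?_) z
  rw [smap_single]
  simp

theorem tpr_sb_const (a : X') :
    sb (single (fun _ : Δ (n + 1) => a) (1 : ZMod 2)) =
      ((n + 2 : ℕ) : ZMod 2) • single (fun _ : Δ n => a) (1 : ZMod 2) := by
  rw [sb_single, Finset.sum_const, Finset.card_univ, Fintype.card_fin, Nat.cast_smul_eq_nsmul]

theorem const_bd (a : X') {z : SC X n} (hc : Cyc n z) :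
    ∃ w ∈ On {a} (n + 1), sb w = smap (fun _ => a) z := by
  have hc' := hc.smap (fun _ => a)
  rw [tpr_smap_const] at hc' ⊢
  set s := linearCombination (ZMod 2) (fun _ => (1 : ZMod 2)) z
  have hs : s = 0 → ∃ w ∈ On {a} (n + 1), sb w = s • single (fun _ : Δ n => a) (1 : ZMod 2) :=
    fun h => ⟨0, Submodule.zero_mem _, by rw [h, zero_smul, map_zero]⟩
  cases n with
  | zero =>
    refine hs ?_
    have h : aug (s • single (fun _ : Δ 0 => a) (1 : ZMod 2)) = 0 := hc'
    simpa [aug] using h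
  | succ n =>
    have h : sb (s • single (fun _ : Δ (n + 1) => a) (1 : ZMod 2)) = 0 := hc'
    rw [map_smul, tpr_sb_const, smul_smul] at h
    have h2 : s * ((n + 2 : ℕ) : ZMod 2) = 0 := by
      have := congrArg (fun f : SC X' n => f fun _ => a) h
      simpa using this
    refine ⟨s • single (fun _ => a) 1, Submodule.smul_mem _ _
      (single_mem_On continuous_const fun _ => rfl), ?_⟩
    rw [map_smul, tpr_sb_const, smul_smul]
    congr 1
    have e : ((n + 1 + 2 : ℕ) : ZMod 2) = ((n + 2 : ℕ) : ZMod 2) + 1 := by push_cast; ring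
    rw [e, mul_add, h2, zero_add, mul_one]

theorem fills_of_homotopy {S S' : Set X} {H : X × ℝ → X} (hH : ContinuousOn H (S ×ˢ Icc 0 1))
    (hS : MapsTo H (S ×ˢ Icc 0 1) S') (h0 : ∀ x ∈ S, H (x, 0) = x) {a : X}
    (h1 : ∀ x ∈ S, H (x, 1) = a) (n : ℕ) : Fills S S' n := by
  intro z hz hc
  rcases S.eq_empty_or_nonempty with rfl | ⟨x, hx⟩
  · rw [On_empty, Submodule.mem_bot] at hz
    exact ⟨0, Submodule.zero_mem _, by rw [hz, map_zero]⟩
  have ha : a ∈ S' := h1 x hx ▸ hS (mk_mem_prod hx (right_mem_Icc.2 zero_le_one))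
  obtain ⟨w, hw, e⟩ := prism hH hS hz hc
  obtain ⟨w', hw', e'⟩ := const_bd a hc
  rw [smap_congr (g := fun _ => a) h1 hz, smap_id' h0 hz] at e
  refine ⟨w' - w, Submodule.sub_mem _ (On_mono (singleton_subset_iff.2 ha) hw') hw, ?_⟩
  rw [map_sub, e, e', sub_sub_cancel]

theorem fills_star {W : Type} [NormedAddCommGroup W] [NormedSpace ℝ W] {S : Set W} {a : W}
    (h : ∀ x ∈ S, ∀ t ∈ Icc (0 : ℝ) 1, x + t • (a - x) ∈ S) (n : ℕ) : Fills S S n := by
  refine fills_of_homotopy (H := fun p => p.1 + p.2 • (a - p.1)) (a := a) (by fun_prop)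
    (fun p hp => h _ hp.1 _ hp.2) (fun x _ => by simp) (fun x _ => by simp) n

theorem tpr_contr [ContractibleSpace X] : ∃ (H : X × ℝ → X) (a : X), Continuous H ∧
    (∀ x, H (x, 0) = x) ∧ ∀ x, H (x, 1) = a := by
  obtain ⟨a, ⟨F⟩⟩ := id_nullhomotopic X
  refine ⟨fun p => F (projIcc 0 1 zero_le_one p.2, p.1), a, F.continuous.comp
    ((continuous_projIcc.comp continuous_snd).prodMk continuous_fst), fun x => ?_, fun x => ?_⟩
  · simp only [projIcc_left]
    exact F.apply_zero x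
  · simp only [projIcc_right]
    exact F.apply_one x

theorem fills_univ [ContractibleSpace X] (n : ℕ) : Fills (univ : Set X) univ n := by
  obtain ⟨H, a, hH, h0, h1⟩ := tpr_contr (X := X)
  exact fills_of_homotopy hH.continuousOn (mapsTo_univ _ _) (fun x _ => h0 x) (fun x _ => h1 x) n

theorem hull [ContractibleSpace X] {L : Set X} (hL : IsCompact L) :
    ∃ L', IsCompact L' ∧ L ⊆ L' ∧ ∀ n, Fills L L' n := by
  obtain ⟨H, a, hH, h0, h1⟩ := tpr_contr (X := X)
  refine ⟨H '' (L ×ˢ Icc 0 1), (hL.prod isCompact_Icc).image hH, fun x hx =>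
    ⟨(x, 0), ⟨hx, left_mem_Icc.2 zero_le_one⟩, h0 x⟩, fun n => ?_⟩
  exact fills_of_homotopy hH.continuousOn (mapsTo_image _ _) (fun x _ => h0 x) (fun x _ => h1 x) n

theorem Cvx.fills {B : Set X} (hB : Cvx B) (n : ℕ) : Fills B B n := by
  obtain ⟨φ, hs, -, ⟨a, ha⟩, hc⟩ := hB
  have hm : MapsTo (fun p : X × ℝ => φ p.1 + p.2 • (φ a - φ p.1)) (B ×ˢ Icc 0 1) (φ '' B) :=
    fun p hp => hc.add_smul_sub_mem (mem_image_of_mem φ hp.1) (mem_image_of_mem φ ha) hp.2
  have ht : φ '' B ⊆ φ.target := by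
    rintro _ ⟨x, hx, rfl⟩
    exact φ.map_source (hs hx)
  have hφ : ContinuousOn (fun p : X × ℝ => φ p.1) (B ×ˢ Icc 0 1) :=
    φ.continuousOn.comp continuousOn_fst fun p hp => hs hp.1
  refine fills_of_homotopy (H := fun p => φ.symm (φ p.1 + p.2 • (φ a - φ p.1))) (a := a)
    (φ.continuousOn_symm.comp (hφ.add (continuousOn_snd.smul (continuousOn_const.sub hφ)))
      fun p hp => ht (hm hp)) (fun p hp => ?_) (fun x hx => ?_) (fun x _ => ?_) n
  · obtain ⟨y, hy, e⟩ := hm hp
    simp only at e ⊢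
    rw [← e, φ.left_inv (hs hy)]
    exact hy
  · simp only [zero_smul, add_zero]
    exact φ.left_inv (hs hx)
  · simp only [one_smul, add_sub_cancel]
    exact φ.left_inv (hs ha)

end Crest.Agent.R224
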