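import Crest.Agent.R224.TMV
import Crest.Agent.R224.TPr

/-! R224, task TEuc1: local homology of Euclidean space.

`triv_of_fills`: degree `n + 1`: `sb z = sb u` with `u ∈ On Aᶜ`, and `z - u` is a cycle, so it bounds.  Degree `0`:
`z - aug z • pt a` is a reduced cycle.
Let `Vs j = {x | ∀ i, j ≤ i → x i = 0}` (`Vs 0 = {0}`, `Vs 4 = univ`) and, for `j < 4` and `s = ±1`,
`Hs j s = {x ∈ Vs (j+1) | 0 ≤ s * x j}`.  They are closed, `Hs j 1 ∪ Hs j (-1) = Vs (j+1)`,
`Hs j 1 ∩ Hs j (-1) = Vs j`, and the complement of `Hs j s` is star-shaped about `-s • e j` (`fills_star`).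
For `univ`: `On univᶜ = ⊥`, `Two univ 0` (with `μ = pt 0`, `aug_sb`) and `Triv univ (n+1)`.  Induction on
`t ≤ 4`: `Two (Vs (4 - t)) t` and `Triv (Vs (4 - t)) n` for `n ≠ t` (`mv_two`, `mv_triv`; degree `0` by
`triv_zero`).  `point`: translate by `x` (`smap` of a homeomorphism), or do the above with centre `x`.

`radial`: for `x ∈ B` and `lam ≥ 1` let `D y = x + lam • (y - x)` and `H (y, t) = x + (1 + t * (lam - 1)) • (y - x)`.
`H` preserves `Bᶜ` (convexity) and `{x}ᶜ`, and `D` maps a given compact subset of `{x}ᶜ` into `Bᶜ` for large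
`lam`.  `rad_inj` (degree `n + 1`): `c = sb z ∈ On Bᶜ` bounds `y ∈ On {x}ᶜ`; `smap D y ∈ On Bᶜ` bounds `smap D c`,
which is homologous to `c` in `Bᶜ` (`prism`); so `c = sb u` with `u ∈ On Bᶜ` and `z - u` bounds in `V4`.
`rad_surj`: `c = sb z` is homologous in `{x}ᶜ` to `smap D c`: `sb q = smap D c - c`; take `z' = z + q`.
`p4_convex`: `ex`: take `μ` from `rad_surj` at one point `x₀`; if it were a local boundary at `x`, it would be one
at `B` (`rad_inj`), hence at `x₀`. -/

set_option autoImplicit false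
set_option linter.unusedSectionVars false

namespace Crest.Agent.R224

open Set Finsupp Topology Crest.Agent.R251

theorem triv_zero' {X : Type} [TopologicalSpace X] {A : Set X} (h1 : Fills (univ : Set X) univ 0)
    (h3 : Aᶜ.Nonempty) : Triv A 0 := by
  obtain ⟨a, ha⟩ := h3
  intro z hz
  obtain ⟨w, hw, e⟩ := h1 (z - aug z • pt a)
    (Submodule.sub_mem _ hz.1 (Submodule.smul_mem _ _ (pt_mem_On (mem_univ a)))) (by
      show aug (z - aug z • pt a) = 0
      rw [map_sub, map_smul, aug_pt, smul_eq_mul, mul_one, sub_self])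
  refine ⟨w, hw, ?_⟩
  rw [e, sub_sub_cancel]
  exact Submodule.smul_mem _ _ (pt_mem_On ha)

theorem triv_of_fills {X : Type} [TopologicalSpace X] {A : Set X} (h1 : ∀ n, Fills (univ : Set X) univ n)
    (h2 : ∀ n, Fills Aᶜ Aᶜ n) (h3 : Aᶜ.Nonempty) (n : ℕ) : Triv A n := by
  cases n with
  | zero => exact triv_zero' (h1 0) h3
  | succ n =>
    intro z hz
    obtain ⟨u, hu, e⟩ := h2 n (sb z) hz.2 (cyc_sb z)
    obtain ⟨w, hw, e'⟩ := h1 (n + 1) (z - u)
      (Submodule.sub_mem _ hz.1 (On_mono (subset_univ _) hu)) (by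
        show sb (z - u) = 0
        rw [map_sub, e, sub_self])
    refine ⟨w, hw, ?_⟩
    rw [e', sub_sub_cancel]
    exact hu

theorem triv_zero {X : Type} [TopologicalSpace X] {A : Set X} (h1 : Fills (univ : Set X) univ 0)
    (h3 : Aᶜ.Nonempty) : Triv A 0 := by
  exact triv_zero' h1 h3

theorem two_univ {X : Type} [TopologicalSpace X] (h1 : Fills (univ : Set X) univ 0) (x : X) :
    Two (univ : Set X) 0 := by
  have hp : pt x ∈ On (univ : Set X) 0 := pt_mem_On (mem_univ x)
  have key : ∀ z ∈ On (univ : Set X) 0, aug z = 0 → RB (univ : Set X) 0 z := by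
    intro z hz hc
    obtain ⟨w, hw, e⟩ := h1 z hz hc
    rw [← e]
    exact NB.sb hw
  refine ⟨pt x, ⟨hp, trivial⟩, ?_, fun z hz => ?_⟩
  · rintro ⟨w, -, h⟩
    rw [compl_univ, On_empty, Submodule.mem_bot, sub_eq_zero] at h
    have := aug_sb w
    rw [← h, aug_pt] at this
    exact one_ne_zero this
  · have h2 : ∀ a : ZMod 2, a = 0 ∨ a = 1 := by decide
    rcases h2 (aug z) with h | h
    · exact Or.inl (key z hz.1 h)
    · refine Or.inr (key _ (Submodule.sub_mem _ hz.1 hp) ?_)
      rw [map_sub, h, aug_pt, sub_self]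

theorem triv_univ {X : Type} [TopologicalSpace X] {n : ℕ} (h1 : Fills (univ : Set X) univ (n + 1)) :
    Triv (univ : Set X) (n + 1) := by
  intro z hz
  have h : sb z ∈ On (univ : Set X)ᶜ n := hz.2
  rw [compl_univ, On_empty, Submodule.mem_bot] at h
  obtain ⟨w, hw, e⟩ := h1 z hz.1 h
  rw [← e]
  exact NB.sb hw

/-- Coordinate affine subspaces through `x`. -/
def eucV (x : V4) (j : ℕ) : Set V4 := {y | ∀ i : Fin 4, j ≤ (i : ℕ) → y i = x i}

/-- Their half-spaces. -/
def eucH (x : V4) (j : Fin 4) (s : ℝ) : Set V4 :=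
  {y | y ∈ eucV x ((j : ℕ) + 1) ∧ 0 ≤ s * (y j - x j)}

theorem isClosed_eucV (x : V4) (j : ℕ) : IsClosed (eucV x j) := by
  have : eucV x j = ⋂ i : Fin 4, ⋂ _ : j ≤ (i : ℕ), {y : V4 | y i = x i} := by
    ext y
    simp [eucV]
  rw [this]
  exact isClosed_iInter fun i => isClosed_iInter fun _ =>
    isClosed_eq (by fun_prop) continuous_const

theorem isClosed_eucH (x : V4) (j : Fin 4) (s : ℝ) : IsClosed (eucH x j s) :=
  (isClosed_eucV x _).inter (isClosed_le (f := fun _ => (0 : ℝ)) (g := fun y : V4 => s * (y j - x j))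
    continuous_const (by fun_prop))

theorem eucH_union (x : V4) (j : Fin 4) : eucH x j 1 ∪ eucH x j (-1) = eucV x ((j : ℕ) + 1) := by
  ext y
  constructor
  · rintro (h | h) <;> exact h.1
  · intro h
    rcases le_total 0 (y j - x j) with h' | h'
    · exact Or.inl ⟨h, by linarith⟩
    · exact Or.inr ⟨h, by linarith⟩

theorem eucH_inter (x : V4) (j : Fin 4) : eucH x j 1 ∩ eucH x j (-1) = eucV x j := by
  ext y
  constructor
  · rintro ⟨⟨h, h1⟩, -, h2⟩ i hi
    rcases hi.eq_or_lt with e | e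
    · obtain rfl : j = i := Fin.ext e
      linarith
    · exact h i e
  · intro h
    have h0 : y j - x j = 0 := sub_eq_zero.2 (h j le_rfl)
    have h1 : y ∈ eucV x ((j : ℕ) + 1) := fun i hi => h i (by omega)
    exact ⟨⟨h1, by rw [h0, mul_zero]⟩, h1, by rw [h0, mul_zero]⟩

theorem fills_V4 (n : ℕ) : Fills (univ : Set V4) univ n :=
  fills_star (a := 0) (fun _ _ _ _ => mem_univ _) n

theorem triv_eucH (x : V4) (j : Fin 4) {s : ℝ} (hs : s * s = 1) (n : ℕ) : Triv (eucH x j s) n := by
  set a : V4 := x - EuclideanSpace.single j s with ha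
  have haj : a j = x j - s := by simp [ha]
  have hai : ∀ i : Fin 4, (j : ℕ) + 1 ≤ (i : ℕ) → a i = x i := by
    intro i hi
    have : i ≠ j := by
      rintro rfl
      omega
    simp [ha, this]
  refine triv_of_fills fills_V4 (fills_star (a := a) ?_) ⟨a, fun h => ?_⟩ n
  · rintro y hy t ⟨h0, h1⟩ ⟨h, h'⟩
    have e : ∀ i, (y + t • (a - y)) i = y i + t * (a i - y i) := fun i => by simp
    rw [e, haj] at h'
    have e' : s * (y j + t * (x j - s - y j) - x j) = (1 - t) * (s * (y j - x j)) - t * (s * s) := by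
      ring
    rw [e', hs] at h'
    have ht : 0 < 1 - t := by
      rcases h1.eq_or_lt with rfl | h1
      · norm_num at h'
      · linarith
    refine hy ⟨fun i hi => ?_, ?_⟩
    · have := h i hi
      rw [e, hai i hi] at this
      have h2 : (1 - t) * (y i - x i) = 0 := by linarith
      exact sub_eq_zero.1 ((mul_eq_zero.1 h2).resolve_left ht.ne')
    · exact nonneg_of_mul_nonneg_right (by linarith) ht
  · have := h.2
    rw [haj] at this
    linarith

theorem euc_ind (x : V4) (t : ℕ) (ht : t ≤ 4) :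
    Two (eucV x (4 - t)) t ∧ ∀ n, n ≠ t → Triv (eucV x (4 - t)) n := by
  induction t with
  | zero =>
    have : eucV x (4 - 0) = univ := eq_univ_of_forall fun y i hi => by omega
    rw [this]
    refine ⟨two_univ (fills_V4 0) x, fun n hn => ?_⟩
    obtain ⟨m, rfl⟩ := Nat.exists_eq_succ_of_ne_zero hn
    exact triv_univ (fills_V4 _)
  | succ t ih =>
    obtain ⟨h1, h2⟩ := ih (by omega)
    let j : Fin 4 := ⟨3 - t, by omega⟩
    have e1 : 4 - t = (j : ℕ) + 1 := by
      show 4 - t = 3 - t + 1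
      omega
    have e2 : 4 - (t + 1) = (j : ℕ) := by
      show 4 - (t + 1) = 3 - t
      omega
    rw [e1, ← eucH_union] at h1 h2
    have hK := triv_eucH x j (s := 1) (by norm_num)
    have hL := triv_eucH x j (s := -1) (by norm_num)
    rw [e2]
    refine ⟨?_, fun n hn => ?_⟩
    · rw [← eucH_inter]
      exact mv_two (isClosed_eucH _ _ _) (isClosed_eucH _ _ _) hK hL h1
    · cases n with
      | zero =>
        refine triv_zero (fills_V4 0) ⟨x + EuclideanSpace.single j 1, fun h => ?_⟩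
        have := h j le_rfl
        simp at this
      | succ n =>
        rw [← eucH_inter]
        exact mv_triv (isClosed_eucH _ _ _) (isClosed_eucH _ _ _) (hK _) (hL _) (h2 n (by omega))

theorem point (x : V4) : Two {x} 4 ∧ ∀ n, n ≠ 4 → Triv {x} n := by
  have : eucV x (4 - 4) = {x} := by
    ext y
    constructor
    · intro h
      ext i
      exact h i (by omega)
    · rintro rfl i _
      rfl
  rw [← this]
  exact euc_ind x 4 le_rfl

end Crest.Agent.R224
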