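import Crest.Agent.R224.TMV
import Crest.Agent.R224.TPr
import Crest.Agent.R224.TEuc1

/-! R224, task TEuc: local homology of Euclidean space.

`triv_of_fills`: degree `n + 1`: `sb z = sb u` with `u ∈ On Aᶜ`, and `z - u` is a cycle, so it bounds.  Degree `0`:
`z - aug z • pt a` is a reduced cycle.
Let `Vs j = {x | ∀ i, j ≤ i → x i = 0}` (`Vs 0 = {0}`, `Vs 4 = univ`) and, for `j < 4` and `s = ±1`,
`Hs j s = {x ∈ Vs (j+1) | 0 ≤ s * x j}`.  They are closed, `Hs j 1 ∪ Hs j (-1) = Vs (j+1)`,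
`Hs j 1 ∩ Hs j (-1) = Vs j`, and the complement of `Hs j s` is star-shaped about `-s • e j` (`fills_star`).
For `univ`: `On univᶜ = ⊥`, `Two univ 0` (with `μ = pt 0`, `aug_sb`) and `Triv univ (n+1)`.  Induction on
`t ≤ 4`: `Two (Vs (4 - t)) t` and `Triv (Vs (4 - t)) n` for `n ≠ t` (`mv_two`, `mv_triv`; degree `0` by
`triv_zero`).  `point`: translate by `x` (`smap` of a homeomorphism), or do the above with centre `x`.

`radial`: for `x ∈ B` and `lam ≥ 1` let `D y = x + lam • (y - x)` and `H (y, t) = x + (1 + t * (lam - 1)) • (y - x)`.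
`H` preserves `Bᶜ` (convexity) and `{x}ᶜ`, and `D` maps a given compact subset of `{x}ᶜ` into `Bᶜ` for large
`lam`.  `rad_inj` (degree `n + 1`): `c = sb z ∈ On Bᶜ` bounds `y ∈ On {x}ᶜ`; `smap D y ∈ On Bᶜ` bounds `smap D c`,
which is homologous to `c` in `Bᶜ` (`prism`); so `c = sb u` with `u ∈ On Bᶜ` and `z - u` bounds in `V4`.
`rad_surj`: `c = sb z` is homologous in `{x}ᶜ` to `smap D c`: `sb q = smap D c - c`; take `z' = z + q`.
`p4_convex`: `ex`: take `μ` from `rad_surj` at one point `x₀`; if it were a local boundary at `x`, it would be one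
at `B` (`rad_inj`), hence at `x₀`. -/

set_option autoImplicit false
set_option linter.unusedSectionVars false

namespace Crest.Agent.R224

open Set Finsupp Topology Crest.Agent.R251

theorem teuc_big {B K : Set V4} (hB : IsCompact B) (hK : IsCompact K) {x : V4} (hx : K ⊆ {x}ᶜ) :
    ∃ lam : ℝ, 1 ≤ lam ∧ ∀ y ∈ K, x + lam • (y - x) ∈ Bᶜ := by
  obtain ⟨R, hR0, hR⟩ := hB.isBounded.subset_ball_lt 0 x
  obtain ⟨δ, hδ, h⟩ := Metric.isOpen_iff.1 hK.isClosed.isOpen_compl x fun h => hx h rfl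
  refine ⟨1 + R / δ, le_add_of_nonneg_right (by positivity), fun y hy hb => ?_⟩
  have h1 : δ ≤ ‖y - x‖ := not_lt.1 fun h' => h (mem_ball_iff_norm.2 h') hy
  have h2 := mem_ball_iff_norm.1 (hR hb)
  rw [add_sub_cancel_left, norm_smul, Real.norm_of_nonneg (by positivity)] at h2
  have h3 : (1 + R / δ) * δ ≤ (1 + R / δ) * ‖y - x‖ := by gcongr
  rw [add_mul, div_mul_cancel₀ _ hδ.ne'] at h3
  linarith

theorem teuc_prism {S : Set V4} {x : V4} {lam : ℝ} (hl : 1 ≤ lam)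
    (hS : ∀ y ∈ S, ∀ s : ℝ, 1 ≤ s → x + s • (y - x) ∈ S) {n : ℕ} {c : SC V4 n} (hc : c ∈ On S n)
    (hc' : Cyc n c) : ∃ q ∈ On S (n + 1), sb q = smap (fun y => x + lam • (y - x)) c - c := by
  obtain ⟨q, hq, h⟩ := prism (S := S) (S' := S)
    (H := fun p : V4 × ℝ => x + (1 + p.2 * (lam - 1)) • (p.1 - x)) (by fun_prop)
    (fun p hp => hS _ hp.1 _ (le_add_of_nonneg_right (mul_nonneg hp.2.1 (by linarith)))) hc hc'
  refine ⟨q, hq, h.trans ?_⟩
  rw [smap_id' (f := fun y => x + (1 + 0 * (lam - 1)) • (y - x)) (fun y _ => by simp) hc]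
  simp

theorem rad_inj {B : Set V4} (hB : IsCompact B) (hc : Convex ℝ B) {x : V4} (hx : x ∈ B) {n : ℕ}
    {z : SC V4 n} (hz : RC B n z) (h : RB {x} n z) : RB B n z := by
  cases n with
  | zero => exact triv_zero (fills_univ 0) (nonempty_compl.2 hB.ne_univ) z hz
  | succ n =>
    obtain ⟨w, -, hy⟩ := h
    obtain ⟨K, hK, hK', hy'⟩ := exists_compact hy
    obtain ⟨lam, hl, hD⟩ := teuc_big hB hK' hK
    obtain ⟨q, hq, hq'⟩ := teuc_prism (S := Bᶜ) (x := x) hl (fun y hy s hs hp => hy (by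
      have hs0 : 0 < s := by linarith
      have h1 := hc.add_smul_sub_mem hx hp (t := s⁻¹) ⟨by positivity, inv_le_one_of_one_le₀ hs⟩
      rwa [add_sub_cancel_left, smul_smul, inv_mul_cancel₀ hs0.ne', one_smul, add_sub_cancel] at h1))
      hz.2 (cyc_sb z)
    have hu : smap (fun y => x + lam • (y - x)) (z - sb w) - q ∈ On Bᶜ (n + 1) :=
      sub_mem (smap_mem_On (by fun_prop) hD hy') hq
    obtain ⟨w', hw', h1⟩ := fills_univ (n + 1) _ (sub_mem hz.1 (On_mono (subset_univ _) hu)) (by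
      change sb _ = 0
      rw [map_sub, map_sub, hq', ← smap_sb, map_sub, sb_sb, sub_zero]
      abel)
    refine ⟨w', hw', ?_⟩
    rwa [h1, sub_sub_cancel]

theorem rad_surj {B : Set V4} (hB : IsCompact B) {x : V4} {n : ℕ}
    {z : SC V4 n} (hz : RC {x} n z) : ∃ z', RC B n z' ∧ RB {x} n (z' - z) := by
  cases n with
  | zero => exact ⟨z, ⟨hz.1, trivial⟩, NB.of_mem (by rw [sub_self]; exact zero_mem _)⟩
  | succ n =>
    obtain ⟨K, hK, hK', hc⟩ := exists_compact (show sb z ∈ On {x}ᶜ n from hz.2)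
    obtain ⟨lam, hl, hD⟩ := teuc_big hB hK' hK
    obtain ⟨q, hq, hq'⟩ := teuc_prism (S := {x}ᶜ) (x := x) hl (fun y hy s hs hp => hy (by
      have hs0 : s ≠ 0 := by linarith
      rwa [mem_singleton_iff, add_eq_left, smul_eq_zero_iff_right hs0, sub_eq_zero] at hp))
      hz.2 (cyc_sb z)
    refine ⟨z + q, ⟨add_mem hz.1 (On_mono (subset_univ _) hq), ?_⟩,
      NB.of_mem (by rwa [add_sub_cancel_left])⟩
    change sb (z + q) ∈ On Bᶜ n
    rw [map_add, hq', add_sub_cancel]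
    exact smap_mem_On (by fun_prop) hD hc

theorem p4_convex {B : Set V4} (hB : IsCompact B) (hc : Convex ℝ B) (hn : B.Nonempty) : P4 B := by
  obtain ⟨x₀, hx₀⟩ := hn
  refine ⟨fun n h z hz => rad_inj hB hc hx₀ hz
    ((point x₀).2 n h z (hz.anti (singleton_subset_iff.2 hx₀))),
    fun x hx z hz h => rad_inj hB hc hx hz h, ?_, fun x _ z z' hz hz' h h' => ?_⟩
  · obtain ⟨μ₀, h1, h2, -⟩ := (point x₀).1
    obtain ⟨μ, h3, h4⟩ := rad_surj hB h1
    refine ⟨μ, h3, fun x hx h => h2 ?_⟩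
    have h5 := ((rad_inj hB hc hx h3 h).anti (singleton_subset_iff.2 hx₀)).sub h4
    rwa [sub_sub_cancel] at h5
  · obtain ⟨μ, -, -, h3⟩ := (point x).1
    have h4 := ((h3 z hz).resolve_left h).sub ((h3 z' hz').resolve_left h')
    rwa [sub_sub_sub_cancel_right] at h4

end Crest.Agent.R224
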