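import Crest.Agent.R224.TSd

/-! R224, task TMV: Mayer–Vietoris for local homology at closed sets `K`, `L`.

`split` is `nb_small` for the two open sets `Kᶜ, Lᶜ` (index `Bool`), whose union is `(K ∩ L)ᶜ`.
`mv_glue`: `z = sb a + u = sb b + v`.  `glue_of`: if `a - b = sb w + u' + v'` put `c = a - u'`; then
`z - sb c = u + sb u' = v - sb v'` lies in `On Kᶜ ⊓ On Lᶜ = On (K ∪ L)ᶜ`.
`mv_ex`: `μ - ν = sb w + u + v`; take `μ - u = ν + v + sb w`.
`conn_inj`: let `z` be a local cycle at `K ∩ L` of degree `n + 1`.  `sd_small` for `sb z` gives `m` with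
`sb (sd m z) = u + v`, `u ∈ On Kᶜ`, `v ∈ On Lᶜ`; `z - sd m z` is a local boundary (`sb_ht`), `u` is a local cycle at
`K ∪ L` (`sb u = - sb v`).  `conn_key`: if `sb z = u + v` and `u = sb w + y`, `y ∈ On (K ∪ L)ᶜ`, then `w` is a
local cycle at `K` and `z - w` one at `L`; both are local boundaries there, so `z` is one at `K ∩ L`.
`mv_two`: `μ = sb a + u = sb b + v`; `ζ = a - b` has `sb ζ = v - u`; it is not a local boundary at `K ∩ L`
(`glue_of`); for any `z` apply `conn_key` to `sd m z` or to `sd m z - ζ` (`u - μ` is a boundary). -/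

set_option autoImplicit false
set_option linter.unusedSectionVars false

namespace Crest.Agent.R224

open Set Finsupp Topology Crest.Agent.R251

variable {X : Type} [TopologicalSpace X] {n : ℕ} {K L : Set X}

theorem tmv_iSup (K L : Set X) (n : ℕ) :
    (⨆ b : Bool, On (bif b then Kᶜ else Lᶜ) n) = On Kᶜ n ⊔ On Lᶜ n := by
  rw [iSup_bool_eq]
  rfl

theorem tmv_union (n : ℕ) : On (K ∪ L)ᶜ n = On Kᶜ n ⊓ On Lᶜ n := by
  rw [compl_union, On_inter]

theorem tmv_left (n : ℕ) : On Kᶜ n ≤ On (K ∩ L)ᶜ n :=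
  On_mono (compl_subset_compl.2 inter_subset_left)

theorem tmv_right (n : ℕ) : On Lᶜ n ≤ On (K ∩ L)ᶜ n :=
  On_mono (compl_subset_compl.2 inter_subset_right)

theorem split (hK : IsClosed K) (hL : IsClosed L) {z : SC X n}
    (hc : NC (fun n => On Kᶜ n ⊔ On Lᶜ n) n z) (hb : RB (K ∩ L) n z) :
    NB (fun n => On Kᶜ n ⊔ On Lᶜ n) n z := by
  have e : (fun n => On Kᶜ n ⊔ On Lᶜ n) = fun n => ⨆ b : Bool, On (bif b then Kᶜ else Lᶜ) n :=
    funext fun n => (tmv_iSup K L n).symm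
  have e2 : (K ∩ L)ᶜ = ⋃ b : Bool, bif b then Kᶜ else Lᶜ := by
    rw [compl_inter, union_eq_iUnion]
  rw [e] at hc ⊢
  refine nb_small (U := fun b : Bool => bif b then Kᶜ else Lᶜ) (fun b => ?_) hc ?_
  · cases b
    · exact hL.isOpen_compl
    · exact hK.isOpen_compl
  · rw [← e2]
    exact hb

theorem glue_of (hK : IsClosed K) (hL : IsClosed L) {z : SC X n} {a b : SC X (n + 1)}
    (ha : a ∈ On univ (n + 1)) (hb : b ∈ On univ (n + 1)) (h1 : z - sb a ∈ On Kᶜ n)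
    (h2 : z - sb b ∈ On Lᶜ n) (h : RB (K ∩ L) (n + 1) (a - b)) : RB (K ∪ L) n z := by
  have hc : NC (fun n => On Kᶜ n ⊔ On Lᶜ n) (n + 1) (a - b) := by
    refine ⟨Submodule.sub_mem _ ha hb, ?_⟩
    show sb (a - b) ∈ On Kᶜ n ⊔ On Lᶜ n
    have e : sb (a - b) = (z - sb b) - (z - sb a) := by rw [map_sub]; abel
    rw [e]
    exact Submodule.sub_mem _ (Submodule.mem_sup_right h2) (Submodule.mem_sup_left h1)
  obtain ⟨w, -, hw⟩ := split hK hL hc h
  obtain ⟨u, hu, v, hv, e⟩ := Submodule.mem_sup.1 hw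
  refine ⟨a - u, Submodule.sub_mem _ ha (On_mono (subset_univ _) hu), ?_⟩
  rw [tmv_union]
  refine ⟨?_, ?_⟩
  · have e1 : z - sb (a - u) = (z - sb a) + sb u := by rw [map_sub]; abel
    rw [e1]
    exact Submodule.add_mem _ h1 (sb_mem_On hu)
  · have e0 : a - u = b + v + sb w := by
      rw [show u = a - b - sb w - v by rw [← e]; abel]; abel
    have e1 : z - sb (a - u) = (z - sb b) - sb v := by
      rw [e0, map_add, map_add, sb_sb]; abel
    rw [e1]
    exact Submodule.sub_mem _ h2 (sb_mem_On hv)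

theorem mv_glue (hK : IsClosed K) (hL : IsClosed L) (h : Triv (K ∩ L) (n + 1)) {z : SC X n}
    (h1 : RB K n z) (h2 : RB L n z) : RB (K ∪ L) n z := by
  obtain ⟨a, ha, h1⟩ := h1
  obtain ⟨b, hb, h2⟩ := h2
  refine glue_of hK hL ha hb h1 h2 (h _ ⟨Submodule.sub_mem _ ha hb, ?_⟩)
  show sb (a - b) ∈ On (K ∩ L)ᶜ n
  have e : sb (a - b) = (z - sb b) - (z - sb a) := by rw [map_sub]; abel
  rw [e]
  exact Submodule.sub_mem _ (tmv_right n h2) (tmv_left n h1)

theorem mv_ex (hK : IsClosed K) (hL : IsClosed L) {μ ν : SC X n} (h1 : RC K n μ) (h2 : RC L n ν)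
    (h : RB (K ∩ L) n (μ - ν)) :
    ∃ ζ, RC (K ∪ L) n ζ ∧ RB K n (ζ - μ) ∧ RB L n (ζ - ν) := by
  have hc : NC (fun n => On Kᶜ n ⊔ On Lᶜ n) n (μ - ν) :=
    (NC.mono h1 fun _ => le_sup_left).sub (NC.mono h2 fun _ => le_sup_right)
  obtain ⟨w, hw, hw'⟩ := split hK hL hc h
  obtain ⟨u, hu, v, hv, e⟩ := Submodule.mem_sup.1 hw'
  have e0 : μ - u = ν + v + sb w := by
    rw [show u = μ - ν - sb w - v by rw [← e]; abel]; abel
  refine ⟨μ - u, ⟨Submodule.sub_mem _ h1.1 (On_mono (subset_univ _) hu), ?_⟩, NB.of_mem ?_,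
    ⟨w, hw, ?_⟩⟩
  · cases n with
    | zero => trivial
    | succ n =>
      show sb (μ - u) ∈ On (K ∪ L)ᶜ n
      rw [tmv_union]
      refine ⟨?_, ?_⟩
      · rw [map_sub]
        exact Submodule.sub_mem _ h1.2 (sb_mem_On hu)
      · rw [e0, map_add, map_add, sb_sb, add_zero]
        exact Submodule.add_mem _ h2.2 (sb_mem_On hv)
  · rw [sub_sub_cancel_left]
    exact Submodule.neg_mem _ hu
  · rw [e0, show ν + v + sb w - ν - sb w = v by abel]
    exact hv

theorem conn_key (hK : Triv K (n + 1)) (hL : Triv L (n + 1)) {z : SC X (n + 1)} {u v : SC X n}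
    (hz : z ∈ On univ (n + 1)) (hu : u ∈ On Kᶜ n) (hv : v ∈ On Lᶜ n) (h : sb z = u + v)
    (hb : RB (K ∪ L) n u) : RB (K ∩ L) (n + 1) z := by
  obtain ⟨w, hw, hy⟩ := hb
  rw [tmv_union] at hy
  have h1 : RC K (n + 1) w := by
    refine ⟨hw, ?_⟩
    show sb w ∈ On Kᶜ n
    rw [show sb w = u - (u - sb w) by abel]
    exact Submodule.sub_mem _ hu hy.1
  have h2 : RC L (n + 1) (z - w) := by
    refine ⟨Submodule.sub_mem _ hz hw, ?_⟩
    show sb (z - w) ∈ On Lᶜ n
    rw [map_sub, h, show u + v - sb w = (u - sb w) + v by abel]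
    exact Submodule.add_mem _ hy.2 hv
  have h3 := NB.add (RB.anti (hK _ h1) (inter_subset_left (t := L)))
    (RB.anti (hL _ h2) (inter_subset_right (s := K)))
  rwa [add_sub_cancel] at h3

/-- The connecting homomorphism. -/
theorem conn_ex (hK : IsClosed K) (hL : IsClosed L) {z : SC X (n + 1)}
    (hz : RC (K ∩ L) (n + 1) z) : ∃ z' ∈ On univ (n + 1), ∃ u ∈ On Kᶜ n, ∃ v ∈ On Lᶜ n,
      sb z' = u + v ∧ RC (K ∪ L) n u ∧ RB (K ∩ L) (n + 1) (z - z') := by
  have h0 : sb z ∈ On (K ∩ L)ᶜ n := hz.2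
  obtain ⟨m, hm⟩ := sd_small_two hK.isOpen_compl hL.isOpen_compl (compl_inter K L).subset h0
  obtain ⟨u, hu, v, hv, e⟩ := hm m le_rfl
  rw [← sb_sd] at e
  refine ⟨sd m (n + 1) z, sd_mem_On m hz.1, u, hu, v, hv, e.symm,
    ⟨On_mono (subset_univ _) hu, ?_⟩, sub_sd m (fun n y hy => ht_mem_On m hy) hz.1 hz.2⟩
  cases n with
  | zero => trivial
  | succ n =>
    show sb u ∈ On (K ∪ L)ᶜ n
    rw [tmv_union]
    refine ⟨sb_mem_On hu, ?_⟩
    have e2 := congrArg sb e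
    rw [map_add, sb_sb] at e2
    rw [eq_neg_of_add_eq_zero_left e2]
    exact Submodule.neg_mem _ (sb_mem_On hv)

theorem mv_triv (hK : IsClosed K) (hL : IsClosed L) (h1 : Triv K (n + 1)) (h2 : Triv L (n + 1))
    (h : Triv (K ∪ L) n) : Triv (K ∩ L) (n + 1) := by
  intro z hz
  obtain ⟨z', hz', u, hu, v, hv, e, hc, hb⟩ := conn_ex hK hL hz
  have h3 := NB.add hb (conn_key h1 h2 hz' hu hv e (h u hc))
  rwa [sub_add_cancel] at h3

theorem mv_two (hK : IsClosed K) (hL : IsClosed L) (h1 : ∀ n, Triv K n) (h2 : ∀ n, Triv L n)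
    (h : Two (K ∪ L) n) : Two (K ∩ L) (n + 1) := by
  obtain ⟨μ, hμ, hn, hall⟩ := h
  obtain ⟨a, ha, hu⟩ := h1 n μ (hμ.anti subset_union_left)
  obtain ⟨b, hb, hv⟩ := h2 n μ (hμ.anti subset_union_right)
  have e : sb (a - b) = (μ - sb b) - (μ - sb a) := by rw [map_sub]; abel
  refine ⟨a - b, ⟨Submodule.sub_mem _ ha hb, ?_⟩, fun hb' => hn (glue_of hK hL ha hb hu hv hb'),
    fun z hz => ?_⟩
  · show sb (a - b) ∈ On (K ∩ L)ᶜ n
    rw [e]
    exact Submodule.sub_mem _ (tmv_right n hv) (tmv_left n hu)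
  · obtain ⟨z', hz', u, hu', v, hv', e', hc, hb'⟩ := conn_ex hK hL hz
    rcases hall u hc with h | h
    · left
      have h3 := NB.add hb' (conn_key (h1 _) (h2 _) hz' hu' hv' e' h)
      rwa [sub_add_cancel] at h3
    · right
      have h4 : RB (K ∪ L) n (u - (μ - sb a)) := by
        rw [show u - (μ - sb a) = (u - μ) + sb a by abel]
        exact NB.add h (NB.sb ha)
      have h5 : sb (z' + (a - b)) = (u - (μ - sb a)) + (v + (μ - sb b)) := by
        rw [map_add, e, e']; abel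
      have h3 := NB.add hb' (conn_key (h1 _) (h2 _)
        (Submodule.add_mem _ hz' (Submodule.sub_mem _ ha hb)) (Submodule.sub_mem _ hu' hu)
        (Submodule.add_mem _ hv' hv) h5 h4)
      rw [show z - z' + (z' + (a - b)) = z + (a - b) by abel, ← sc_sub] at h3
      exact h3

theorem PM.union (hK : IsClosed K) (hL : IsClosed L) (h1 : PM K) (h2 : PM L) (h : PM (K ∩ L))
    (htwo : ∀ x ∈ K ∩ L, ∀ z z', RC {x} 4 z → RC {x} 4 z' → ¬RB {x} 4 z → ¬RB {x} 4 z' →
      RB {x} 4 (z - z')) : PM (K ∪ L) := by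
  refine ⟨fun n hn z hz => ?_, fun z hz hx => ?_, ?_⟩
  · exact mv_glue hK hL (h.triv (n + 1) (by omega)) (h1.triv n hn z (hz.anti subset_union_left))
      (h2.triv n hn z (hz.anti subset_union_right))
  · exact mv_glue hK hL (h.triv 5 (by omega))
      (h1.inj z (hz.anti subset_union_left) fun x hx' => hx x (Or.inl hx'))
      (h2.inj z (hz.anti subset_union_right) fun x hx' => hx x (Or.inr hx'))
  · obtain ⟨μ, hμ, hμ'⟩ := h1.ex
    obtain ⟨ν, hν, hν'⟩ := h2.ex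
    have hb : RB (K ∩ L) 4 (μ - ν) :=
      h.inj _ (NC.sub (hμ.anti inter_subset_left) (hν.anti inter_subset_right)) fun x hx =>
        htwo x hx μ ν (hμ.anti (singleton_subset_iff.2 hx.1))
          (hν.anti (singleton_subset_iff.2 hx.2)) (hμ' x hx.1) (hν' x hx.2)
    obtain ⟨ζ, hζ, ha, hb⟩ := mv_ex hK hL hμ hν hb
    refine ⟨ζ, hζ, fun x hx hr => ?_⟩
    rcases hx with hx | hx
    · have h3 := NB.sub hr (RB.anti ha (singleton_subset_iff.2 hx))
      rw [sub_sub_cancel] at h3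
      exact hμ' x hx h3
    · have h3 := NB.sub hr (RB.anti hb (singleton_subset_iff.2 hx))
      rw [sub_sub_cancel] at h3
      exact hν' x hx h3

end Crest.Agent.R224
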