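import Crest.Agent.R224.TEuc

/-! R224, task TMan1: local homology of compact sets in a four-manifold.

`chart_iff`: for compact `A ⊆ φ.source`, `exc_inj` in `X` (open set `φ.source`) and in `V4` (open set
`φ.target`), with `smap φ`, `smap φ.symm` (`smap_mem_On`, `smap_smap`, `smap_id'`, `smap_sb`).
`Cvx.p4`: `exc_surj` in `X` or in `V4`, `chart_iff` for `B` and for `{x}`, `p4_convex`.
`pm_list`: finite unions of compact sets that are empty or convex in one chart `φ`: induction on the number of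
sets, `(A₁ ∪ … ∪ A_m) ∩ A = ⋃ (A_i ∩ A)` (`PM.union`; `PM ∅` is trivial because `On univ` contains everything).
`pm_chart`: for `z` with `sb z ∈ On Aᶜ` take compact `K ⊆ Aᶜ` with `sb z ∈ On K` (`exists_compact`), cover `A`
by finitely many sets `B a = φ.symm '' closedBall (φ a) (r a) ⊆ Kᶜ`, `a ∈ A`; `D = ⋃ B a`; `z` is a local cycle at
`D`.  For `inj`: a point of `B a` is handled by `P4.inj` at the centre `a ∈ A` and `RB.anti`.
`pm_compact`: `A` is a finite union of compact sets in charts; induction on their number as in `pm_list`.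
`exists_cvx`: a small closed ball in a chart. -/

set_option autoImplicit false
set_option linter.unusedSectionVars false

namespace Crest.Agent.R224

open Set Finsupp Topology Crest.Agent.R251

variable {X : Type} [TopologicalSpace X] [T2Space X] {n : ℕ}

theorem tm1_bd {X Y : Type} [TopologicalSpace X] [TopologicalSpace Y] {f : X → Y} {S : Set X} {T : Set Y}
    (hf : ContinuousOn f S) (hT : MapsTo f S T) {z : SC X n} (hc : BdIn (On S) n z) :
    BdIn (On T) n (smap f z) := by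
  cases n with
  | zero => trivial
  | succ n =>
    change sb (smap f z) ∈ On T n
    rw [← smap_sb]
    exact smap_mem_On hf hT hc

theorem tm1_mono {X : Type} [TopologicalSpace X] {S T : Set X} (h : S ⊆ T) {z : SC X n}
    (hc : BdIn (On S) n z) : BdIn (On T) n z := by
  cases n with
  | zero => trivial
  | succ n => exact On_mono h hc

theorem tm1_push {X Y : Type} [TopologicalSpace X] [TopologicalSpace Y] (φ : OpenPartialHomeomorph X Y)
    {A : Set X} {A' : Set Y} (hA : IsClosed A) (hs : A ⊆ φ.source) (hm : MapsTo φ (φ.source \ A) A'ᶜ)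
    {z : SC X n} (hz : z ∈ On φ.source n) (hc : BdIn (On (φ.source \ A)) n z) (hb : RB A n z) :
    RB A' n (smap φ z) := by
  obtain ⟨w, hw, h⟩ := exc_inj hA φ.open_source hs hz hc hb
  refine ⟨smap φ w, smap_mem_On φ.continuousOn (mapsTo_univ _ _) hw, ?_⟩
  rw [← smap_sb, ← map_sub]
  exact smap_mem_On (φ.continuousOn.mono sdiff_subset) hm h

theorem tm1_maps (φ : OpenPartialHomeomorph X V4) {A : Set X} (hs : A ⊆ φ.source) :
    MapsTo φ (φ.source \ A) (φ.target \ φ '' A) := fun _ hx =>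
  ⟨φ.map_source hx.1, fun ⟨_, ha, e⟩ => hx.2 (φ.injOn (hs ha) hx.1 e ▸ ha)⟩

theorem tm1_maps' (φ : OpenPartialHomeomorph X V4) (A : Set X) :
    MapsTo φ.symm (φ.target \ φ '' A) (φ.source \ A) := fun _ hy =>
  ⟨φ.map_target hy.1, fun ha => hy.2 ⟨_, ha, φ.right_inv hy.1⟩⟩

theorem tm1_sub (φ : OpenPartialHomeomorph X V4) {A : Set X} (hs : A ⊆ φ.source) : φ '' A ⊆ φ.target := by
  rintro _ ⟨a, ha, rfl⟩
  exact φ.map_source (hs ha)

theorem chart_iff (φ : OpenPartialHomeomorph X V4) {A : Set X} (hA : IsCompact A)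
    (hs : A ⊆ φ.source) {z : SC X n} (hz : z ∈ On φ.source n)
    (hc : BdIn (On (φ.source \ A)) n z) : RB A n z ↔ RB (φ '' A) n (smap φ z) := by
  refine ⟨tm1_push φ hA.isClosed hs (fun x hx => (tm1_maps φ hs hx).2) hz hc, fun h => ?_⟩
  have h1 := tm1_push φ.symm (A' := A) (hA.image_of_continuousOn (φ.continuousOn.mono hs)).isClosed
    (tm1_sub φ hs) (fun y hy => (tm1_maps' φ A hy).2) (smap_mem_On φ.continuousOn φ.mapsTo hz)
    (tm1_bd (φ.continuousOn.mono sdiff_subset) (tm1_maps φ hs) hc) h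
  rwa [smap_smap, smap_id' (fun x hx => φ.left_inv hx) hz] at h1

theorem tm1_congr {X : Type} [TopologicalSpace X] {A : Set X} {z z' : SC X n} (h : RB A n (z - z')) :
    RB A n z ↔ RB A n z' :=
  ⟨fun h' => by simpa using h'.sub h, fun h' => by simpa using h.add h'⟩

theorem tm1_rep (φ : OpenPartialHomeomorph X V4) {A : Set X} (hA : IsCompact A) (hs : A ⊆ φ.source)
    {z : SC X n} (hz : RC A n z) : ∃ z' ∈ On φ.source n, BdIn (On (φ.source \ A)) n z' ∧ RB A n (z - z') ∧
      RC (φ '' A) n (smap φ z') := by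
  obtain ⟨z', h1, h2, h3⟩ := exc_surj hA.isClosed φ.open_source hs hz
  exact ⟨z', h1, h2, h3, smap_mem_On φ.continuousOn (mapsTo_univ _ _) h1,
    tm1_bd (φ.continuousOn.mono sdiff_subset) (fun x hx => (tm1_maps φ hs hx).2) h2⟩

theorem tm1_two (φ : OpenPartialHomeomorph X V4) {x : X} (hx : x ∈ φ.source) {z z' : SC X 4}
    (h1 : RC {x} 4 z) (h2 : RC {x} 4 z') (h3 : ¬RB {x} 4 z) (h4 : ¬RB {x} 4 z') : RB {x} 4 (z - z') := by
  have hs : {x} ⊆ φ.source := singleton_subset_iff.2 hx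
  obtain ⟨w, a1, a2, a3, a4⟩ := tm1_rep φ isCompact_singleton hs h1
  obtain ⟨w', b1, b2, b3, b4⟩ := tm1_rep φ isCompact_singleton hs h2
  rw [tm1_congr a3, chart_iff φ isCompact_singleton hs a1 a2] at h3
  rw [tm1_congr b3, chart_iff φ isCompact_singleton hs b1 b2] at h4
  rw [image_singleton] at a4 b4 h3 h4
  have h5 := (p4_convex isCompact_singleton (convex_singleton (φ x)) (singleton_nonempty _)).two _ rfl _ _
    a4 b4 h3 h4
  have h6 : BdIn (On (φ.source \ {x})) 4 (w - w') := by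
    change sb (w - w') ∈ On (φ.source \ {x}) 3
    rw [map_sub]
    exact sub_mem a2 b2
  rw [← map_sub, ← image_singleton, ← chart_iff φ isCompact_singleton hs (sub_mem a1 b1) h6] at h5
  have h7 := (a3.sub b3).add h5
  rwa [show z - w - (z' - w') + (w - w') = z - z' by abel] at h7

theorem Cvx.p4 {B : Set X} (hB : Cvx B) : P4 B := by
  obtain ⟨φ, hs, hc, hn, hv⟩ := hB
  have hc' := hc.image_of_continuousOn (φ.continuousOn.mono hs)
  have P := p4_convex hc' hv (hn.image _)
  refine ⟨fun n hn z hz => ?_, fun x hx z hz h => ?_, ?_,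
    fun x hx z z' h1 h2 h3 h4 => tm1_two φ (hs hx) h1 h2 h3 h4⟩
  · obtain ⟨w, a1, a2, a3, a4⟩ := tm1_rep φ hc hs hz
    exact (tm1_congr a3).2 ((chart_iff φ hc hs a1 a2).2 (P.triv n hn _ a4))
  · obtain ⟨w, a1, a2, a3, a4⟩ := tm1_rep φ hc hs hz
    have hxB : {x} ⊆ B := singleton_subset_iff.2 hx
    rw [tm1_congr (RB.anti a3 hxB), chart_iff φ isCompact_singleton (hxB.trans hs) a1
      (tm1_mono (sdiff_subset_sdiff_right hxB) a2), image_singleton] at h
    exact (tm1_congr a3).2 ((chart_iff φ hc hs a1 a2).2 (P.inj _ (mem_image_of_mem _ hx) _ a4 h))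
  · obtain ⟨μ, h1, h2⟩ := P.ex
    obtain ⟨w, a1, a2, a3⟩ := exc_surj hc'.isClosed φ.open_target (tm1_sub φ hs) h1
    have b1 := smap_mem_On φ.continuousOn_symm φ.mapsTo_symm a1
    have b2 := tm1_bd (φ.continuousOn_symm.mono sdiff_subset) (tm1_maps' φ B) a2
    refine ⟨smap φ.symm w, ⟨On_mono (subset_univ _) b1, tm1_mono (fun _ h => h.2) b2⟩, fun x hx h => ?_⟩
    have hxB : {x} ⊆ B := singleton_subset_iff.2 hx
    rw [chart_iff φ isCompact_singleton (hxB.trans hs) b1 (tm1_mono (sdiff_subset_sdiff_right hxB) b2),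
      image_singleton, smap_smap, smap_id' (fun y hy => φ.right_inv hy) a1] at h
    exact h2 _ (mem_image_of_mem _ hx)
      ((tm1_congr (RB.anti a3 (singleton_subset_iff.2 (mem_image_of_mem _ hx)))).2 h)

theorem exists_cvx (hX : Loc4 X) (x : X) {O : Set X} (hO : O ∈ 𝓝 x) :
    ∃ B, Cvx B ∧ B ∈ 𝓝 x ∧ B ⊆ O := by
  obtain ⟨φ, hx⟩ := hX x
  have h1 : φ.target ∩ φ.symm ⁻¹' O ∈ 𝓝 (φ x) :=
    Filter.inter_mem (φ.open_target.mem_nhds (φ.map_source hx))
      ((φ.continuousAt_symm (φ.map_source hx)).preimage_mem_nhds (by rwa [φ.left_inv hx]))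
  obtain ⟨r, hr, h2⟩ := Metric.nhds_basis_closedBall.mem_iff.1 h1
  have h3 : Metric.closedBall (φ x) r ⊆ φ.target := fun y hy => (h2 hy).1
  refine ⟨φ.symm '' Metric.closedBall (φ x) r, ⟨φ, ?_, (isCompact_closedBall _ _).image_of_continuousOn
    (φ.continuousOn_symm.mono h3), (Metric.nonempty_closedBall.2 hr.le).image _, ?_⟩, ?_, ?_⟩
  · rintro _ ⟨y, hy, rfl⟩
    exact φ.map_target (h3 hy)
  · rw [image_image, image_congr fun y hy => φ.right_inv (h3 hy), image_id']
    exact convex_closedBall _ _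
  · have := φ.symm.image_mem_nhds (φ.map_source hx) (Metric.closedBall_mem_nhds (φ x) hr)
    rwa [φ.left_inv hx] at this
  · rintro _ ⟨y, hy, rfl⟩
    exact (h2 hy).2

theorem two_pt (hX : Loc4 X) (x : X) {z z' : SC X 4} (h1 : RC {x} 4 z) (h2 : RC {x} 4 z')
    (h3 : ¬RB {x} 4 z) (h4 : ¬RB {x} 4 z') : RB {x} 4 (z - z') := by
  obtain ⟨φ, hx⟩ := hX x
  exact tm1_two φ hx h1 h2 h3 h4

end Crest.Agent.R224
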