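import Crest.Agent.R224.TEuc
import Crest.Agent.R224.TMan1

/-! R224, task TMan: local homology of compact sets in a four-manifold.

`chart_iff`: for compact `A ⊆ φ.source`, `exc_inj` in `X` (open set `φ.source`) and in `V4` (open set
`φ.target`), with `smap φ`, `smap φ.symm` (`smap_mem_On`, `smap_smap`, `smap_id'`, `smap_sb`).
`Cvx.p4`: `exc_surj` in `X` or in `V4`, `chart_iff` for `B` and for `{x}`, `p4_convex`.
`pm_list`: finite unions of compact sets that are empty or convex in one chart `φ`: induction on the number of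
sets, `(A₁ ∪ … ∪ A_m) ∩ A = ⋃ (A_i ∩ A)` (`PM.union`; `PM ∅` is trivial because `On univ` contains everything).
`pm_chart`: for `z` with `sb z ∈ On Aᶜ` take compact `K ⊆ Aᶜ` with `sb z ∈ On K` (`exists_compact`), cover `A`
by finitely many sets `B a = φ.symm '' closedBall (φ a) (r a) ⊆ Kᶜ`, `a ∈ A`; `D = ⋃ B a`; `z` is a local cycle at
`D`.  For `inj`: a point of `B a` is handled by `P4.inj` at the centre `a ∈ A` and `RB.anti`.
`pm_compact`: `A` is a finite union of compact sets in charts; induction on their number as in `pm_list`.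
`exists_cvx`: a small closed ball in a chart. -/

set_option autoImplicit false
set_option linter.unusedSectionVars false

namespace Crest.Agent.R224

open Set Finsupp Topology Crest.Agent.R251

variable {X : Type} [TopologicalSpace X] [T2Space X] {n : ℕ}

theorem tman_empty : PM (∅ : Set X) := by
  have h : ∀ n (z : SC X n), RC ∅ n z → RB ∅ n z := fun n z hz => NB.of_mem (by rw [compl_empty]; exact hz.1)
  refine ⟨fun n _ => h n, fun z hz _ => h 4 z hz, 0, ⟨Submodule.zero_mem _, ?_⟩, fun x hx => hx.elim⟩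
  show sb 0 ∈ _
  rw [map_zero]
  exact Submodule.zero_mem _

theorem tman_union (hX : Loc4 X) (P : Set X → Prop) (hcl : ∀ A, P A → IsClosed A) (hpm : ∀ A, P A → PM A)
    (hin : ∀ A B, P A → P B → P (A ∩ B)) {ι : Type} (s : Finset ι) :
    ∀ A : ι → Set X, (∀ i ∈ s, P (A i)) → PM (⋃ i ∈ s, A i) := by
  classical
  induction s using Finset.induction_on with
  | empty => intro A _; simpa using tman_empty
  | insert i s hi ih =>
    intro A hA
    have h0 := hA i (Finset.mem_insert_self _ _)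
    have h1 : ∀ j ∈ s, P (A j) := fun j hj => hA j (Finset.mem_insert_of_mem hj)
    rw [Finset.set_biUnion_insert]
    refine PM.union (hcl _ h0) (s.finite_toSet.isClosed_biUnion fun j hj => hcl _ (h1 j hj)) (hpm _ h0) (ih A h1) ?_
      fun x _ z z' => two_pt hX x
    rw [inter_iUnion₂]
    exact ih (fun j => A i ∩ A j) fun j hj => hin _ _ h0 (h1 j hj)

/-- Compact sets that are convex in the chart `φ`. -/
def tman_P (φ : OpenPartialHomeomorph X V4) (B : Set X) : Prop :=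
  B ⊆ φ.source ∧ IsCompact B ∧ Convex ℝ (φ '' B)

theorem tman_p4 {φ : OpenPartialHomeomorph X V4} {B : Set X} (h : tman_P φ B) (hn : B.Nonempty) : P4 B :=
  Cvx.p4 ⟨φ, h.1, h.2.1, hn, h.2.2⟩

theorem tman_list (hX : Loc4 X) (φ : OpenPartialHomeomorph X V4) {ι : Type} (s : Finset ι) (A : ι → Set X)
    (hA : ∀ i ∈ s, tman_P φ (A i)) : PM (⋃ i ∈ s, A i) := by
  refine tman_union hX (tman_P φ) (fun A h => h.2.1.isClosed) (fun A h => ?_) (fun A B h h' => ?_) s A hA
  · rcases A.eq_empty_or_nonempty with rfl | ⟨x, hx⟩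
    · exact tman_empty
    · have h4 := tman_p4 h ⟨x, hx⟩
      exact ⟨fun n hn => h4.triv n hn.ne', fun z hz hz' => h4.inj x hx z hz (hz' x hx), h4.ex⟩
  · refine ⟨inter_subset_left.trans h.1, h.2.1.inter_right h'.2.1.isClosed, ?_⟩
    rw [φ.injOn.image_inter h.1 h'.1]
    exact h.2.2.inter h'.2.2

theorem tman_ball (φ : OpenPartialHomeomorph X V4) {a : X} (ha : a ∈ φ.source) {O : Set X} (hO : O ∈ 𝓝 a) :
    ∃ B, tman_P φ B ∧ B ∈ 𝓝 a ∧ B ⊆ O := by
  have h1 : φ.symm ⁻¹' O ∈ 𝓝 (φ a) := (φ.continuousAt_symm (φ.map_source ha)).preimage_mem_nhds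
    (by rwa [φ.left_inv ha])
  obtain ⟨r, hr, h2⟩ := Metric.nhds_basis_closedBall.mem_iff.1
    (Filter.inter_mem (φ.open_target.mem_nhds (φ.map_source ha)) h1)
  have h3 : Metric.closedBall (φ a) r ⊆ φ.target := h2.trans inter_subset_left
  refine ⟨φ.symm '' Metric.closedBall (φ a) r, ⟨?_, ?_, ?_⟩, ?_, ?_⟩
  · rintro _ ⟨y, hy, rfl⟩
    exact φ.map_target (h3 hy)
  · exact (isCompact_closedBall _ _).image_of_continuousOn (φ.continuousOn_symm.mono h3)
  · have e : φ '' (φ.symm '' Metric.closedBall (φ a) r) = Metric.closedBall (φ a) r :=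
      φ.image_symm_image_of_subset_target h3
    rw [e]
    exact convex_closedBall _ _
  · have := φ.symm.image_mem_nhds (φ.map_source ha) (Metric.closedBall_mem_nhds (φ a) hr)
    rwa [φ.left_inv ha] at this
  · rintro _ ⟨y, hy, rfl⟩
    exact (h2 hy).2

theorem tman_cover (φ : OpenPartialHomeomorph X V4) {A : Set X} (hA : IsCompact A) (hs : A ⊆ φ.source)
    {z : SC X (n + 1)} (hz : RC A (n + 1) z) : ∃ (t : Finset X) (B : X → Set X),
      (∀ a ∈ t, a ∈ A ∧ a ∈ B a ∧ tman_P φ (B a)) ∧ A ⊆ ⋃ a ∈ t, B a ∧ RC (⋃ a ∈ t, B a) (n + 1) z := by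
  obtain ⟨K, hK, hKc, hzK⟩ := exists_compact (show sb z ∈ On Aᶜ n from hz.2)
  have h1 : ∀ a ∈ A, ∃ B, tman_P φ B ∧ B ∈ 𝓝 a ∧ B ⊆ Kᶜ := fun a ha =>
    tman_ball φ (hs ha) (hKc.isClosed.isOpen_compl.mem_nhds fun h => hK h ha)
  choose! B hB1 hB2 hB3 using h1
  obtain ⟨t, ht, hcov⟩ := hA.elim_nhds_subcover B hB2
  refine ⟨t, B, fun a ha => ⟨ht a ha, mem_of_mem_nhds (hB2 a (ht a ha)), hB1 a (ht a ha)⟩, hcov, hz.1, ?_⟩
  show sb z ∈ On _ n
  exact On_mono (subset_compl_comm.1 (iUnion₂_subset fun a ha => hB3 a (ht a ha))) hzK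

theorem pm_chart (hX : Loc4 X) (φ : OpenPartialHomeomorph X V4) {A : Set X} (hA : IsCompact A)
    (hs : A ⊆ φ.source) : PM A := by
  refine ⟨fun n hn z hz => ?_, fun z hz hx => ?_, ?_⟩
  · obtain ⟨m, rfl⟩ : ∃ m, n = m + 1 := ⟨n - 1, by omega⟩
    obtain ⟨t, B, h1, h2, h3⟩ := tman_cover φ hA hs hz
    exact ((tman_list hX φ t B fun a ha => (h1 a ha).2.2).triv _ hn z h3).anti h2
  · obtain ⟨t, B, h1, h2, h3⟩ := tman_cover φ hA hs hz
    refine ((tman_list hX φ t B fun a ha => (h1 a ha).2.2).inj z h3 fun x hx' => ?_).anti h2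
    obtain ⟨a, ha, hxa⟩ := mem_iUnion₂.1 hx'
    obtain ⟨h4, h5, h6⟩ := h1 a ha
    exact ((tman_p4 h6 ⟨a, h5⟩).inj a h5 z (h3.anti (subset_biUnion_of_mem (u := B) ha)) (hx a h4)).anti
      (singleton_subset_iff.2 hxa)
  · have h0 : RC A (3 + 1) (0 : SC X 4) := by
      refine ⟨Submodule.zero_mem _, ?_⟩
      show sb 0 ∈ _
      rw [map_zero]
      exact Submodule.zero_mem _
    obtain ⟨t, B, h1, h2, -⟩ := tman_cover φ hA hs h0
    obtain ⟨μ, h3, h4⟩ := (tman_list hX φ t B fun a ha => (h1 a ha).2.2).ex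
    exact ⟨μ, h3.anti h2, fun x hx => h4 x (h2 hx)⟩

theorem pm_compact (hX : Loc4 X) {A : Set X} (hA : IsCompact A) : PM A := by
  have h1 : ∀ a : X, ∃ B, Cvx B ∧ B ∈ 𝓝 a ∧ B ⊆ univ := fun a => exists_cvx hX a Filter.univ_mem
  choose B hB1 hB2 _ using h1
  obtain ⟨t, -, hcov⟩ := hA.elim_nhds_subcover B fun a _ => hB2 a
  have e : A = ⋃ a ∈ t, A ∩ B a := by rw [← inter_iUnion₂, inter_eq_left.2 hcov]
  rw [e]
  refine tman_union hX (fun S => IsCompact S ∧ ∃ φ : OpenPartialHomeomorph X V4, S ⊆ φ.source)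
    (fun S h => h.1.isClosed) (fun S ⟨h, φ, h'⟩ => pm_chart hX φ h h')
    (fun S S' ⟨h, φ, h'⟩ h2 => ⟨h.inter_right h2.1.isClosed, φ, inter_subset_left.trans h'⟩) t _ fun a _ => ?_
  obtain ⟨φ, h2, h3, -⟩ := hB1 a
  exact ⟨hA.inter_right h3.isClosed, φ, inter_subset_right.trans h2⟩

end Crest.Agent.R224
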