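import Crest.Agent.R224.TMan1

/-! R224, task TMet: towers of balls.

`exists_met`: the compact Hausdorff space `K` is second countable (finitely many charts) and therefore metrisable
(`TopologicalSpace.metrizableSpace_of_t3_secondCountable`); `ρ x y` is the distance if `x, y ∈ K`, else `0`.
`leb_cvx`: for `y ∈ K₁` take a convex `B y ∈ 𝓝 y` inside `interior K₂ ∩ Bl y (r/2)` (`exists_cvx`) and
`0 < s y ≤ r / 2` with `Bl y (2 s y) ⊆ B y`; finitely many of the neighbourhoods `Bl y (s y)` cover `K₁`;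
`r' = min s y`.  `leb_nhds`: the same argument.
`nerve`: let `p = k`.  Choose radii by `leb_cvx` from the top: `s 3 ≤ min (R / 2) (r₀ / 2)`, `s' j` for `s j`,
`s (j-1) = s' j / 2`, and `δ ≤ s' 0 / 4`, so that `s (j-1) + 2 δ ≤ s' j`.  `Φ j i` is a convex set between `Bl (x i) (s' j)` and
`Bl (x i) (s j)`, `𝒮 n = {v | ⋂ j, F (v j) ≠ ∅}`; `Car` holds by `Cvx.fills`.  `Φ p (v 0) ⊆ K₀` because `x (v 0)` is
within `δ` of a point of `K`.  `U i = interior K₂ ∩ {ρ (x i) · < δ}` (open), `κ y = i` with `y ∈ U i` for `y ∈ K₁`.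
For both kinds of tuples `u` in `transfer` one of the centres lies in all `Bl (x (u j)) R`.  Let `ε' v = ε (image v)` if
`v` is injective, else `0`; for such `u`, `∑ i, ε' (face i u) = 0` (if `u` is injective this is `cd ε = 0`; otherwise
two faces cancel or all vanish).  `pair_vb` and `vdual` give `ψ`; `η σ = ψ (σ.orderEmbOfFin _)` for a linear order
on `I` (faces of increasing tuples are increasing).
`dual`: `K₀ ⊇ K` compact neighbourhood, `K₁` its `hull`, `K₂` a compact neighbourhood of `K₁`.  Radii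
`R 0 = 1`, `R (j+1) = min (r' (R j / 2)) (R j / 4)` (constant for `j ≥ 4` or continued), `δ` from `nerve` for
`R 4`, finitely many centres `x i ∈ K₁` whose sets `U i` cover `K₁`; `A j i = Bl (x i) (R j)`,
`F i = Bl (x i) δ ∩ K`; `Tower.zig`. -/

set_option autoImplicit false
set_option linter.unusedSectionVars false

namespace Crest.Agent.R224

open Set Finsupp Topology Crest.Agent.R251

variable {X : Type} [TopologicalSpace X] [T2Space X] {K K₀ K₁ K₂ : Set X} {ρ : X → X → ℝ}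

theorem exists_met (hX : Loc4 X) (hK : IsCompact K) : ∃ ρ, Met K ρ := by
  classical
  choose φ hφ using hX
  have : CompactSpace K := isCompact_iff_compactSpace.1 hK
  obtain ⟨t, ht⟩ := hK.elim_finite_subcover (fun x => (φ x).source) (fun x => (φ x).open_source)
    fun x _ => mem_iUnion.2 ⟨x, hφ x⟩
  have : ∀ x : t, SecondCountableTopology ((Subtype.val : K → X) ⁻¹' (φ x).source) := fun x => by
    have := (φ x).secondCountableTopology_source
    have he : IsEmbedding (fun y : ((Subtype.val : K → X) ⁻¹' (φ x).source) =>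
        (⟨y.1.1, y.2⟩ : (φ x).source)) :=
      (IsEmbedding.subtypeVal.comp IsEmbedding.subtypeVal).codRestrict _ _
    exact he.secondCountableTopology
  have : SecondCountableTopology K := TopologicalSpace.secondCountableTopology_of_countable_cover
    (U := fun x : t => (Subtype.val : K → X) ⁻¹' (φ x).source)
    (fun x => (φ x).open_source.preimage continuous_subtype_val) (by
      refine eq_univ_of_forall fun y => ?_
      obtain ⟨x, hx, h⟩ := mem_iUnion₂.1 (ht y.2)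
      exact mem_iUnion.2 ⟨⟨x, hx⟩, h⟩)
  let := TopologicalSpace.metrizableSpaceMetric K
  refine ⟨fun x y => if h : x ∈ K ∧ y ∈ K then dist (⟨x, h.1⟩ : K) ⟨y, h.2⟩ else 0, fun x => ?_,
    fun x y => ?_, fun x hx y hy z hz => ?_, fun x hx => ?_, fun x hx O hO => ?_⟩
  · split_ifs <;> simp
  · by_cases h : x ∈ K ∧ y ∈ K
    · rw [dif_pos h, dif_pos h.symm, dist_comm]
    · rw [dif_neg h, dif_neg fun h' => h h'.symm]
  · rw [dif_pos ⟨hx, hz⟩, dif_pos ⟨hx, hy⟩, dif_pos ⟨hy, hz⟩]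
    exact dist_triangle _ _ _
  · rw [continuousOn_iff_continuous_domRestrict]
    have h : Continuous fun y : K => dist (⟨x, hx⟩ : K) y := continuous_const.dist continuous_id
    convert h using 1
    funext y
    exact dif_pos ⟨hx, y.2⟩
  · have h : (Subtype.val : K → X) ⁻¹' O ∈ 𝓝 (⟨x, hx⟩ : K) :=
      continuous_subtype_val.continuousAt.preimage_mem_nhds hO
    obtain ⟨r, hr, h'⟩ := Metric.nhds_basis_closedBall.mem_iff.1 h
    refine ⟨r, hr, fun y hy hle => ?_⟩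
    rw [dif_pos ⟨hx, hy⟩, dist_comm] at hle
    exact h' (show (⟨y, hy⟩ : K) ∈ Metric.closedBall _ r from hle)

theorem Met.compact (h : Met K ρ) (hK : IsCompact K) {x : X} (hx : x ∈ K) (r : ℝ) :
    IsCompact (Bl K ρ x r) := by
  exact hK.of_isClosed_subset
    ((h.cont x hx).preimage_isClosed_of_isClosed hK.isClosed (isClosed_Iic (a := r)))
    fun y hy => hy.1

theorem Met.isOpen (h : Met K ρ) {x : X} (hx : x ∈ K) (r : ℝ) :
    IsOpen (interior K ∩ {y | ρ x y < r}) := by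
  exact ((h.cont x hx).mono interior_subset).isOpen_inter_preimage isOpen_interior
    (isOpen_Iio (a := r))

theorem Met.bl_nhds (h : Met K ρ) {x : X} (hx : x ∈ interior K) {r : ℝ} (hr : 0 < r) :
    Bl K ρ x r ∈ 𝓝 x := by
  refine Filter.mem_of_superset ((h.isOpen (interior_subset hx) r).mem_nhds ⟨hx, ?_⟩)
    fun y hy => ⟨interior_subset hy.1, le_of_lt hy.2⟩
  show ρ x x < r
  rwa [h.self]

/-- A Lebesgue number. -/
theorem Met.leb (h : Met K₂ ρ) (h1 : IsCompact K₁) (h12 : K₁ ⊆ interior K₂) {B : X → Set X}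
    (hB : ∀ y ∈ K₁, B y ∈ 𝓝 y) {r : ℝ} (hr : 0 < r) :
    ∃ r' > 0, r' ≤ r ∧ ∀ x ∈ K₁, ∃ y ∈ K₁, ρ x y ≤ r ∧ Bl K₂ ρ x r' ⊆ B y := by
  have hs : ∀ y ∈ K₁, ∃ s > 0, s ≤ r ∧ Bl K₂ ρ y (2 * s) ⊆ B y := by
    intro y hy
    obtain ⟨a, ha, h'⟩ := h.nhds y (interior_subset (h12 hy)) _ (hB y hy)
    refine ⟨min r (a / 2), lt_min hr (half_pos ha), min_le_left _ _, fun z hz => h' z hz.1 ?_⟩
    have := min_le_right r (a / 2)
    have := hz.2
    linarith
  choose! s hs0 hsr hsB using hs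
  obtain ⟨t, htK, ht⟩ := h1.elim_nhds_subcover (fun y => Bl K₂ ρ y (s y))
    fun y hy => h.bl_nhds (h12 hy) (hs0 y hy)
  obtain ⟨r', hr', hle⟩ : ∃ r' > 0, r' ≤ r ∧ ∀ y ∈ t, r' ≤ s y := by
    rcases t.eq_empty_or_nonempty with rfl | hne
    · exact ⟨r, hr, le_rfl, by simp⟩
    · obtain ⟨y, hy, hmin⟩ := t.exists_min_image s hne
      exact ⟨s y, hs0 y (htK y hy), hsr y (htK y hy), hmin⟩
  refine ⟨r', hr', hle.1, fun x hx => ?_⟩
  obtain ⟨y, hy, hxy⟩ := mem_iUnion₂.1 (ht hx)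
  have hyK := htK y hy
  refine ⟨y, hyK, by rw [h.symm]; exact hxy.2.trans (hsr y hyK), fun z hz => hsB y hyK ⟨hz.1, ?_⟩⟩
  have h2 := h.tri y (interior_subset (h12 hyK)) x hxy.1 z hz.1
  have h3 := hxy.2
  have h4 := hz.2
  have h5 := hle.2 y hy
  linarith

theorem leb_cvx (hX : Loc4 X) (h : Met K₂ ρ) (h1 : IsCompact K₁) (h12 : K₁ ⊆ interior K₂) {r : ℝ}
    (hr : 0 < r) : ∃ r' > 0, r' ≤ r ∧ ∀ x ∈ K₁, ∃ B, Cvx B ∧ Bl K₂ ρ x r' ⊆ B ∧ B ⊆ Bl K₂ ρ x r := by
  have hB : ∀ y ∈ K₁, ∃ B, Cvx B ∧ B ∈ 𝓝 y ∧ B ⊆ Bl K₂ ρ y (r / 2) := fun y hy =>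
    exists_cvx hX y (h.bl_nhds (h12 hy) (half_pos hr))
  choose! B hc hn hs using hB
  obtain ⟨r', hr', hle, h'⟩ := h.leb h1 h12 hn (half_pos hr)
  refine ⟨r', hr', by linarith, fun x hx => ?_⟩
  obtain ⟨y, hy, hxy, hsub⟩ := h' x hx
  refine ⟨B y, hc y hy, hsub, fun z hz => ⟨(hs y hy hz).1, ?_⟩⟩
  have h2 := h.tri x (interior_subset (h12 hx)) y (interior_subset (h12 hy)) z (hs y hy hz).1
  have h3 := (hs y hy hz).2
  linarith

theorem leb_nhds (h : Met K₂ ρ) (hK : IsCompact K) (h2 : K ⊆ interior K₂) (h0 : K ⊆ interior K₀) :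
    ∃ r₀ > 0, ∀ y ∈ K, Bl K₂ ρ y r₀ ⊆ K₀ := by
  obtain ⟨r', hr', -, h'⟩ := h.leb hK h2 (B := fun _ => K₀)
    (fun y hy => mem_interior_iff_mem_nhds.1 (h0 hy)) one_pos
  exact ⟨r', hr', fun y hy => by
    obtain ⟨_, _, _, hs⟩ := h' y hy
    exact hs⟩

theorem Loc4.locallyCompact (hX : Loc4 X) : LocallyCompactSpace X := by
  refine ⟨fun x O hO => ?_⟩
  obtain ⟨B, ⟨φ, -, hB, -⟩, hn, hs⟩ := exists_cvx hX x hO
  exact ⟨B, hn, hs, hB⟩

end Crest.Agent.R224
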