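import Crest.Agent.R224.TDefs

/-! R224, task TVc1: vertex chains and the transfer from singular chains.

`vb_vb`, cones and the homotopy `hty`: copy `R251/Chain.lean` with `ZMod 2` instead of `ℤ` (no signs).
`vdual`: on the span `P` of `𝒜` the functional `φ` kills the kernel of `vb`, so it factors through the range
(`LinearMap.quotKerEquivRange`/`Submodule.liftQ`) and extends to `VC W n` (`LinearMap.exists_extend`);
`ψ w` is its value on `single w 1`.
`exists_real`: induction on `k ≤ p`.  `σ 0 v = pt (P (v 0))`.  Given `σ k`, for `v ∈ 𝒮 (k+1)` the chain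
`∑ i, σ k (face i v)` lies in `On (⋃ i, Φ k (v i))` (the first vertex of a face is a vertex of `v`) and is a reduced
cycle (`vb_vb`, or `aug`: two points); fill it by `hfill` (choice).
`transfer`: extend `σ` linearly; `σ c` is a reduced cycle in `Ω₀`, `σ c = sb w`; take `m` from `sd_small` for `w`.
Let `ν : SC E n → VC W (n+1)`, `τ ↦ (j ↦ κ (τ (vertex j)))` (a chain map: `stdSimplex.map_vertex`), and
`D (k+1) = id - ν ∘ sd m ∘ σ k`, `D 0 = 0`, a chain map on the span of `𝒮`.  The cone homotopy `h` with apex `v 0`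
satisfies `vb (h v) + h (vb v) = D v` for `v ∈ 𝒮 k`, `k ≤ p`, and `h v` has its vertices in
`range v ∪ κ '' Φ k (v 0)` (induction on `k`, `hmono`).  `e = h c + ν (sd m w)`. -/

set_option autoImplicit false
set_option linter.unusedSectionVars false

namespace Crest.Agent.R224

open Set Finsupp Topology Crest.Agent.R251

variable {W : Type}

theorem vb_single {n : ℕ} (v : Fin (n + 1) → W) :
    vb (single v 1) = ∑ i : Fin (n + 1), single (fun j => v (i.succAbove j)) (1 : ZMod 2) := by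
  simp [vb]

theorem tvc_ext {n : ℕ} {N : Type} [AddCommGroup N] [Module (ZMod 2) N]
    {f g : VC W n →ₗ[ZMod 2] N} (h : ∀ v, f (single v 1) = g (single v 1)) (c : VC W n) :
    f c = g c := by
  have : f = g := Finsupp.lhom_ext' fun b => LinearMap.ext_ring (by simpa using h b)
  rw [this]

theorem tvc_neg_one {n : ℕ} (i : ℕ) (z : VC W n) : (-1 : ℤ) ^ i • z = z := by
  have h2 : z + z = 0 := by
    ext τ
    simp [CharTwo.add_self_eq_zero]
  rcases neg_one_pow_eq_or ℤ i with h | h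
  · rw [h, one_smul]
  · rw [h, neg_smul, one_smul, neg_eq_of_add_eq_zero_right h2]

/-- Reduction mod two. -/
noncomputable def tvcRed (n : ℕ) : LC W n →ₗ[ℤ] VC W n :=
  linearCombination ℤ fun v => single v (1 : ZMod 2)

theorem tvcRed_single {n : ℕ} (v : Fin n → W) : tvcRed n (single v 1) = single v 1 := by
  rw [tvcRed, linearCombination_single, one_smul]

theorem vb_tvcRed {n : ℕ} (c : LC W (n + 1)) : vb (tvcRed (n + 1) c) = tvcRed n (bd c) := by
  refine lc_ext (f := (vb : VC W (n + 1) →ₗ[ZMod 2] VC W n).toAddMonoidHom.toIntLinearMap ∘ₗ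
    tvcRed (n + 1)) (g := tvcRed n ∘ₗ bd) (fun v => ?_) c
  rw [LinearMap.comp_apply, LinearMap.comp_apply, tvcRed_single, bd_single, map_sum]
  simp only [map_smul, tvcRed_single, tvc_neg_one]
  exact vb_single v

theorem vb_vb {n : ℕ} (c : VC W (n + 2)) : vb (vb c) = 0 := by
  refine tvc_ext (f := vb ∘ₗ vb) (g := 0) (fun v => ?_) c
  rw [LinearMap.comp_apply, ← tvcRed_single, vb_tvcRed, vb_tvcRed, bd_bd, map_zero,
    LinearMap.zero_apply]

theorem tvc_le {n : ℕ} {s : Set (Fin n → W)} {N : Type} [AddCommGroup N] [Module (ZMod 2) N]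
    (f : VC W n →ₗ[ZMod 2] N) (Q : Submodule (ZMod 2) N) (h : ∀ v ∈ s, f (single v 1) ∈ Q)
    {c : VC W n} (hc : ∀ v ∈ c.support, v ∈ s) : f c ∈ Q := by
  have hc' : c ∈ supported (ZMod 2) (ZMod 2) s := hc
  rw [supported_eq_span_single] at hc'
  have : Submodule.span (ZMod 2) ((fun i => single i (1 : ZMod 2)) '' s) ≤ Q.comap f := by
    rw [Submodule.span_le]
    rintro _ ⟨v, hv, rfl⟩
    exact h v hv
  exact this hc'

/-- A cocycle vanishes on boundaries. -/
theorem pair_vb {n : ℕ} {ℬ : Set (Fin (n + 1) → W)} (φ : (Fin n → W) → ZMod 2)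
    (hφ : ∀ u ∈ ℬ, ∑ i : Fin (n + 1), φ (fun j => u (i.succAbove j)) = 0) {e : VC W (n + 1)}
    (he : ∀ u ∈ e.support, u ∈ ℬ) : linearCombination (ZMod 2) φ (vb e) = 0 := by
  refine (Submodule.mem_bot (ZMod 2)).1 (tvc_le (linearCombination (ZMod 2) φ ∘ₗ vb) ⊥
    (fun u hu => ?_) he)
  rw [Submodule.mem_bot, LinearMap.comp_apply, vb_single, map_sum]
  simp only [linearCombination_single, one_smul]
  exact hφ u hu

theorem tvc_factor {A B : Type} [AddCommGroup A] [Module (ZMod 2) A] [AddCommGroup B]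
    [Module (ZMod 2) B] (f : A →ₗ[ZMod 2] B) (l : A →ₗ[ZMod 2] ZMod 2)
    (hk : LinearMap.ker f ≤ LinearMap.ker l) : ∃ g : B →ₗ[ZMod 2] ZMod 2, g ∘ₗ f = l := by
  obtain ⟨g, hg⟩ := LinearMap.exists_extend
    ((Submodule.liftQ _ _ hk) ∘ₗ (LinearMap.quotKerEquivRange f).symm.toLinearMap)
  refine ⟨g, LinearMap.ext fun c => ?_⟩
  have h1 := LinearMap.congr_fun hg ⟨f c, LinearMap.mem_range_self _ c⟩
  simp only [LinearMap.comp_apply, Submodule.subtype_apply, LinearEquiv.coe_coe] at h1 ⊢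
  rw [h1, LinearMap.quotKerEquivRange_symm_apply_image f c (LinearMap.mem_range_self _ c)]
  rfl

theorem tvc_factor' {A B : Type} [AddCommGroup A] [Module (ZMod 2) A] [AddCommGroup B]
    [Module (ZMod 2) B] (P : Submodule (ZMod 2) A) (f : A →ₗ[ZMod 2] B) (l : A →ₗ[ZMod 2] ZMod 2)
    (hk : ∀ c ∈ P, f c = 0 → l c = 0) : ∃ g : B →ₗ[ZMod 2] ZMod 2, ∀ c ∈ P, g (f c) = l c := by
  obtain ⟨g, hg⟩ := tvc_factor (f ∘ₗ P.subtype) (l ∘ₗ P.subtype) fun c hc => hk c.1 c.2 hc
  exact ⟨g, fun c hc => LinearMap.congr_fun hg ⟨c, hc⟩⟩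

theorem vdual {n : ℕ} (𝒜 : Set (Fin (n + 1) → W)) (φ : (Fin (n + 1) → W) → ZMod 2)
    (h : ∀ c : VC W (n + 1), (∀ v ∈ c.support, v ∈ 𝒜) → vb c = 0 →
      linearCombination (ZMod 2) φ c = 0) :
    ∃ ψ : (Fin n → W) → ZMod 2, ∀ v ∈ 𝒜,
      φ v = ∑ i : Fin (n + 1), ψ (fun j => v (i.succAbove j)) := by
  obtain ⟨g, hg⟩ := tvc_factor' (A := VC W (n + 1)) (B := VC W n) (supported (ZMod 2) (ZMod 2) 𝒜)
    vb (linearCombination (ZMod 2) φ) fun c hc => h c hc
  refine ⟨fun w => g (single w 1), fun v hv => ?_⟩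
  have h1 := hg _ (single_mem_supported (ZMod 2) 1 hv)
  rw [linearCombination_single, one_smul] at h1
  rw [← h1, vb_single, map_sum]

end Crest.Agent.R224
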