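import Crest.Agent.R224.TSd
import Crest.Agent.R224.TVc1

/-! R224, task TVc: vertex chains and the transfer from singular chains.

`vb_vb`, cones and the homotopy `hty`: copy `R251/Chain.lean` with `ZMod 2` instead of `ℤ` (no signs).
`vdual`: on the span `P` of `𝒜` the functional `φ` kills the kernel of `vb`, so it factors through the range
(`LinearMap.quotKerEquivRange`/`Submodule.liftQ`) and extends to `VC W n` (`LinearMap.exists_extend`);
`ψ w` is its value on `single w 1`.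
`exists_real`: induction on `k ≤ p`.  `σ 0 v = pt (P (v 0))`.  Given `σ k`, for `v ∈ 𝒮 (k+1)` the chain
`∑ i, σ k (face i v)` lies in `On (⋃ i, Φ k (v i))` (the first vertex of a face is a vertex of `v`) and is a reduced
cycle (`vb_vb`, or `aug`: two points); fill it by `hfill` (choice).
`transfer`: extend `σ` linearly; `σ c` is a reduced cycle in `Ω₀`, `σ c = sb w`; take `m` from `sd_small` for `w`.
Let `ν : SC E n → VC W (n+1)`, `τ ↦ (j ↦ κ (τ (vertex j)))` (a chain map: `stdSimplex.map_vertex`), and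
`D (k+1) = id - ν ∘ sd m ∘ σ k`, `D 0 = 0`, a chain map on the span of `𝒮`.  The cone homotopy `h` with apex `v 0`
satisfies `vb (h v) + h (vb v) = D v` for `v ∈ 𝒮 k`, `k ≤ p`, and `h v` has its vertices in
`range v ∪ κ '' Φ k (v 0)` (induction on `k`, `hmono`).  `e = h c + ν (sd m w)`. -/

set_option autoImplicit false
set_option linter.unusedSectionVars false

namespace Crest.Agent.R224

open Set Finsupp Topology Crest.Agent.R251

variable {W : Type}

variable {E : Type} [TopologicalSpace E]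

/-- Carriers for the realisation of vertex chains up to dimension `p`. -/
structure Car (P : W → E) (𝒮 : ∀ n, Set (Fin (n + 1) → W)) (Φ : ℕ → W → Set E) (p : ℕ) : Prop where
  face : ∀ n, ∀ v ∈ 𝒮 (n + 1), ∀ i : Fin (n + 2), (fun j => v (i.succAbove j)) ∈ 𝒮 n
  zero : ∀ v ∈ 𝒮 0, P (v 0) ∈ Φ 0 (v 0)
  mono : ∀ k < p, ∀ v ∈ 𝒮 (k + 1), ∀ i, Φ k (v i) ⊆ Φ (k + 1) (v 0)
  fill : ∀ k < p, ∀ v ∈ 𝒮 (k + 1), Fills (⋃ i, Φ k (v i)) (Φ (k + 1) (v 0)) k

variable {P : W → E} {𝒮 : ∀ n, Set (Fin (n + 1) → W)} {Φ : ℕ → W → Set E} {p : ℕ}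

theorem sup_le {α N : Type} {s : Set α} [AddCommGroup N] [Module (ZMod 2) N]
    (f : (α →₀ ZMod 2) →ₗ[ZMod 2] N) (Q : Submodule (ZMod 2) N) (h : ∀ v ∈ s, f (single v 1) ∈ Q)
    {c : α →₀ ZMod 2} (hc : c ∈ supported (ZMod 2) (ZMod 2) s) : f c ∈ Q := by
  rw [supported_eq_span_single] at hc
  have : Submodule.span (ZMod 2) ((fun i => single i (1 : ZMod 2)) '' s) ≤ Q.comap f := by
    rw [Submodule.span_le]
    rintro _ ⟨v, hv, rfl⟩
    exact h v hv
  exact this hc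

theorem sup_eq {α N : Type} {s : Set α} [AddCommGroup N] [Module (ZMod 2) N]
    (f g : (α →₀ ZMod 2) →ₗ[ZMod 2] N) (h : ∀ v ∈ s, f (single v 1) = g (single v 1))
    {c : α →₀ ZMod 2} (hc : c ∈ supported (ZMod 2) (ZMod 2) s) : f c = g c := by
  have := sup_le (f - g) ⊥ (fun v hv => by simp [h v hv]) hc
  simpa [sub_eq_zero] using this

theorem Car.vb_mem (h : Car P 𝒮 Φ p) {n : ℕ} {c : VC W (n + 2)}
    (hc : c ∈ supported (ZMod 2) (ZMod 2) (𝒮 (n + 1))) :
    vb c ∈ supported (ZMod 2) (ZMod 2) (𝒮 n) := by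
  refine sup_le vb _ (fun v hv => ?_) hc
  rw [vb_single]
  exact Submodule.sum_mem _ fun i _ => single_mem_supported _ 1 (h.face n v hv i)

open Classical in
/-- The realisation, by successive fillings. -/
noncomputable def rl (P : W → E) (Φ : ℕ → W → Set E) : ∀ k, (Fin (k + 1) → W) → SC E k
  | 0, v => pt (P (v 0))
  | k + 1, v =>
    if h : ∃ w ∈ On (Φ (k + 1) (v 0)) (k + 1),
      sb w = ∑ i : Fin (k + 2), rl P Φ k fun j => v (i.succAbove j) then h.choose else 0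

theorem lc_vb {N : Type} [AddCommGroup N] [Module (ZMod 2) N] {k : ℕ} (σ : (Fin k → W) → N)
    (v : Fin (k + 1) → W) : linearCombination (ZMod 2) σ (vb (single v 1)) =
      ∑ i : Fin (k + 1), σ fun j => v (i.succAbove j) := by
  simp [vb_single, map_sum]

theorem rl_step (h : Car P 𝒮 Φ p) {k : ℕ} (hk : k < p)
    (h1 : ∀ v ∈ 𝒮 k, rl P Φ k v ∈ On (Φ k (v 0)) k)
    (h2 : ∀ v ∈ 𝒮 (k + 1), Cyc k (∑ i : Fin (k + 2), rl P Φ k fun j => v (i.succAbove j))) :
    ∀ v ∈ 𝒮 (k + 1), rl P Φ (k + 1) v ∈ On (Φ (k + 1) (v 0)) (k + 1) ∧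
      sb (rl P Φ (k + 1) v) = ∑ i : Fin (k + 2), rl P Φ k fun j => v (i.succAbove j) := by
  intro v hv
  have hex := h.fill k hk v hv _ (Submodule.sum_mem _ fun i _ =>
    On_mono (subset_iUnion (fun i => Φ k (v i)) (i.succAbove 0)) (h1 _ (h.face k v hv i))) (h2 v hv)
  rw [rl, dif_pos hex]
  exact hex.choose_spec

theorem rl_ind (h : Car P 𝒮 Φ p) (k : ℕ) : k ≤ p → (∀ v ∈ 𝒮 k, rl P Φ k v ∈ On (Φ k (v 0)) k) ∧
    ∀ v ∈ 𝒮 (k + 1), Cyc k (∑ i : Fin (k + 2), rl P Φ k fun j => v (i.succAbove j)) := by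
  induction k with
  | zero =>
    refine fun _ => ⟨fun v hv => pt_mem_On (h.zero v hv), fun v _ => ?_⟩
    change aug _ = 0
    rw [Fin.sum_univ_two, map_add, rl, rl, aug_pt, aug_pt]
    rfl
  | succ k ih =>
    intro hk
    obtain ⟨h1, h2⟩ := ih (by omega)
    have h3 := rl_step h (by omega) h1 h2
    refine ⟨fun v hv => (h3 v hv).1, fun v hv => ?_⟩
    change sb _ = 0
    rw [map_sum, Finset.sum_congr rfl fun i _ =>
      ((h3 _ (h.face _ v hv i)).2.trans (lc_vb (rl P Φ k) fun j => v (i.succAbove j)).symm)]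
    rw [← map_sum, ← map_sum, ← vb_single, vb_vb, map_zero]

theorem exists_real (h : Car P 𝒮 Φ p) : ∃ σ : ∀ k, (Fin (k + 1) → W) → SC E k,
    (∀ v, σ 0 v = pt (P (v 0))) ∧ (∀ k ≤ p, ∀ v ∈ 𝒮 k, σ k v ∈ On (Φ k (v 0)) k) ∧
    ∀ k < p, ∀ v ∈ 𝒮 (k + 1),
      sb (σ (k + 1) v) = ∑ i : Fin (k + 2), σ k fun j => v (i.succAbove j) :=
  ⟨rl P Φ, fun _ => rfl, fun k hk => (rl_ind h k hk).1, fun k hk v hv =>
    (rl_step h hk (rl_ind h k hk.le).1 (rl_ind h k hk.le).2 v hv).2⟩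

/-- The cone on vertex chains. -/
noncomputable def vcone {n : ℕ} (a : W) : VC W n →ₗ[ZMod 2] VC W (n + 1) :=
  lmapDomain (ZMod 2) (ZMod 2) fun v => Fin.cons a v

theorem vcone_single {n : ℕ} (a : W) (v : Fin n → W) :
    vcone a (single v 1) = single (Fin.cons a v : Fin (n + 1) → W) (1 : ZMod 2) := by
  simp [vcone]

theorem vc_add_self {n : ℕ} (c : VC W n) : c + c = 0 := by
  ext v
  simp [CharTwo.add_self_eq_zero]

theorem vb_vcone {n : ℕ} (a : W) (c : VC W (n + 1)) : vb (vcone a c) = c + vcone a (vb c) := by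
  refine sup_eq (s := univ) (vb ∘ₗ vcone a) (LinearMap.id + vcone a ∘ₗ vb) (fun v _ => ?_)
    (by simp [supported_univ])
  rw [LinearMap.comp_apply, vcone_single, vb_single, Fin.sum_univ_succ, LinearMap.add_apply,
    LinearMap.id_apply, LinearMap.comp_apply, vb_single, map_sum]
  congr 1
  refine Finset.sum_congr rfl fun i _ => ?_
  rw [vcone_single]
  congr 1
  funext j
  refine Fin.cases ?_ (fun j => ?_) j
  · simp
  · simp

/-- Chains with vertices in `A`. -/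
def InV (A : Set W) (n : ℕ) : Submodule (ZMod 2) (VC W n) :=
  supported (ZMod 2) (ZMod 2) {u | ∀ j, u j ∈ A}

theorem vcone_mem {A : Set W} {n : ℕ} {a : W} (ha : a ∈ A) {c : VC W n} (hc : c ∈ InV A n) :
    vcone a c ∈ InV A (n + 1) := by
  refine sup_le (vcone a) _ (fun v hv => ?_) hc
  rw [vcone_single]
  exact single_mem_supported _ 1 fun j =>
    Fin.cases (by simpa using ha) (fun j => by simpa using hv j) j

/-- The vertex map. -/
noncomputable def nu (κ : E → W) (n : ℕ) : SC E n →ₗ[ZMod 2] VC W (n + 1) :=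
  lmapDomain (ZMod 2) (ZMod 2) fun τ j => κ (τ (stdSimplex.vertex j))

theorem nu_single (κ : E → W) {n : ℕ} (τ : Δ n → E) :
    nu κ n (single τ 1) = single (fun j => κ (τ (stdSimplex.vertex j))) (1 : ZMod 2) := by
  simp [nu]

theorem vb_nu (κ : E → W) {n : ℕ} (z : SC E (n + 1)) : vb (nu κ (n + 1) z) = nu κ n (sb z) := by
  refine sc_ext (f := vb ∘ₗ nu κ (n + 1)) (g := nu κ n ∘ₗ sb) (fun τ => ?_) z
  rw [LinearMap.comp_apply, LinearMap.comp_apply, nu_single, vb_single, sb_single, map_sum]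
  refine Finset.sum_congr rfl fun i _ => ?_
  rw [nu_single]
  congr 1
  funext j
  rw [face, stdSimplex.map_vertex]

theorem nu_mem (κ : E → W) {n : ℕ} {S : Set E} {z : SC E n} (hz : z ∈ On S n) :
    nu κ n z ∈ InV (κ '' S) (n + 1) := by
  refine On_le (nu κ n) _ (fun τ _ hτ => ?_) hz
  rw [nu_single]
  exact single_mem_supported _ 1 fun j => ⟨_, hτ _, rfl⟩

/-- The cone homotopy. -/
noncomputable def vh (D : ∀ n, VC W (n + 1) →ₗ[ZMod 2] VC W (n + 1)) :
    ∀ n, VC W n →ₗ[ZMod 2] VC W (n + 1)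
  | 0 => 0
  | n + 1 => linearCombination (ZMod 2) fun v =>
      vcone (v 0) (D n (single v 1) + vh D n (vb (single v 1)))

theorem vh_single (D : ∀ n, VC W (n + 1) →ₗ[ZMod 2] VC W (n + 1)) {n : ℕ} (v : Fin (n + 1) → W) :
    vh D (n + 1) (single v 1) = vcone (v 0) (D n (single v 1) + vh D n (vb (single v 1))) := by
  rw [vh, linearCombination_single, one_smul]

theorem vb_vh (h : Car P 𝒮 Φ p) {D : ∀ n, VC W (n + 1) →ₗ[ZMod 2] VC W (n + 1)}
    (h0 : ∀ v, vb (D 0 (single v 1)) = 0)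
    (hD : ∀ k < p, ∀ v ∈ 𝒮 (k + 1), vb (D (k + 1) (single v 1)) = D k (vb (single v 1))) (k : ℕ) :
    k ≤ p → ∀ c ∈ supported (ZMod 2) (ZMod 2) (𝒮 k),
      vb (vh D (k + 1) c) = D k c + vh D k (vb c) := by
  induction k with
  | zero =>
    intro _ c hc
    refine sup_eq (vb ∘ₗ vh D 1) (D 0 + vh D 0 ∘ₗ vb) (fun v _ => ?_) hc
    rw [LinearMap.comp_apply, vh_single, vb_vcone, LinearMap.add_apply, LinearMap.comp_apply]
    simp [vh, h0]
  | succ k ih =>
    intro hk c hc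
    refine sup_eq (vb ∘ₗ vh D (k + 2)) (D (k + 1) + vh D (k + 1) ∘ₗ vb) (fun v hv => ?_) hc
    have h1 := ih (by omega) _ (h.vb_mem (single_mem_supported _ 1 hv))
    rw [vb_vb, map_zero, add_zero] at h1
    rw [LinearMap.comp_apply, vh_single, vb_vcone, LinearMap.add_apply, LinearMap.comp_apply,
      map_add vb, hD k (by omega) v hv, h1, vc_add_self, map_zero, add_zero]

theorem vh_mem (h : Car P 𝒮 Φ p) (κ : E → W) {D : ∀ n, VC W (n + 1) →ₗ[ZMod 2] VC W (n + 1)}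
    (hD : ∀ k ≤ p, ∀ v ∈ 𝒮 k, D k (single v 1) ∈ InV (range v ∪ κ '' Φ k (v 0)) (k + 1)) (k : ℕ) :
    k ≤ p → ∀ v ∈ 𝒮 k, vh D (k + 1) (single v 1) ∈ InV (range v ∪ κ '' Φ k (v 0)) (k + 2) := by
  induction k with
  | zero =>
    intro hk v hv
    rw [vh_single]
    refine vcone_mem (mem_union_left _ (mem_range_self 0)) (Submodule.add_mem _ (hD 0 hk v hv) ?_)
    exact Submodule.zero_mem _
  | succ k ih =>
    intro hk v hv
    rw [vh_single]
    refine vcone_mem (mem_union_left _ (mem_range_self 0)) (Submodule.add_mem _ (hD _ hk v hv) ?_)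
    rw [vb_single, map_sum]
    refine Submodule.sum_mem _ fun i _ => ?_
    refine supported_mono ?_ (ih (by omega) _ (h.face k v hv i))
    intro u hu j
    rcases hu j with ⟨l, hl⟩ | hl
    · exact Or.inl ⟨_, hl⟩
    · exact Or.inr (image_mono (h.mono k (by omega) v hv _) hl)

theorem transfer (h : Car P 𝒮 Φ p) (κ : E → W) {c : VC W (p + 1)} (hc : ∀ v ∈ c.support, v ∈ 𝒮 p)
    (hb : vb c = 0) {Ω₀ Ω : Set E} (hΩ : ∀ v ∈ c.support, Φ p (v 0) ⊆ Ω₀) (hf : Fills Ω₀ Ω p)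
    {ι : Type} {U : ι → Set E} (hU : ∀ i, IsOpen (U i)) (hcov : Ω ⊆ ⋃ i, U i) :
    ∃ e : VC W (p + 2), vb e = c ∧ ∀ u ∈ e.support, (∃ i, ∀ j, u j ∈ κ '' (Ω ∩ U i)) ∨
      ∃ v ∈ c.support, ∀ j, u j ∈ range v ∪ κ '' Φ p (v 0) := by
  obtain ⟨σ, s0, s1, s2⟩ := exists_real h
  let σL : ∀ k, VC W (k + 1) →ₗ[ZMod 2] SC E k := fun k => linearCombination (ZMod 2) (σ k)
  have hσ : ∀ k v, σL k (single v 1) = σ k v := fun k v => by simp [σL]
  have hcs : c ∈ supported (ZMod 2) (ZMod 2) (c.support : Set (Fin (p + 1) → W)) :=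
    mem_supported_support _ c
  have hc' : c ∈ supported (ZMod 2) (ZMod 2) (𝒮 p) := hc
  have hz : σL p c ∈ On Ω₀ p :=
    sup_le (σL p) _ (fun v hv => by
      rw [hσ]
      exact On_mono (hΩ v hv) (s1 p le_rfl v (hc v hv))) hcs
  have hcyc : Cyc p (σL p c) := by
    cases p with
    | zero =>
      change aug _ = 0
      have := sup_eq (aug ∘ₗ σL 0) (linearCombination (ZMod 2) (fun _ => 1) ∘ₗ vb)
        (fun v _ => by simp [hσ, s0, aug_pt, vb_single]) hc'
      rw [LinearMap.comp_apply, LinearMap.comp_apply, hb, map_zero] at this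
      exact this
    | succ p =>
      change sb _ = 0
      have := sup_eq (sb ∘ₗ σL (p + 1)) (σL p ∘ₗ vb) (fun v hv => by
        rw [LinearMap.comp_apply, LinearMap.comp_apply, hσ, s2 p (by omega) v hv, lc_vb]) hc'
      rw [LinearMap.comp_apply, LinearMap.comp_apply, hb, map_zero] at this
      exact this
  obtain ⟨w, hw, hw'⟩ := hf _ hz hcyc
  obtain ⟨m, hm⟩ := sd_small hU hcov hw
  let D : ∀ n, VC W (n + 1) →ₗ[ZMod 2] VC W (n + 1) := fun n =>
    LinearMap.id + nu κ n ∘ₗ sd m n ∘ₗ σL n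
  have hDv : ∀ n c, D n c = c + nu κ n (sd m n (σL n c)) := fun _ _ => rfl
  have h0 : ∀ v, vb (D 0 (single v 1)) = 0 := by
    intro v
    rw [hDv, hσ, s0, sd_zero_deg, pt, nu_single, map_add, vb_single, vb_single]
    rw [show (∑ i : Fin (0 + 1), single (fun j : Fin 0 => v (i.succAbove j)) (1 : ZMod 2)) = _ from
      Finset.sum_congr rfl fun i _ => congrArg (fun t => single t (1 : ZMod 2))
        (Subsingleton.elim _ fun j => κ (P (v 0)))]
    exact vc_add_self _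
  have hD : ∀ k < p, ∀ v ∈ 𝒮 (k + 1), vb (D (k + 1) (single v 1)) = D k (vb (single v 1)) := by
    intro k hk v hv
    rw [hDv, hDv, map_add, vb_nu, sb_sd, hσ, s2 k hk v hv, lc_vb]
  have hD' : ∀ k ≤ p, ∀ v ∈ 𝒮 k,
      D k (single v 1) ∈ InV (range v ∪ κ '' Φ k (v 0)) (k + 1) := by
    intro k hk v hv
    rw [hDv, hσ]
    refine Submodule.add_mem _ (single_mem_supported _ 1 fun j => Or.inl ⟨j, rfl⟩) ?_
    refine supported_mono ?_ (nu_mem κ (sd_mem_On m (s1 k hk v hv)))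
    exact fun u hu j => Or.inr (hu j)
  refine ⟨vh D (p + 1) c + nu κ (p + 1) (sd m (p + 1) w), ?_, ?_⟩
  · rw [map_add, vb_vh h h0 hD p le_rfl c hc', hb, map_zero, add_zero, vb_nu, sb_sd, hw', hDv,
      add_assoc, vc_add_self, add_zero]
  · change _ ∈ supported (ZMod 2) (ZMod 2) {u : Fin (p + 2) → W |
      (∃ i, ∀ j, u j ∈ κ '' (Ω ∩ U i)) ∨ ∃ v ∈ c.support, ∀ j, u j ∈ range v ∪ κ '' Φ p (v 0)}
    refine Submodule.add_mem _ (sup_le _ _ (fun v hv => ?_) hcs) ?_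
    · exact supported_mono (fun u hu => Or.inr ⟨v, hv, hu⟩) (vh_mem h κ hD' p le_rfl v (hc v hv))
    · have : (⨆ i, On (Ω ∩ U i) (p + 1)) ≤ Submodule.comap (nu κ (p + 1))
          (supported (ZMod 2) (ZMod 2) {u : Fin (p + 2) → W | (∃ i, ∀ j, u j ∈ κ '' (Ω ∩ U i)) ∨
            ∃ v ∈ c.support, ∀ j, u j ∈ range v ∪ κ '' Φ p (v 0)}) :=
        iSup_le fun i z hz => supported_mono (fun u hu => Or.inl ⟨i, hu⟩) (nu_mem κ hz)
      exact this (hm m le_rfl)

end Crest.Agent.R224
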