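import Crest.Agent.R224.TMet
import Crest.Agent.R224.TVc
import Crest.Agent.R224.TPr

/-! R224, task TNer1: towers of balls.

`exists_met`: the compact Hausdorff space `K` is second countable (finitely many charts) and therefore metrisable
(`TopologicalSpace.metrizableSpace_of_t3_secondCountable`); `ρ x y` is the distance if `x, y ∈ K`, else `0`.
`leb_cvx`: for `y ∈ K₁` take a convex `B y ∈ 𝓝 y` inside `interior K₂ ∩ Bl y (r/2)` (`exists_cvx`) and
`0 < s y ≤ r / 2` with `Bl y (2 s y) ⊆ B y`; finitely many of the neighbourhoods `Bl y (s y)` cover `K₁`;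
`r' = min s y`.  `leb_nhds`: the same argument.
`nerve`: let `p = k`.  Choose radii by `leb_cvx` from the top: `s 3 ≤ min (R / 2) (r₀ / 2)`, `s' j` for `s j`,
`s (j-1) = s' j / 2`, and `δ ≤ s' 0 / 4`, so that `s (j-1) + 2 δ ≤ s' j`.  `Φ j i` is a convex set between `Bl (x i) (s' j)` and
`Bl (x i) (s j)`, `𝒮 n = {v | ⋂ j, F (v j) ≠ ∅}`; `Car` holds by `Cvx.fills`.  `Φ p (v 0) ⊆ K₀` because `x (v 0)` is
within `δ` of a point of `K`.  `U i = interior K₂ ∩ {ρ (x i) · < δ}` (open), `κ y = i` with `y ∈ U i` for `y ∈ K₁`.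
For both kinds of tuples `u` in `transfer` one of the centres lies in all `Bl (x (u j)) R`.  Let `ε' v = ε (image v)` if
`v` is injective, else `0`; for such `u`, `∑ i, ε' (face i u) = 0` (if `u` is injective this is `cd ε = 0`; otherwise
two faces cancel or all vanish).  `pair_vb` and `vdual` give `ψ`; `η σ = ψ (σ.orderEmbOfFin _)` for a linear order
on `I` (faces of increasing tuples are increasing).
`dual`: `K₀ ⊇ K` compact neighbourhood, `K₁` its `hull`, `K₂` a compact neighbourhood of `K₁`.  Radii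
`R 0 = 1`, `R (j+1) = min (r' (R j / 2)) (R j / 4)` (constant for `j ≥ 4` or continued), `δ` from `nerve` for
`R 4`, finitely many centres `x i ∈ K₁` whose sets `U i` cover `K₁`; `A j i = Bl (x i) (R j)`,
`F i = Bl (x i) δ ∩ K`; `Tower.zig`. -/

set_option autoImplicit false
set_option linter.unusedSectionVars false

namespace Crest.Agent.R224

open Set Finsupp Topology Crest.Agent.R251

variable {X : Type} [TopologicalSpace X] [T2Space X] {K K₀ K₁ K₂ : Set X} {ρ : X → X → ℝ}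

section comb

variable {I : Type} [DecidableEq I]

theorem image_face {n : ℕ} {u : Fin (n + 1) → I} (hu : Function.Injective u) (i : Fin (n + 1)) :
    (Finset.univ.image fun j => u (i.succAbove j)) = (Finset.univ.image u).erase (u i) := by
  ext a
  simp only [Finset.mem_image, Finset.mem_univ, true_and, Finset.mem_erase]
  constructor
  · rintro ⟨j, rfl⟩
    exact ⟨fun e => Fin.succAbove_ne i j (hu e), _, rfl⟩
  · rintro ⟨h1, l, rfl⟩
    obtain ⟨j, rfl⟩ := Fin.exists_succAbove_eq (show l ≠ i from fun e => h1 (e ▸ rfl))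
    exact ⟨j, rfl⟩

theorem image_face' {n : ℕ} {u : Fin (n + 1) → I} {a b : Fin (n + 1)} (hab : b ≠ a)
    (h : u a = u b) : (Finset.univ.image fun j => u (a.succAbove j)) = Finset.univ.image u := by
  ext c
  simp only [Finset.mem_image, Finset.mem_univ, true_and]
  constructor
  · rintro ⟨j, rfl⟩
    exact ⟨_, rfl⟩
  · rintro ⟨l, rfl⟩
    by_cases hl : l = a
    · obtain ⟨j, hj⟩ := Fin.exists_succAbove_eq hab
      exact ⟨j, by rw [hj, hl, h]⟩
    · obtain ⟨j, hj⟩ := Fin.exists_succAbove_eq hl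
      exact ⟨j, by rw [hj]⟩

theorem card_image_tup {n : ℕ} {v : Fin n → I} :
    (Finset.univ.image v).card = n ↔ Function.Injective v := by
  have := Finset.card_image_iff (s := Finset.univ) (f := v)
  rwa [Finset.card_univ, Fintype.card_fin, Finset.coe_univ, injOn_univ] at this

theorem tup_coc {n : ℕ} (ε : Finset I → ZMod 2) (u : Fin (n + 1) → I)
    (h : (Finset.univ.image u).card = n + 1 → cd ε (Finset.univ.image u) = 0) :
    ∑ i : Fin (n + 1), (fun σ : Finset I => if σ.card = n then ε σ else 0)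
      (Finset.univ.image fun j => u (i.succAbove j)) = 0 := by
  by_cases hu : Function.Injective u
  · have h1 := h (card_image_tup.2 hu)
    rw [cd, Finset.sum_image fun a _ b _ e => hu e] at h1
    rw [← h1]
    refine Finset.sum_congr rfl fun i _ => ?_
    have : (Finset.univ.image fun j => u (i.succAbove j)).card = n :=
      card_image_tup.2 (hu.comp Fin.succAbove_right_injective)
    simp only [this, if_true]
    rw [image_face hu]
  · obtain ⟨a, b, e, hab⟩ := Function.not_injective_iff.1 hu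
    rw [Finset.sum_eq_add_of_mem a b (Finset.mem_univ _) (Finset.mem_univ _) hab]
    · rw [image_face' hab.symm e, image_face' hab e.symm]
      exact CharTwo.add_self_eq_zero _
    · intro c _ hc
      obtain ⟨a', ha'⟩ := Fin.exists_succAbove_eq hc.1.symm
      obtain ⟨b', hb'⟩ := Fin.exists_succAbove_eq hc.2.symm
      refine if_neg fun hh => hab ?_
      have := card_image_tup.1 hh (a₁ := a') (a₂ := b') (by simp only [ha', hb', e])
      rw [← ha', ← hb', this]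

theorem fin_of_tup [Fintype I] {k : ℕ} (ψ : (Fin k → I) → ZMod 2) : ∃ η : Finset I → ZMod 2,
    ∀ τ : Finset I, τ.card = k + 1 → ∃ v : Fin (k + 1) → I, Finset.univ.image v = τ ∧
      cd η τ = ∑ i : Fin (k + 1), ψ fun j => v (i.succAbove j) := by
  let _ : LinearOrder I := LinearOrder.lift' (Fintype.equivFin I) (Fintype.equivFin I).injective
  refine ⟨fun σ => if h : σ.card = k then ψ (σ.orderEmbOfFin h) else 0, fun τ hτ => ?_⟩
  have hv : Function.Injective (τ.orderEmbOfFin hτ) := (τ.orderEmbOfFin hτ).injective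
  have him : Finset.univ.image (τ.orderEmbOfFin hτ) = τ := by
    ext a
    simp only [Finset.mem_image, Finset.mem_univ, true_and]
    exact (Set.ext_iff.1 (Finset.range_orderEmbOfFin τ hτ) a)
  refine ⟨τ.orderEmbOfFin hτ, him, ?_⟩
  rw [cd]
  conv_lhs => rw [← him]
  rw [Finset.sum_image fun a _ b _ e => hv e]
  refine Finset.sum_congr rfl fun i _ => ?_
  rw [← image_face hv]
  have hc : (Finset.univ.image fun j => τ.orderEmbOfFin hτ (i.succAbove j)).card = k :=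
    card_image_tup.2 (hv.comp Fin.succAbove_right_injective)
  rw [dif_pos hc]
  congr 1
  refine (Finset.orderEmbOfFin_unique hc (fun j => ?_) ?_).symm
  · exact Finset.mem_image.2 ⟨j, Finset.mem_univ _, rfl⟩
  · exact (τ.orderEmbOfFin hτ).strictMono.comp (Fin.strictMono_succAbove i)

end comb

theorem radii (hX : Loc4 X) (h : Met K₂ ρ) (h1 : IsCompact K₁) (h12 : K₁ ⊆ interior K₂) {r : ℝ}
    (hr : 0 < r) : ∃ δ > 0, ∃ s s' : ℕ → ℝ, (∀ k, 0 ≤ s' k) ∧ (∀ k < 3, s k + 2 * δ ≤ s' (k + 1)) ∧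
      (∀ k, s k + δ ≤ r) ∧ 2 * δ ≤ r ∧
      ∀ k, ∀ y ∈ K₁, ∃ B, Cvx B ∧ Bl K₂ ρ y (s' k) ⊆ B ∧ B ⊆ Bl K₂ ρ y (s k) := by
  obtain ⟨t3, p3, l3, b3⟩ := leb_cvx hX h h1 h12 (half_pos hr)
  obtain ⟨t2, p2, l2, b2⟩ := leb_cvx hX h h1 h12 (half_pos p3)
  obtain ⟨t1, p1, l1, b1⟩ := leb_cvx hX h h1 h12 (half_pos p2)
  obtain ⟨t0, p0, l0, b0⟩ := leb_cvx hX h h1 h12 (half_pos p1)
  refine ⟨t0 / 4, by positivity,
    fun k => match k with | 0 => t1 / 2 | 1 => t2 / 2 | 2 => t3 / 2 | _ + 3 => r / 2,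
    fun k => match k with | 0 => t0 | 1 => t1 | 2 => t2 | _ + 3 => t3, ?_, ?_, ?_, by linarith, ?_⟩
  · intro k
    match k with
    | 0 => exact p0.le
    | 1 => exact p1.le
    | 2 => exact p2.le
    | _ + 3 => exact p3.le
  · intro k hk
    match k, hk with
    | 0, _ => simp only; linarith
    | 1, _ => simp only; linarith
    | 2, _ => simp only; linarith
  · intro k
    match k with
    | 0 => simp only; linarith
    | 1 => simp only; linarith
    | 2 => simp only; linarith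
    | _ + 3 => simp only; linarith
  · intro k
    match k with
    | 0 => exact b0
    | 1 => exact b1
    | 2 => exact b2
    | _ + 3 => exact b3

theorem nerve (hX : Loc4 X) (h : Met K₂ ρ) (hK : IsCompact K) (h1 : IsCompact K₁)
    (h0 : K ⊆ interior K₀) (h01 : K₀ ⊆ K₁) (h12 : K₁ ⊆ interior K₂) (hf : ∀ n, Fills K₀ K₁ n)
    {R : ℝ} (hR : 0 < R) : ∃ δ > 0, δ ≤ R ∧ ∀ (I : Type) [Fintype I] [DecidableEq I] (x : I → X),
      (∀ i, x i ∈ K₁) → (∀ y ∈ K₁, ∃ i, ρ (x i) y < δ) → ∀ k, k = 2 ∨ k = 3 →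
      ∀ ε : Finset I → ZMod 2,
        (∀ τ, τ.card = k + 2 → (⋂ i ∈ τ, Bl K₂ ρ (x i) R).Nonempty → cd ε τ = 0) →
        ∃ η : Finset I → ZMod 2, ∀ τ, τ.card = k + 1 →
          (⋂ i ∈ τ, Bl K₂ ρ (x i) δ ∩ K).Nonempty → cd η τ = ε τ := by
  have h2 : K₁ ⊆ K₂ := h12.trans interior_subset
  have hK1 : K ⊆ K₁ := h0.trans (interior_subset.trans h01)
  obtain ⟨r₀, hr₀, hb⟩ := leb_nhds h hK (hK1.trans h12) h0
  obtain ⟨δ, hδ, s, s', hs0, hs1, hs2, hs3, hB⟩ := radii hX h h1 h12 (lt_min hR hr₀)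
  have mR := min_le_left R r₀
  have mr := min_le_right R r₀
  refine ⟨δ, hδ, by linarith, fun I _ _ x hx hcov k hk ε hε => ?_⟩
  rcases isEmpty_or_nonempty I with hI | hI
  · refine ⟨0, fun τ hτ _ => ?_⟩
    rw [Subsingleton.elim τ ∅] at hτ
    simp at hτ
  have hx2 : ∀ i, x i ∈ K₂ := fun i => h2 (hx i)
  choose Φ hΦ hΦ1 hΦ2 using fun k i => hB k (x i) (hx i)
  have hκ : ∀ y, ∃ i, y ∈ K₁ → ρ (x i) y < δ := fun y => by
    by_cases hy : y ∈ K₁
    · obtain ⟨i, hi⟩ := hcov y hy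
      exact ⟨i, fun _ => hi⟩
    · exact ⟨hI.some, fun h => (hy h).elim⟩
  choose κ hκ using hκ
  let 𝒮 : ∀ n, Set (Fin (n + 1) → I) := fun n => {v | ∃ y ∈ K, ∀ j, ρ (x (v j)) y ≤ δ}
  have hclose : ∀ n, ∀ v ∈ 𝒮 n, ∀ i j, ρ (x (v i)) (x (v j)) ≤ 2 * δ := by
    rintro n v ⟨y, hy, hv⟩ i j
    have := h.tri _ (hx2 (v i)) _ (h2 (hK1 hy)) _ (hx2 (v j))
    rw [h.symm y] at this
    linarith [hv i, hv j]
  have hk3 : k ≤ 3 := by omega
  have hmono : ∀ l < k, ∀ v ∈ 𝒮 (l + 1), ∀ i, Φ l (v i) ⊆ Φ (l + 1) (v 0) := by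
    intro l hl v hv i y hy
    obtain ⟨hy1, hy2⟩ := hΦ2 _ _ hy
    refine hΦ1 _ _ ⟨hy1, ?_⟩
    have := h.tri _ (hx2 (v 0)) _ (hx2 (v i)) _ hy1
    linarith [hclose _ v hv 0 i, hs1 l (by omega)]
  have hcar : Car x 𝒮 Φ k :=
    { face := fun n v ⟨y, hy, hv⟩ i => ⟨y, hy, fun j => hv _⟩
      zero := fun v _ => hΦ1 _ _ ⟨hx2 _, by rw [h.self]; exact hs0 0⟩
      mono := hmono
      fill := fun l hl v hv => ((hΦ (l + 1) (v 0)).fills l).mono
        (iUnion_subset (hmono l hl v hv)) Subset.rfl }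
  have hK0 : ∀ v ∈ 𝒮 k, Φ k (v 0) ⊆ K₀ := by
    rintro v ⟨y, hy, hv⟩ z hz
    obtain ⟨hz1, hz2⟩ := hΦ2 _ _ hz
    refine hb y hy ⟨hz1, ?_⟩
    have := h.tri _ (h2 (hK1 hy)) _ (hx2 (v 0)) _ hz1
    rw [h.symm y (x (v 0))] at this
    linarith [hv 0, hs2 k]
  let ε' : (Fin (k + 1) → I) → ZMod 2 := fun v =>
    (fun σ : Finset I => if σ.card = k + 1 then ε σ else 0) (Finset.univ.image v)
  obtain ⟨ψ, hψ⟩ := vdual (𝒮 k) ε' (fun c hc hb0 => by
    obtain ⟨e, rfl, he⟩ := transfer hcar κ hc hb0 (fun v hv => hK0 v (hc v hv)) (hf k)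
      (U := fun i => interior K₂ ∩ {y | ρ (x i) y < δ}) (fun i => h.isOpen (hx2 i) δ)
      (fun y hy => mem_iUnion.2 ⟨κ y, h12 hy, hκ y hy⟩)
    refine pair_vb (ℬ := {u | ∃ i, ∀ j, ρ (x (u j)) (x i) ≤ R}) ε' ?_ ?_
    · rintro u ⟨i, hi⟩
      refine tup_coc ε u fun hcard => hε _ hcard ⟨x i, ?_⟩
      simp only [mem_iInter, Finset.mem_image, Finset.mem_univ, true_and]
      rintro _ ⟨j, rfl⟩
      exact ⟨hx2 i, hi j⟩
    · intro u hu
      rcases he u hu with ⟨i, hi⟩ | ⟨v, hv, hu'⟩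
      · refine ⟨i, fun j => ?_⟩
        obtain ⟨y, ⟨hy1, -, hy2⟩, e⟩ := hi j
        have h3 := hκ y hy1
        have := h.tri _ (hx2 (u j)) _ (h2 hy1) _ (hx2 i)
        rw [h.symm y] at this
        rw [e] at h3
        have hy2' : ρ (x i) y < δ := hy2
        linarith
      · refine ⟨v 0, fun j => ?_⟩
        rcases hu' j with ⟨l, hl⟩ | ⟨y, hy, e⟩
        · rw [← hl]
          linarith [hclose _ v (hc v hv) l 0]
        · have hy1 := h01 (hK0 v (hc v hv) hy)
          have h3 := hκ y hy1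
          have := h.tri _ (hx2 (u j)) _ (h2 hy1) _ (hx2 (v 0))
          rw [h.symm y] at this
          rw [e] at h3
          linarith [(hΦ2 _ _ hy).2, hs2 k])
  obtain ⟨η, hη⟩ := fin_of_tup ψ
  refine ⟨η, fun τ hτ ⟨y, hy⟩ => ?_⟩
  obtain ⟨v, rfl, hv⟩ := hη τ hτ
  have hy' : ∀ j, y ∈ Bl K₂ ρ (x (v j)) δ ∩ K := fun j =>
    mem_iInter₂.1 hy (v j) (Finset.mem_image.2 ⟨j, Finset.mem_univ _, rfl⟩)
  rw [hv, ← hψ v ⟨y, (hy' 0).2, fun j => (hy' j).1.2⟩]
  exact if_pos hτ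

end Crest.Agent.R224
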