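import Crest.Agent.R224.TZig2
import Crest.Agent.R224.TVc
import Crest.Agent.R224.TMet
import Crest.Agent.R224.TNer1

/-! R224, task TNer: towers of balls.

`exists_met`: the compact Hausdorff space `K` is second countable (finitely many charts) and therefore metrisable
(`TopologicalSpace.metrizableSpace_of_t3_secondCountable`); `ρ x y` is the distance if `x, y ∈ K`, else `0`.
`leb_cvx`: for `y ∈ K₁` take a convex `B y ∈ 𝓝 y` inside `interior K₂ ∩ Bl y (r/2)` (`exists_cvx`) and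
`0 < s y ≤ r / 2` with `Bl y (2 s y) ⊆ B y`; finitely many of the neighbourhoods `Bl y (s y)` cover `K₁`;
`r' = min s y`.  `leb_nhds`: the same argument.
`nerve`: let `p = k`.  Choose radii by `leb_cvx` from the top: `s 3 ≤ min (R / 2) (r₀ / 2)`, `s' j` for `s j`,
`s (j-1) = s' j / 2`, and `δ ≤ s' 0 / 4`, so that `s (j-1) + 2 δ ≤ s' j`.  `Φ j i` is a convex set between `Bl (x i) (s' j)` and
`Bl (x i) (s j)`, `𝒮 n = {v | ⋂ j, F (v j) ≠ ∅}`; `Car` holds by `Cvx.fills`.  `Φ p (v 0) ⊆ K₀` because `x (v 0)` is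
within `δ` of a point of `K`.  `U i = interior K₂ ∩ {ρ (x i) · < δ}` (open), `κ y = i` with `y ∈ U i` for `y ∈ K₁`.
For both kinds of tuples `u` in `transfer` one of the centres lies in all `Bl (x (u j)) R`.  Let `ε' v = ε (image v)` if
`v` is injective, else `0`; for such `u`, `∑ i, ε' (face i u) = 0` (if `u` is injective this is `cd ε = 0`; otherwise
two faces cancel or all vanish).  `pair_vb` and `vdual` give `ψ`; `η σ = ψ (σ.orderEmbOfFin _)` for a linear order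
on `I` (faces of increasing tuples are increasing).
`dual`: `K₀ ⊇ K` compact neighbourhood, `K₁` its `hull`, `K₂` a compact neighbourhood of `K₁`.  Radii
`R 0 = 1`, `R (j+1) = min (r' (R j / 2)) (R j / 4)` (constant for `j ≥ 4` or continued), `δ` from `nerve` for
`R 4`, finitely many centres `x i ∈ K₁` whose sets `U i` cover `K₁`; `A j i = Bl (x i) (R j)`,
`F i = Bl (x i) δ ∩ K`; `Tower.zig`. -/

set_option autoImplicit false
set_option linter.unusedSectionVars false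

namespace Crest.Agent.R224

open Set Finsupp Topology Crest.Agent.R251

variable {X : Type} [TopologicalSpace X] [T2Space X] {K K₀ K₁ K₂ : Set X} {ρ : X → X → ℝ}

/-- Local homology in degrees one and two vanishes after enlarging the compact set. -/
theorem dual [ContractibleSpace X] (hX : Loc4 X) (hK : IsCompact K) :
    ∃ K₂, IsCompact K₂ ∧ K ⊆ K₂ ∧ ∀ q, q = 1 ∨ q = 2 → ∀ z, RC K₂ q z → RB K q z := by
  classical
  have := hX.locallyCompact
  obtain ⟨K₀, hK₀, h0⟩ := exists_compact_superset hK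
  obtain ⟨K₁, hK₁, h01, hf⟩ := hull hK₀
  obtain ⟨K₂, hK₂, h12⟩ := exists_compact_superset hK₁
  obtain ⟨ρ, hρ⟩ := exists_met hX hK₂
  have h12' : K₁ ⊆ K₂ := h12.trans interior_subset
  have hK1 : K ⊆ K₁ := (h0.trans interior_subset).trans h01
  have H : ∀ r : ℝ, ∃ r' : ℝ, 0 < r → 0 < r' ∧ r' ≤ r ∧
      ∀ x ∈ K₁, ∃ B, Cvx B ∧ Bl K₂ ρ x r' ⊆ B ∧ B ⊆ Bl K₂ ρ x r := by
    intro r
    by_cases hr : 0 < r
    · obtain ⟨r', h1, h2, h3⟩ := leb_cvx hX hρ hK₁ h12 hr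
      exact ⟨r', fun _ => ⟨h1, h2, h3⟩⟩
    · exact ⟨0, fun h => (hr h).elim⟩
  choose g hg using H
  let R : ℕ → ℝ := fun j => Nat.rec 1 (fun _ r => g (r / 2) / 2) j
  have hRs : ∀ j, R (j + 1) = g (R j / 2) / 2 := fun j => rfl
  have hR : ∀ j, 0 < R j := by
    intro j
    induction j with
    | zero => exact one_pos
    | succ j ih => rw [hRs]; exact half_pos (hg _ (half_pos ih)).1
  have hR4 : ∀ j, R (j + 1) ≤ R j / 4 := fun j => by
    rw [hRs]; linarith [(hg _ (half_pos (hR j))).2.1]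
  obtain ⟨δ, hδ, hδR, hN⟩ := nerve hX hρ hK hK₁ h0 h01 h12 hf (hR 4)
  obtain ⟨t, ht, hcov⟩ := hK₁.elim_nhds_subcover (fun y => interior K₂ ∩ {z | ρ y z < δ})
    fun y hy => (hρ.isOpen (h12' hy) δ).mem_nhds ⟨h12 hy, by
      show ρ y y < δ
      rwa [hρ.self]⟩
  have hx : ∀ i : t, (i : X) ∈ K₁ := fun i => ht i i.2
  have hc : ∀ y ∈ K₁, ∃ i : t, ρ i y < δ := fun y hy => by
    obtain ⟨i, hi, h⟩ := mem_iUnion₂.1 (hcov hy)
    exact ⟨⟨i, hi⟩, h.2⟩
  have hBl : ∀ (x : X) {r r' : ℝ}, r ≤ r' → Bl K₂ ρ x r ⊆ Bl K₂ ρ x r' :=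
    fun x _ _ h y hy => ⟨hy.1, hy.2.trans h⟩
  have T : Tower K₂ (fun j (i : t) => Bl K₂ ρ i (R j)) fun i => Bl K₂ ρ i δ ∩ K :=
    { cpt := hK₂
      cA := fun j i => hρ.compact hK₂ (h12' (hx i)) _
      cF := fun i => (hρ.compact hK₂ (h12' (hx i)) _).inter hK
      sub := fun i y hy => hy.1
      anti := fun j i => hBl _ (by linarith [hR4 j, hR j])
      fin := fun i => inter_subset_left.trans (hBl _ hδR)
      hB := by
        rintro j - σ ⟨i₀, hi₀⟩ ⟨y, hy⟩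
        obtain ⟨h1, -, h3⟩ := hg _ (half_pos (hR j))
        obtain ⟨B, hB, h4, h5⟩ := h3 i₀ (hx i₀)
        have h6 : R (j + 1) ≤ g (R j / 2) := by rw [hRs]; linarith
        refine ⟨B, hB, fun z hz => h4 (hBl _ h6 (mem_iInter₂.1 hz i₀ hi₀)),
          subset_iInter₂ fun i hi z hz => ?_⟩
        obtain ⟨a1, a2⟩ := h5 hz
        obtain ⟨b1, b2⟩ := mem_iInter₂.1 hy i hi
        obtain ⟨-, c2⟩ := mem_iInter₂.1 hy i₀ hi₀
        refine ⟨a1, ?_⟩
        have e1 := hρ.tri _ (h12' (hx i)) y b1 z a1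
        have e2 := hρ.tri y b1 _ (h12' (hx i₀)) z a1
        linarith [hR4 j, hρ.symm y i₀]
      hN := hN t (fun i => i) hx hc }
  refine ⟨K₂, hK₂, hK1.trans h12', fun q hq z hz => (T.zig hX hq hz).anti fun y hy => ?_⟩
  obtain ⟨i, hi⟩ := hc y (hK1 hy)
  exact mem_iUnion.2 ⟨i, ⟨h12' (hK1 hy), hi.le⟩, hy⟩

/-- Cycles of dimension `≤ 1` near infinity bound near infinity. -/
theorem fills_inf [ContractibleSpace X] (hX : Loc4 X) (hK : IsCompact K) :
    ∃ K₂, IsCompact K₂ ∧ K ⊆ K₂ ∧ ∀ p ≤ 1, Fills K₂ᶜ Kᶜ p := by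
  obtain ⟨K₂, h1, h2, h3⟩ := dual hX hK
  refine ⟨K₂, h1, h2, fun p hp z hz hc => ?_⟩
  obtain ⟨w, hw, rfl⟩ := fills_univ p z (On_mono (subset_univ _) hz) hc
  obtain ⟨w', -, h⟩ := h3 (p + 1) (by omega) w ⟨hw, hz⟩
  exact ⟨_, h, by rw [map_sub, sb_sb, sub_zero]⟩

end Crest.Agent.R224
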