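import Crest.Agent.R224.TBas

/-! R224, task TSd: subdivision and small chains.

Compare `R251/Small.lean`.  For a face, `ev φ (ext (τ ∘ face i)) c = ev φ (ext τ) (lmap (fl i) c)` for
`c ∈ In stdSimplex` (`ev_congr` with `ext_face`, `ev_lmap` with `cmb_linear`); with `Sdp_nat`, `TT_nat`, `bd_stdv`,
`bd_Sdp`, `bd_TT`, `sb_ev` this gives `sb_sd` and `sb_ht` (telescoping sum; `sx_ext_stdv` for `m = 0`).  In degree
`0`, `Sd 1 (single v 1) = single v 1`.  `sd_mem_On`, `ht_mem_On`: `ev_mem_On` with `B = stdSimplex`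
(`ext τ` is continuous on it), `Sdp_mem_In`, `TT_mem_In`.
`sd_small`: for one simplex `τ` take a Lebesgue number `δ` of the cover `τ ⁻¹' U i` of `Δ n` and
`exists_pow_Sd`; a generator `v` of `Dm stdSimplex δ` lies in `In B` for the convex set
`B = stdSimplex ∩ closedBall (v 0) δ`.  Take the maximum over the support.
`nb_small`: `z - sb w = y ∈ On (⋃ U i)`, `sb y = sb z ∈ N`; `y = sd y + sb (ht y) + ht (sb y)`, with `sd y ∈ N`
(`sd_small`) and `ht (sb y) ∈ N` (`ht_mem_On` on each summand).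
`exc_surj`: `sd m z = z' + y` with `z' ∈ On U`, `y ∈ On Aᶜ` for the cover `U, Aᶜ`.
`exc_inj`: `z - sb w ∈ On Aᶜ`; `sd m w = w' + y`; then `w'' = w' + ht m z ∈ On U` and `z - sb w''` lies in `On U`
and in `On Aᶜ`. -/

set_option autoImplicit false
set_option linter.unusedSectionVars false

namespace Crest.Agent.R224

open Set Finsupp Topology Crest.Agent.R251

variable {X : Type} {n : ℕ}

theorem tsd_neg_one (i : ℕ) (z : SC X n) : (-1 : ℤ) ^ i • z = z := by
  rcases neg_one_pow_eq_or ℤ i with h | h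
  · rw [h, one_smul]
  · rw [h, neg_smul, one_smul, neg_eq_of_add_eq_zero_right (sc_add_self _)]

theorem tsd_ev_face {M : Type} [AddCommGroup M] {k : ℕ} (φ : Co X M k) (τ : Δ (n + 1) → X)
    (i : Fin (n + 2)) {c : LC (Fin (n + 1) → ℝ) (k + 1)}
    (hc : c ∈ In (stdSimplex ℝ (Fin (n + 1))) (k + 1)) :
    ev φ (ext fun x => τ (face i x)) c = ev φ (ext τ) (lmap (fl i) c) := by
  rw [ev_lmap φ (ext τ) (cmb_linear (fl i))]
  exact ev_congr φ (convex_stdSimplex ℝ _) (fun y hy => ext_face τ i hy) hc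

theorem tsd_Sdp_In (n j : ℕ) : Sdp (n + 1) j (single (stdv n) (1 : ℤ)) ∈
    In (stdSimplex ℝ (Fin (n + 1))) (n + 1) :=
  Sdp_mem_In (convex_stdSimplex ℝ _) _ _ (single_mem_In (stdv_mem n))

theorem sd_single (m : ℕ) (τ : Δ n → X) :
    sd m n (single τ 1) = ev (uni X n) (ext τ) (Sdp (n + 1) m (single (stdv n) 1)) := by
  rw [sd, linearCombination_single, one_smul]

theorem ht_single (m : ℕ) (τ : Δ n → X) :
    ht m n (single τ 1) = ∑ j ∈ Finset.range m,
      ev (uni X (n + 1)) (ext τ) (TT (n + 1) (Sdp (n + 1) j (single (stdv n) 1))) := by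
  rw [ht, linearCombination_single, one_smul]

theorem sb_sd (m : ℕ) (z : SC X (n + 1)) : sb (sd m (n + 1) z) = sd m n (sb z) := by
  refine sc_ext (f := sb ∘ₗ sd m (n + 1)) (g := sd m n ∘ₗ sb) (fun τ => ?_) z
  rw [LinearMap.comp_apply, LinearMap.comp_apply, sd_single, sb_ev, bd_Sdp, bd_stdv, sb_single]
  simp only [map_sum, map_smul, tsd_neg_one]
  refine Finset.sum_congr rfl fun i _ => ?_
  rw [sd_single, tsd_ev_face _ _ _ (tsd_Sdp_In n m), Sdp_nat]

theorem tsd_Sd_one {W : Type} [AddCommGroup W] [Module ℝ W] (c : LC W 1) : Sd 1 c = c := by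
  refine lc_ext (f := Sd 1) (g := LinearMap.id) (fun v => ?_) c
  have h : Sd 1 (single v 1) = cone (bary v) (Sd 0 (bd (single v 1))) := Sd_single v
  have hb : bary v = v 0 := by simp [bary]
  have h2 : (single v 1 : LC W 1) = cone (v 0) (single (fun i : Fin 0 => i.elim0) 1) := by
    rw [cone_single]
    congr 1
    funext i
    fin_cases i
    rfl
  rw [h, hb, LinearMap.id_apply]
  conv_rhs => rw [h2]
  congr 1
  rw [h2, bd_cone_zero]
  rfl

theorem sd_zero_deg (m : ℕ) (z : SC X 0) : sd m 0 z = z := by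
  refine sc_ext (f := sd m 0) (g := LinearMap.id) (fun τ => ?_) z
  have h : Sdp (0 + 1) m (single (stdv 0) (1 : ℤ)) = single (stdv 0) 1 := by
    induction m with
    | zero => rw [Sdp_zero]
    | succ m ih => rw [Sdp_succ, ih]; exact tsd_Sd_one _
  rw [sd_single, h, ev_single, sx_ext_stdv]
  rfl

theorem sb_ht (m : ℕ) (z : SC X (n + 1)) :
    sb (ht m (n + 1) z) + ht m n (sb z) = z - sd m (n + 1) z := by
  refine sc_ext (f := sb ∘ₗ ht m (n + 1) + ht m n ∘ₗ sb) (g := LinearMap.id - sd m (n + 1))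
    (fun τ => ?_) z
  have hterm : ∀ j, sb (ev (uni X (n + 2)) (ext τ) (TT (n + 2) (Sdp (n + 2) j
        (single (stdv (n + 1)) 1)))) + ∑ i : Fin (n + 2),
        ev (uni X (n + 1)) (ext fun x => τ (face i x)) (TT (n + 1) (Sdp (n + 1) j
          (single (stdv n) 1))) =
      ev (uni X (n + 1)) (ext τ) (Sdp (n + 2) j (single (stdv (n + 1)) 1)) -
        ev (uni X (n + 1)) (ext τ) (Sdp (n + 2) (j + 1) (single (stdv (n + 1)) 1)) := by
    intro j
    have h1 := congrArg (ev (uni X (n + 1)) (ext τ)) (bd_TT (n + 1) (Sdp (n + 1 + 1) j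
      (single (stdv (n + 1)) 1)))
    rw [map_add, map_sub, ← Sdp_succ, bd_Sdp, bd_stdv] at h1
    rw [← h1, sb_ev]
    congr 1
    simp only [map_sum, map_smul, tsd_neg_one]
    refine Finset.sum_congr rfl fun i _ => ?_
    rw [tsd_ev_face _ _ _ (TT_mem_In (convex_stdSimplex ℝ _) _ (tsd_Sdp_In n j)), TT_nat, Sdp_nat]
  rw [LinearMap.add_apply, LinearMap.comp_apply, LinearMap.comp_apply, LinearMap.sub_apply,
    LinearMap.id_apply, ht_single, sb_single, map_sum, map_sum]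
  simp only [ht_single]
  rw [Finset.sum_comm, ← Finset.sum_add_distrib, Finset.sum_congr rfl fun j _ => hterm j,
    Finset.sum_range_sub', Sdp_zero, ev_single, sx_ext_stdv, sd_single]
  rfl

variable [TopologicalSpace X] {S : Set X}

theorem tsd_ext_cont {τ : Δ n → X} (h : Continuous τ) :
    ContinuousOn (ext τ) (stdSimplex ℝ (Fin (n + 1))) := by
  rw [continuousOn_iff_continuous_domRestrict]
  convert h using 1
  funext y
  exact ext_val τ y

omit [TopologicalSpace X] in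
theorem tsd_ext_maps {τ : Δ n → X} (h : ∀ x, τ x ∈ S) :
    MapsTo (ext τ) (stdSimplex ℝ (Fin (n + 1))) S := fun y hy => by
  have e : ext τ y = τ ⟨y, hy⟩ := ext_val τ ⟨y, hy⟩
  rw [e]
  exact h _

theorem sd_mem_On (m : ℕ) {z : SC X n} (hz : z ∈ On S n) : sd m n z ∈ On S n := by
  refine On_le (sd m n) _ (fun τ h h' => ?_) hz
  rw [sd_single]
  exact ev_mem_On (convex_stdSimplex ℝ _) (tsd_ext_cont h) (tsd_ext_maps h') (tsd_Sdp_In n m)

theorem ht_mem_On (m : ℕ) {z : SC X n} (hz : z ∈ On S n) : ht m n z ∈ On S (n + 1) := by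
  refine On_le (ht m n) _ (fun τ h h' => ?_) hz
  rw [ht_single]
  exact Submodule.sum_mem _ fun j _ => ev_mem_On (convex_stdSimplex ℝ _) (tsd_ext_cont h)
    (tsd_ext_maps h') (TT_mem_In (convex_stdSimplex ℝ _) _ (tsd_Sdp_In n j))

theorem tsd_small_single {ι : Type} {U : ι → Set X} (hU : ∀ i, IsOpen (U i)) (hS : S ⊆ ⋃ i, U i)
    {τ : Δ n → X} (h : Continuous τ) (h' : ∀ x, τ x ∈ S) :
    ∃ m₀, ∀ m, m₀ ≤ m → sd m n (single τ 1) ∈ ⨆ i, On (S ∩ U i) n := by
  obtain ⟨δ, hδ, hl⟩ := lebesgue_number_lemma_of_metric (s := (univ : Set (Δ n)))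
    (c := fun i => τ ⁻¹' U i) isCompact_univ (fun i => (hU i).preimage h) (by
      intro x _
      obtain ⟨i, hi⟩ := mem_iUnion.1 (hS (h' x))
      exact mem_iUnion.2 ⟨i, hi⟩)
  obtain ⟨m₀, hm⟩ := exists_pow_Sd n (half_pos hδ)
  refine ⟨m₀, fun m hm' => ?_⟩
  rw [sd_single]
  refine supported_le (ev (uni X n) (ext τ)) ((⨆ i, On (S ∩ U i) n).restrictScalars ℤ)
    (fun v hv => ?_) (hm m hm')
  obtain ⟨i, hi⟩ := hl ⟨v 0, hv.1 0⟩ (mem_univ _)
  have hB : Convex ℝ (stdSimplex ℝ (Fin (n + 1)) ∩ Metric.closedBall (v 0) (δ / 2)) :=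
    (convex_stdSimplex ℝ _).inter (convex_closedBall _ _)
  refine Submodule.mem_iSup_of_mem i (ev_mem_On hB ((tsd_ext_cont h).mono inter_subset_left)
    (fun w hw => ?_) (single_mem_In fun j => ⟨hv.1 j, hv.2 j 0⟩))
  have e : ext τ w = τ ⟨w, hw.1⟩ := ext_val τ ⟨w, hw.1⟩
  rw [e]
  have h2 : (⟨w, hw.1⟩ : Δ n) ∈ Metric.ball (⟨v 0, hv.1 0⟩ : Δ n) δ :=
    lt_of_le_of_lt (Metric.mem_closedBall.1 hw.2) (half_lt_self hδ)
  exact ⟨h' _, hi h2⟩

theorem sd_small {ι : Type} {U : ι → Set X} (hU : ∀ i, IsOpen (U i)) (hS : S ⊆ ⋃ i, U i)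
    {z : SC X n} (hz : z ∈ On S n) :
    ∃ m₀, ∀ m, m₀ ≤ m → sd m n z ∈ ⨆ i, On (S ∩ U i) n := by
  rw [On, supported_eq_span_single] at hz
  induction hz using Submodule.span_induction with
  | mem x hx =>
    obtain ⟨τ, hτ, rfl⟩ := hx
    exact tsd_small_single hU hS hτ.1 hτ.2
  | zero => exact ⟨0, fun m _ => by rw [map_zero]; exact Submodule.zero_mem _⟩
  | add x y _ _ hx hy =>
    obtain ⟨a, ha⟩ := hx
    obtain ⟨b, hb⟩ := hy
    refine ⟨max a b, fun m hm => ?_⟩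
    rw [map_add]
    exact Submodule.add_mem _ (ha m (le_of_max_le_left hm)) (hb m (le_of_max_le_right hm))
  | smul a x _ hx =>
    obtain ⟨b, hb⟩ := hx
    refine ⟨b, fun m hm => ?_⟩
    rw [map_smul]
    exact Submodule.smul_mem _ _ (hb m hm)

/-- A relative cycle is homologous to its subdivision. -/
theorem sub_sd {N : ∀ n, Submodule (ZMod 2) (SC X n)} (m : ℕ)
    (hN : ∀ n, ∀ y ∈ N n, ht m n y ∈ N (n + 1)) {z : SC X n} (hz : z ∈ On S n)
    (hc : BdIn N n z) : ∃ w ∈ On S (n + 1), z - sd m n z - sb w ∈ N n := by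
  cases n with
  | zero =>
    refine ⟨0, Submodule.zero_mem _, ?_⟩
    rw [sd_zero_deg, map_zero, sub_self, sub_self]
    exact Submodule.zero_mem _
  | succ n =>
    refine ⟨ht m (n + 1) z, ht_mem_On m hz, ?_⟩
    rw [← sb_ht, add_sub_cancel_left]
    exact hN n _ hc

theorem ht_mem_iSup {ι : Type} {U : ι → Set X} (m : ℕ) {y : SC X n}
    (hy : y ∈ ⨆ i, On (U i) n) : ht m n y ∈ ⨆ i, On (U i) (n + 1) := by
  have : (⨆ i, On (U i) n) ≤ (⨆ i, On (U i) (n + 1)).comap (ht m n) :=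
    iSup_le fun i y hy => Submodule.mem_iSup_of_mem i (ht_mem_On m hy)
  exact this hy

theorem nb_small {ι : Type} {U : ι → Set X} (hU : ∀ i, IsOpen (U i)) {z : SC X n}
    (hc : NC (fun n => ⨆ i, On (U i) n) n z) (hb : NB (On (⋃ i, U i)) n z) :
    NB (fun n => ⨆ i, On (U i) n) n z := by
  obtain ⟨w, hw, hy⟩ := hb
  obtain ⟨m, hm⟩ := sd_small hU Subset.rfl hy
  have h0 : (⨆ i, On ((⋃ i, U i) ∩ U i) n) ≤ ⨆ i, On (U i) n :=
    iSup_mono fun i => On_mono inter_subset_right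
  have h1 : sd m n (z - sb w) ∈ ⨆ i, On (U i) n := h0 (hm m le_rfl)
  have h2 : BdIn (fun n => ⨆ i, On (U i) n) n (z - sb w) := by
    cases n with
    | zero => trivial
    | succ n =>
      have h3 : sb z ∈ ⨆ i, On (U i) n := hc.2
      show sb (z - sb w) ∈ ⨆ i, On (U i) n
      rw [map_sub, sb_sb, sub_zero]
      exact h3
  obtain ⟨w', hw', h3⟩ := sub_sd (N := fun n => ⨆ i, On (U i) n) m
    (fun n y hy => ht_mem_iSup m hy) hy h2
  refine ⟨w + w', Submodule.add_mem _ hw (On_mono (subset_univ _) hw'), ?_⟩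
  have e : z - sb (w + w') = (z - sb w - sd m n (z - sb w) - sb w') + sd m n (z - sb w) := by
    rw [map_add]; abel
  rw [e]
  exact Submodule.add_mem _ h3 h1

/-- Subdivision for a cover by two open sets. -/
theorem sd_small_two {U V : Set X} (hU : IsOpen U) (hV : IsOpen V) (hS : S ⊆ U ∪ V)
    {z : SC X n} (hz : z ∈ On S n) :
    ∃ m₀, ∀ m, m₀ ≤ m → ∃ a ∈ On U n, ∃ b ∈ On V n, a + b = sd m n z := by
  obtain ⟨m₀, hm⟩ := sd_small (U := fun b : Bool => bif b then U else V)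
    (fun b => by cases b <;> assumption) (fun x hx => by
      rcases hS hx with h | h
      · exact mem_iUnion.2 ⟨true, h⟩
      · exact mem_iUnion.2 ⟨false, h⟩) hz
  refine ⟨m₀, fun m hm' => Submodule.mem_sup.1 ?_⟩
  refine (iSup_le fun b => ?_ : (⨆ b : Bool, On (S ∩ bif b then U else V) n) ≤ On U n ⊔ On V n)
    (hm m hm')
  cases b
  · exact le_sup_of_le_right (On_mono inter_subset_right)
  · exact le_sup_of_le_left (On_mono inter_subset_right)

theorem exc_surj {A U : Set X} (hA : IsClosed A) (hU : IsOpen U) (hAU : A ⊆ U) {z : SC X n}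
    (hz : RC A n z) : ∃ z' ∈ On U n, BdIn (On (U \ A)) n z' ∧ RB A n (z - z') := by
  obtain ⟨m, hm⟩ := sd_small_two hU hA.isOpen_compl
    (fun x _ => by by_cases h : x ∈ A; exacts [Or.inl (hAU h), Or.inr h]) hz.1
  obtain ⟨a, ha, b, hb, e⟩ := hm m le_rfl
  refine ⟨a, ha, ?_, ?_⟩
  · cases n with
    | zero => trivial
    | succ n =>
      show sb a ∈ On (U ∩ Aᶜ) n
      rw [On_inter]
      refine ⟨sb_mem_On ha, ?_⟩
      have e' : sb a = sd m n (sb z) - sb b := by rw [← sb_sd, ← e, map_add, add_sub_cancel_right]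
      rw [e']
      exact Submodule.sub_mem _ (sd_mem_On m hz.2) (sb_mem_On hb)
  · obtain ⟨w, hw, h⟩ := sub_sd m (fun n y hy => ht_mem_On m hy) hz.1 hz.2
    refine ⟨w, hw, ?_⟩
    have e' : z - a - sb w = (z - sd m n z - sb w) + b := by rw [← e]; abel
    rw [e']
    exact Submodule.add_mem _ h hb

theorem exc_inj {A U : Set X} (hA : IsClosed A) (hU : IsOpen U) (hAU : A ⊆ U) {z : SC X n}
    (hz : z ∈ On U n) (hc : BdIn (On (U \ A)) n z) (hb : RB A n z) :
    ∃ w ∈ On U (n + 1), z - sb w ∈ On (U \ A) n := by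
  obtain ⟨w, hw, hy⟩ := hb
  obtain ⟨m, hm⟩ := sd_small_two hU hA.isOpen_compl
    (fun x _ => by by_cases h : x ∈ A; exacts [Or.inl (hAU h), Or.inr h]) hw
  obtain ⟨a, ha, b, hb, e⟩ := hm m le_rfl
  obtain ⟨w', hw', h⟩ := sub_sd m (fun n y hy => ht_mem_On m hy) hz hc
  have hm' := Submodule.add_mem _ ha hw'
  refine ⟨a + w', hm', ?_⟩
  show _ ∈ On (U ∩ Aᶜ) n
  rw [On_inter]
  refine ⟨Submodule.sub_mem _ hz (sb_mem_On hm'), ?_⟩
  have e' : z - sb (a + w') = (z - sd m n z - sb w') + (sd m n (z - sb w) + sb b) := by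
    rw [map_sub (sd m n), ← sb_sd, ← e, map_add, map_add]; abel
  rw [e']
  exact Submodule.add_mem _ (On_mono (sdiff_subset_compl _ _) h)
    (Submodule.add_mem _ (sd_mem_On m hy) (sb_mem_On hb))

end Crest.Agent.R224
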