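import Crest.Agent.R224.TMan

/-! R224, task TZig: the zig-zag in the double complex of a finite closed cover.

A cochain is `x : Finset I → SC X n`; only its values on sets of a given cardinality matter.
`cd_cd`: `(τ.erase i).erase j` is symmetric in `i ≠ j`, characteristic two (`Finset.sum_involution`, or
`Finset.sum_comm` on `offDiag`).  `cd_mem`: `Ns A (τ.erase i) ≤ Ns A τ`.
`mem_Ns`: for non-empty `σ`, `⨆ i ∈ σ, supported S_i = supported (⋃ S_i)` (`Finsupp.supported_iUnion`); for `σ = ∅`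
both sides say `z = 0`.
`nb_Ns`: `nb_small` with index type `σ` (if `⋂ A i = ∅` every chain is a boundary modulo `On univ`).
`row`: for a simplex `s` let `I s = {i | ∃ x, s x ∈ A i}`, choose `i s ∈ I s` if possible, and put
`c σ s = b (insert (i s) σ) s` if `I s ≠ ∅`, `i s ∉ σ` and `σ.card = k`, else `0` (`Finsupp.onFinset` over the union
of the supports).  For `τ ⊆ I s` of cardinality `k + 1`: if `i s ∈ τ` only the term `i = i s` of `cd c τ s` survives;
otherwise use `cd b (insert (i s) τ) s = 0`.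
`Gd k n x`: see the definition.  `gd_step`: from `b'` for `cd a` get `c` by `row`, take `b = a - sb c`.
`gd_high`: downward induction on `k` (no sets of cardinality `> card I`), for all `n ≥ 4`: choose `a`; `cd a` has
degree `n + 1 > 4`, `sb (cd a τ) ≡ cd x τ`, so its values are cycles modulo `Ns`, hence boundaries (`pm_compact`,
`nb_Ns`).  `gd_final`: `row` with `k = 0` gives `c ∅` with `b {i} - c ∅ ∈ On (A i)ᶜ`; then
`z - sb (c ∅) ∈ On (A i)ᶜ` for all `i` (if `I` is empty take `w = 0`). -/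

set_option autoImplicit false
set_option linter.unusedSectionVars false

namespace Crest.Agent.R224

open Set Finsupp Topology Crest.Agent.R251

variable {X : Type} [TopologicalSpace X] [T2Space X] {I : Type} [Fintype I] [DecidableEq I]
  {A : I → Set X} {n k : ℕ}

theorem cd_cd {M : Type} [AddCommGroup M] [Module (ZMod 2) M] (a : Finset I → M) (τ : Finset I) :
    cd (cd a) τ = 0 := by
  have h2 : ∀ x : M, x + x = 0 := fun x => by
    rw [← two_smul (ZMod 2) x, show (2 : ZMod 2) = 0 from rfl, zero_smul]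
  have e : cd (cd a) τ = ∑ p ∈ τ ×ˢ τ, if p.2 ≠ p.1 then a ((τ.erase p.1).erase p.2) else 0 := by
    rw [Finset.sum_product]
    refine Finset.sum_congr rfl fun i _ => ?_
    rw [cd, ← Finset.sum_filter, Finset.filter_ne']
  rw [e]
  refine Finset.sum_involution (fun p _ => p.swap) (fun p _ => ?_) (fun p _ h => ?_)
    (fun p hp => ?_) (fun p _ => Prod.swap_swap p)
  · by_cases h : p.2 = p.1
    · simp [h]
    · have h' : p.1 ≠ p.2 := fun e => h e.symm
      simp only [Prod.fst_swap, Prod.snd_swap, ne_eq, h, h', not_false_eq_true, if_true]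
      rw [Finset.erase_right_comm (a := p.2)]
      exact h2 _
  · intro e
    have : p.2 = p.1 := congrArg Prod.fst e
    exact h (by simp [this])
  · rw [Finset.mem_product] at hp ⊢
    exact ⟨hp.2, hp.1⟩

theorem sb_cd (a : Finset I → SC X (n + 1)) (τ : Finset I) :
    sb (cd a τ) = cd (fun σ => sb (a σ)) τ := by
  simp only [cd, map_sum]

theorem Ns_mono {σ τ : Finset I} (h : σ ⊆ τ) : Ns A σ n ≤ Ns A τ n := by
  exact biSup_mono fun i hi => h hi

theorem Ns_anti {A' : I → Set X} (h : ∀ i, A' i ⊆ A i) (σ : Finset I) : Ns A σ n ≤ Ns A' σ n := by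
  exact iSup₂_mono fun i _ => On_mono (compl_subset_compl.2 (h i))

theorem sb_mem_Ns {σ : Finset I} {z : SC X (n + 1)} (h : z ∈ Ns A σ (n + 1)) : sb z ∈ Ns A σ n := by
  have : Ns A σ (n + 1) ≤ (Ns A σ n).comap sb :=
    iSup₂_le fun i hi w hw => (le_iSup₂ (f := fun i (_ : i ∈ σ) => On (A i)ᶜ n) i hi) (sb_mem_On hw)
  exact this h

theorem cd_mem {a : Finset I → SC X n} (h : ∀ σ, σ.card = k → a σ ∈ Ns A σ n) {τ : Finset I}
    (hτ : τ.card = k + 1) : cd a τ ∈ Ns A τ n := by
  refine Submodule.sum_mem _ fun i hi => Ns_mono (Finset.erase_subset i τ) (h _ ?_)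
  rw [Finset.card_erase_of_mem hi, hτ]; rfl

theorem mem_Ns {σ : Finset I} {z : SC X n} :
    z ∈ Ns A σ n ↔ ∀ s ∈ z.support, Continuous s ∧ ∃ i ∈ σ, ∀ x, s x ∉ A i := by
  rw [Ns, iSup_subtype']
  simp only [On]
  rw [← supported_iUnion, mem_supported]
  constructor
  · intro h s hs
    obtain ⟨i, hi⟩ := mem_iUnion.1 (h hs)
    exact ⟨hi.1, i, i.2, hi.2⟩
  · intro h s hs
    obtain ⟨hc, i, hi, h⟩ := h s hs
    exact mem_iUnion.2 ⟨⟨i, hi⟩, hc, h⟩

theorem Ns_le (σ : Finset I) : Ns A σ n ≤ On (⋂ i ∈ σ, A i)ᶜ n := by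
  exact iSup₂_le fun i hi => On_mono (compl_subset_compl.2 (biInter_subset_of_mem hi))

theorem nb_Ns (hA : ∀ i, IsClosed (A i)) {σ : Finset I} {z : SC X n} (hc : NC (Ns A σ) n z)
    (hb : RB (⋂ i ∈ σ, A i) n z) : NB (Ns A σ) n z := by
  have e : Ns A σ = fun n => ⨆ i : σ, On (A i)ᶜ n := funext fun n => iSup_subtype'
  have e' : (⋂ i ∈ σ, A i)ᶜ = ⋃ i : σ, (A i)ᶜ := by
    ext x; simp
  rw [e] at hc ⊢
  refine nb_small (fun i : σ => (hA i).isOpen_compl) hc ?_
  rw [← e']
  exact hb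

theorem row {b : Finset I → SC X n} (hb : ∀ τ, τ.card = k + 1 → b τ ∈ On univ n)
    (h : ∀ υ, υ.card = k + 2 → cd b υ ∈ Ns A υ n) :
    ∃ c : Finset I → SC X n, (∀ σ, c σ ∈ On univ n) ∧
      ∀ τ, τ.card = k + 1 → b τ - cd c τ ∈ Ns A τ n := by
  classical
  let f : Finset I → (Δ n → X) → ZMod 2 := fun σ s =>
    if h : ∃ i, ∃ x, s x ∈ A i then
      (if h.choose ∉ σ ∧ σ.card = k then b (insert h.choose σ) s else 0) else 0
  have hf : ∀ σ s, f σ s ≠ 0 → ∃ τ, τ.card = k + 1 ∧ b τ s ≠ 0 := by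
    intro σ s hs
    simp only [f] at hs
    split_ifs at hs with h1 h2
    · exact ⟨_, by rw [Finset.card_insert_of_notMem h2.1, h2.2], hs⟩
    · exact (hs rfl).elim
    · exact (hs rfl).elim
  let c : Finset I → SC X n := fun σ =>
    Finsupp.onFinset (Finset.univ.biUnion fun τ => (b τ).support) (f σ) fun s hs => by
      obtain ⟨τ, -, hτ⟩ := hf σ s hs
      exact Finset.mem_biUnion.2 ⟨τ, Finset.mem_univ _, mem_support_iff.2 hτ⟩
  have hc : ∀ σ, c σ ∈ On univ n := fun σ => mem_On.2 fun s hs => by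
    obtain ⟨τ, h1, hτ⟩ := hf σ s (mem_support_iff.1 hs)
    exact mem_On.1 (hb τ h1) s (mem_support_iff.2 hτ)
  refine ⟨c, hc, fun τ hτ => mem_Ns.2 fun s hs => ⟨?_, ?_⟩⟩
  · exact (mem_On.1 (Submodule.sub_mem _ (hb τ hτ) (Submodule.sum_mem _ fun i _ => hc _)) s hs).1
  by_contra hn
  push Not at hn
  refine mem_support_iff.1 hs ?_
  obtain ⟨j, hj⟩ : τ.Nonempty := Finset.card_pos.1 (by omega)
  have h0 : ∃ i, ∃ x, s x ∈ A i := ⟨j, hn j hj⟩
  have e : cd c τ s = ∑ i ∈ τ, if h0.choose ∉ τ.erase i then b (insert h0.choose (τ.erase i)) s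
      else 0 := by
    rw [cd, Finsupp.finsetSum_apply]
    refine Finset.sum_congr rfl fun i hi => ?_
    have : (τ.erase i).card = k := by rw [Finset.card_erase_of_mem hi, hτ]; rfl
    show f _ s = _
    simp only [f, dif_pos h0, this, and_true]
  have h0s := h0.choose_spec
  rw [Finsupp.sub_apply, e]
  generalize h0.choose = i₀ at h0s ⊢
  by_cases hi : i₀ ∈ τ
  · rw [Finset.sum_eq_single_of_mem i₀ hi, if_pos (Finset.notMem_erase _ _),
      Finset.insert_erase hi, sub_self]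
    intro i _ hne
    rw [if_neg]
    exact not_not.2 (Finset.mem_erase.2 ⟨hne.symm, hi⟩)
  · have h1 := mem_Ns.1 (h (insert i₀ τ) (by rw [Finset.card_insert_of_notMem hi, hτ])) s
    have h2 : cd b (insert i₀ τ) s = 0 := by
      by_contra h2
      obtain ⟨-, i, hi', h3⟩ := h1 (mem_support_iff.2 h2)
      rcases Finset.mem_insert.1 hi' with rfl | hi'
      · obtain ⟨x, hx⟩ := h0s
        exact h3 x hx
      · obtain ⟨x, hx⟩ := hn i hi'
        exact h3 x hx
    rw [cd, Finsupp.finsetSum_apply, Finset.sum_insert hi, Finset.erase_insert hi] at h2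
    rw [CharTwo.sub_eq_add, ← h2]
    congr 1
    refine Finset.sum_congr rfl fun i hi' => ?_
    rw [if_pos fun h => hi (Finset.mem_of_mem_erase h), Finset.erase_insert_of_ne]
    rintro rfl
    exact hi hi'

/-- `x` is the boundary of a Čech cocycle. -/
def Gd (A : I → Set X) (k n : ℕ) (x : Finset I → SC X n) : Prop :=
  ∃ b : Finset I → SC X (n + 1), (∀ σ, σ.card = k → b σ ∈ On univ (n + 1)) ∧
    (∀ σ, σ.card = k → x σ - sb (b σ) ∈ Ns A σ n) ∧
    ∀ τ, τ.card = k + 1 → cd b τ ∈ Ns A τ (n + 1)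

theorem gd_step {x : Finset I → SC X n} {a : Finset I → SC X (n + 1)}
    (ha : ∀ σ, σ.card = k → a σ ∈ On univ (n + 1))
    (hx : ∀ σ, σ.card = k → x σ - sb (a σ) ∈ Ns A σ n) (h : Gd A (k + 1) (n + 1) (cd a)) :
    Gd A k n x := by
  obtain ⟨b, h1, h2, h3⟩ := h
  obtain ⟨c, hc, h4⟩ := row h1 h3
  refine ⟨fun σ => a σ - sb (c σ), fun σ hσ => Submodule.sub_mem _ (ha σ hσ) (sb_mem_On (hc σ)),
    fun σ hσ => ?_, fun τ hτ => ?_⟩
  · rw [map_sub, sb_sb, sub_zero]
    exact hx σ hσ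
  · have e : cd (fun σ => a σ - sb (c σ)) τ = (cd a τ - sb (b τ)) + sb (b τ - cd c τ) := by
      rw [map_sub, sb_cd]
      simp only [cd, Finset.sum_sub_distrib]
      abel
    rw [e]
    exact Submodule.add_mem _ (h2 τ hτ) (sb_mem_Ns (h4 τ hτ))

theorem gd_high (hX : Loc4 X) (hA : ∀ i, IsCompact (A i)) (hk : 1 ≤ k) (hn : 4 ≤ n)
    {x : Finset I → SC X n} (h1 : ∀ σ, σ.card = k → NB (Ns A σ) n (x σ))
    (h2 : ∀ τ, τ.card = k + 1 → cd x τ ∈ Ns A τ n) : Gd A k n x := by
  obtain ⟨d, hd⟩ : ∃ d, Fintype.card I < k + d := ⟨Fintype.card I, by omega⟩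
  induction d generalizing k n with
  | zero =>
    refine ⟨fun _ => 0, fun _ _ => Submodule.zero_mem _, fun σ hσ => ?_, fun τ _ => ?_⟩
    · have := σ.card_le_univ
      omega
    · simp [cd]
  | succ d ih =>
    choose! a ha hx using h1
    refine gd_step ha hx (ih (by omega) (by omega) (fun τ hτ => ?_) (fun τ _ => ?_) (by omega))
    · have hc : NC (Ns A τ) (n + 1) (cd a τ) := by
        refine ⟨Submodule.sum_mem _ fun i hi => ha _ ?_, ?_⟩
        · rw [Finset.card_erase_of_mem hi, hτ]; rfl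
        · show sb (cd a τ) ∈ Ns A τ n
          have e : sb (cd a τ) = cd x τ - cd (fun σ => x σ - sb (a σ)) τ := by
            rw [sb_cd]
            simp only [cd, Finset.sum_sub_distrib]
            abel
          rw [e]
          exact Submodule.sub_mem _ (h2 τ hτ) (cd_mem hx hτ)
      obtain ⟨j, hj⟩ : τ.Nonempty := Finset.card_pos.1 (by omega)
      have hK : IsCompact (⋂ i ∈ τ, A i) := (hA j).of_isClosed_subset
        (isClosed_biInter fun i _ => (hA i).isClosed) (biInter_subset_of_mem hj)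
      exact nb_Ns (fun i => (hA i).isClosed) hc
        ((pm_compact hX hK).triv (n + 1) (by omega) _ (hc.mono fun _ => Ns_le τ))
    · rw [cd_cd]
      exact Submodule.zero_mem _

theorem gd_final {z : SC X n} (hz : z ∈ On univ n) (h : Gd A 1 n fun _ => z) :
    RB (⋃ i, A i) n z := by
  obtain ⟨b, h1, h2, h3⟩ := h
  obtain ⟨c, hc, h4⟩ := row (k := 0) h1 h3
  refine ⟨c ∅, hc _, mem_On.2 fun s hs => ⟨?_, fun y hy => ?_⟩⟩
  · exact (mem_On.1 (Submodule.sub_mem _ hz (sb_mem_On (hc _))) s hs).1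
  · obtain ⟨i, hi⟩ := mem_iUnion.1 hy
    have h5 := h4 {i} (Finset.card_singleton i)
    have e : cd c {i} = c ∅ := by simp [cd]
    rw [e] at h5
    have h6 : z - sb (c ∅) ∈ Ns A {i} n := by
      have := Submodule.add_mem _ (h2 {i} (Finset.card_singleton i)) (sb_mem_Ns h5)
      rwa [map_sub, sub_add_sub_cancel] at this
    obtain ⟨-, j, hj, h7⟩ := mem_Ns.1 h6 s hs
    rw [Finset.mem_singleton.1 hj] at h7
    exact h7 y hi

end Crest.Agent.R224
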