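import Crest.Agent.R224.TZig

/-! R224, task TZig2: the duality zig-zag.

`A j i` decreases with the level `j`; `F i ⊆ A 4 i` is the final cover.
`lift_low` (degree `n + 1 < 4`): if `⋂ A (n+1) = ∅` use `nb_Ns`; otherwise `hB` gives a convex `B`; `z` is a local
cycle at `B` (`Ns_le`), hence a local boundary (`Cvx.p4`), hence one at `⋂ A (n+1)`; `nb_Ns`.
`top`: let `m` be a fundamental cycle of `K₂` (`pm_compact`), `x = cd a` (degree `4`; its values are cycles modulo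
`Ns (A 3)`: `sb_cd`, `cd_mem` applied to `x₀ - sb a`, and `cd x₀ ∈ Ns`).  For `σ` with `⋂ A 4 ≠ ∅` and `B` from `hB`,
`y ∈ B`: `x σ` or `x σ - m` is a local boundary at `y` (`P4.two`), hence at `B` (`P4.inj`), hence at `⋂ A 4`; this
defines `ε σ`.  For `y ∈ ⋂_{τ} A 4`, `∑ (x (τ \\ i) - ε (τ \\ i) • m) = - cd ε τ • m` (`cd_cd`) is a local boundary at
`y`, so `cd ε τ = 0`.  Take `η` from `hN`, `a' σ = a σ - η σ • m`; then `x₀ - sb a' ∈ Ns F` (as
`sb m ∈ On K₂ᶜ`, `σ ≠ ∅`), `cd a' τ = x τ - cd η τ • m` is a boundary modulo `Ns F τ` (`nb_Ns`; trivial if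
`⋂ F = ∅`), and `gd_high`, `gd_step` finish.
`zig`: start with `x₀ = fun _ => z` (`k = 1`, `cd x₀ τ = z + z = 0`), apply `lift_low` (one more time for `q = 1`),
pass to `cd a`, and end with `top`, `gd_step`, `gd_final`. -/

set_option autoImplicit false
set_option linter.unusedSectionVars false

namespace Crest.Agent.R224

open Set Finsupp Topology Crest.Agent.R251

variable {X : Type} [TopologicalSpace X] [T2Space X] {I : Type} [Fintype I] [DecidableEq I]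
  {A : ℕ → I → Set X} {F : I → Set X} {K₂ : Set X}

/-- A tower of finite compact families. -/
structure Tower (K₂ : Set X) (A : ℕ → I → Set X) (F : I → Set X) : Prop where
  cpt : IsCompact K₂
  cA : ∀ j i, IsCompact (A j i)
  cF : ∀ i, IsCompact (F i)
  sub : ∀ i, A 0 i ⊆ K₂
  anti : ∀ j i, A (j + 1) i ⊆ A j i
  fin : ∀ i, F i ⊆ A 4 i
  hB : ∀ j < 4, ∀ σ : Finset I, σ.Nonempty → (⋂ i ∈ σ, A (j + 1) i).Nonempty →
    ∃ B, Cvx B ∧ (⋂ i ∈ σ, A (j + 1) i) ⊆ B ∧ B ⊆ ⋂ i ∈ σ, A j i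
  hN : ∀ k, k = 2 ∨ k = 3 → ∀ ε : Finset I → ZMod 2,
    (∀ τ, τ.card = k + 2 → (⋂ i ∈ τ, A 4 i).Nonempty → cd ε τ = 0) →
    ∃ η : Finset I → ZMod 2, ∀ τ, τ.card = k + 1 → (⋂ i ∈ τ, F i).Nonempty → cd η τ = ε τ

theorem rb_empty {S : Set X} (e : S = ∅) {n : ℕ} {z : SC X n} (hz : z ∈ On univ n) : RB S n z := by
  refine NB.of_mem ?_
  rw [e, compl_empty]
  exact hz

theorem On_le_Ns {B : I → Set X} {S : Set X} {σ : Finset I} (hσ : σ.Nonempty) (h : ∀ i, B i ⊆ S)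
    (n : ℕ) : On Sᶜ n ≤ Ns B σ n := by
  obtain ⟨i, hi⟩ := hσ
  exact (On_mono (compl_subset_compl.2 (h i))).trans
    (le_iSup₂ (f := fun i (_ : i ∈ σ) => On (B i)ᶜ n) i hi)

theorem nc_cd {B : I → Set X} {n k : ℕ} {x : Finset I → SC X n} {a : Finset I → SC X (n + 1)}
    (ha : ∀ σ, σ.card = k → a σ ∈ On univ (n + 1))
    (hx : ∀ σ, σ.card = k → x σ - sb (a σ) ∈ Ns B σ n) {τ : Finset I} (hτ : τ.card = k + 1)
    (h2 : cd x τ = 0) : NC (Ns B τ) (n + 1) (cd a τ) := by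
  refine ⟨Submodule.sum_mem _ fun i hi => ha _ ?_, ?_⟩
  · rw [Finset.card_erase_of_mem hi, hτ]; rfl
  · show sb (cd a τ) ∈ Ns B τ n
    have e : sb (cd a τ) = cd x τ - cd (fun σ => x σ - sb (a σ)) τ := by
      rw [sb_cd]
      simp only [cd, Finset.sum_sub_distrib]
      abel
    rw [e, h2]
    exact Submodule.sub_mem _ (Submodule.zero_mem _) (cd_mem hx hτ)

theorem Tower.le (h : Tower K₂ A F) {j j' : ℕ} (hj : j ≤ j') (i : I) : A j' i ⊆ A j i := by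
  induction hj with
  | refl => exact Subset.rfl
  | step _ ih => exact (h.anti _ i).trans ih

theorem Tower.subK (h : Tower K₂ A F) (j : ℕ) (i : I) : A j i ⊆ K₂ :=
  (h.le (Nat.zero_le j) i).trans (h.sub i)

theorem Tower.subF (h : Tower K₂ A F) {j : ℕ} (hj : j ≤ 4) (i : I) : F i ⊆ A j i :=
  (h.fin i).trans (h.le hj i)

theorem Tower.lift_low (h : Tower K₂ A F) {n : ℕ} (hn : n < 3) {σ : Finset I} (hσ : σ.Nonempty)
    {z : SC X (n + 1)} (hz : NC (Ns (A n) σ) (n + 1) z) : NB (Ns (A (n + 1)) σ) (n + 1) z := by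
  refine nb_Ns (fun i => (h.cA _ i).isClosed) (hz.mono fun _ => Ns_anti (h.anti n) σ) ?_
  rcases (⋂ i ∈ σ, A (n + 1) i).eq_empty_or_nonempty with e | hne
  · exact rb_empty e hz.1
  · obtain ⟨B, hB, h1, h2⟩ := h.hB n (by omega) σ hσ hne
    have h3 : RC (⋂ i ∈ σ, A n i) (n + 1) z := hz.mono fun _ => Ns_le σ
    exact (hB.p4.triv (n + 1) (by omega) z (h3.anti h2)).anti h1

theorem Tower.top (hX : Loc4 X) (h : Tower K₂ A F) {k : ℕ} (hk : k = 2 ∨ k = 3)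
    {x₀ : Finset I → SC X 3} {a : Finset I → SC X 4} (ha : ∀ σ, σ.card = k → a σ ∈ On univ 4)
    (hx : ∀ σ, σ.card = k → x₀ σ - sb (a σ) ∈ Ns (A 3) σ 3)
    (hc : ∀ τ, τ.card = k + 1 → cd x₀ τ = 0) : Gd F k 3 x₀ := by
  obtain ⟨m, hm, hm'⟩ := (pm_compact hX h.cpt).ex
  have hne : ∀ {σ : Finset I} {l : ℕ}, σ.card = k + l → σ.Nonempty := fun hσ =>
    Finset.card_pos.1 (by omega)
  have key : ∀ σ : Finset I, σ.card = k + 1 →
      ∃ ε : ZMod 2, RB (⋂ i ∈ σ, A 4 i) 4 (cd a σ - ε • m) := by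
    intro σ hσ
    have h0 := nc_cd ha hx hσ (hc σ hσ)
    rcases (⋂ i ∈ σ, A 4 i).eq_empty_or_nonempty with e | hn
    · exact ⟨0, rb_empty e (by simpa using h0.1)⟩
    obtain ⟨B, hB, h1, h2⟩ := h.hB 3 (by omega) σ (hne hσ) hn
    obtain ⟨y, hy⟩ := hn.mono h1
    obtain ⟨j, hj⟩ := hne hσ
    have h3 : RC (⋂ i ∈ σ, A 3 i) 4 (cd a σ) := h0.mono fun _ => Ns_le σ
    have h4 : RC B 4 (cd a σ) := h3.anti h2
    have hBK : B ⊆ K₂ := (h2.trans (biInter_subset_of_mem hj)).trans (h.subK 3 j)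
    have h5 : RC B 4 m := hm.anti hBK
    by_cases h6 : RB {y} 4 (cd a σ)
    · exact ⟨0, by simpa using (hB.p4.inj y hy _ h4 h6).anti h1⟩
    · have hy' : {y} ⊆ B := singleton_subset_iff.2 hy
      have h7 := hB.p4.two y hy _ _ (h4.anti hy') (h5.anti hy') h6 (hm' y (hBK hy))
      exact ⟨1, by simpa using (hB.p4.inj y hy _ (h4.sub h5) h7).anti h1⟩
  choose! ε hε using key
  have hε' : ∀ τ : Finset I, τ.card = k + 2 → (⋂ i ∈ τ, A 4 i).Nonempty → cd ε τ = 0 := by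
    rintro τ hτ ⟨y, hy⟩
    obtain ⟨j, hj⟩ := hne hτ
    have h1 : RB {y} 4 (∑ i ∈ τ, (cd a (τ.erase i) - ε (τ.erase i) • m)) := by
      refine Finset.sum_induction _ (RB {y} 4) (fun _ _ => NB.add)
        (NB.of_mem (Submodule.zero_mem _)) fun i hi => ?_
      refine (hε _ (by rw [Finset.card_erase_of_mem hi, hτ]; rfl)).anti ?_
      rw [singleton_subset_iff]
      exact mem_iInter₂.2 fun l hl => mem_iInter₂.1 hy l (Finset.mem_of_mem_erase hl)
    rw [Finset.sum_sub_distrib, ← Finset.sum_smul] at h1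
    change RB {y} 4 (cd (cd a) τ - cd ε τ • m) at h1
    rw [cd_cd, sc_sub, zero_add] at h1
    have h2 : ∀ t : ZMod 2, t = 0 ∨ t = 1 := by decide
    rcases h2 (cd ε τ) with e | e
    · exact e
    · rw [e, one_smul] at h1
      exact (hm' y (h.subK 4 j (mem_iInter₂.1 hy j hj)) h1).elim
  obtain ⟨η, hη⟩ := h.hN k hk ε hε'
  have ha' : ∀ σ, σ.card = k → a σ - η σ • m ∈ On univ 4 := fun σ hσ =>
    Submodule.sub_mem _ (ha σ hσ) (Submodule.smul_mem _ _ hm.1)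
  have hx' : ∀ σ, σ.card = k → x₀ σ - sb (a σ - η σ • m) ∈ Ns F σ 3 := by
    intro σ hσ
    rw [map_sub, map_smul, sub_sub_eq_add_sub, add_sub_right_comm]
    exact Submodule.add_mem _ (Ns_anti (h.subF (by omega)) σ (hx σ hσ)) (Submodule.smul_mem _ _
      (On_le_Ns (hne (l := 0) hσ) (fun i => (h.fin i).trans (h.subK 4 i)) 3 hm.2))
  refine gd_step ha' hx' (gd_high hX h.cF (by omega) le_rfl (fun τ hτ => ?_) fun τ _ => ?_)
  · have h0 := nc_cd ha' hx' hτ (hc τ hτ)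
    refine nb_Ns (fun i => (h.cF i).isClosed) h0 ?_
    rcases (⋂ i ∈ τ, F i).eq_empty_or_nonempty with e | hn
    · exact rb_empty e h0.1
    have e : cd (fun σ => a σ - η σ • m) τ = cd a τ - cd η τ • m := by
      simp only [cd, Finset.sum_sub_distrib, Finset.sum_smul]
    rw [e, hη τ hτ hn]
    exact (hε τ hτ).anti (iInter₂_mono fun i _ => h.fin i)
  · rw [cd_cd]
    exact Submodule.zero_mem _

theorem Tower.zig (hX : Loc4 X) (h : Tower K₂ A F) {q : ℕ} (hq : q = 1 ∨ q = 2) {z : SC X q}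
    (hz : RC K₂ q z) : RB (⋃ i, F i) q z := by
  have hne : ∀ {σ : Finset I} {l : ℕ}, σ.card = l + 1 → σ.Nonempty := fun hσ =>
    Finset.card_pos.1 (by omega)
  have h0 : ∀ τ : Finset I, τ.card = 1 + 1 → cd (fun _ => z) τ = 0 := by
    intro τ hτ
    rw [cd, Finset.sum_const, hτ, add_smul, one_smul, sc_add_self]
  have tail : ∀ k, k = 2 ∨ k = 3 → ∀ (x : Finset I → SC X 2), (∀ τ, τ.card = k → cd x τ = 0) →
      (∀ σ, σ.card = k - 1 → NC (Ns (A 1) σ) 2 (x σ)) → Gd F (k - 1) 2 x := by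
    intro k hk x hx h1
    have hk' : k = k - 1 + 1 := by omega
    have h2 : ∀ σ, σ.card = k - 1 → NB (Ns (A 2) σ) 2 (x σ) := fun σ hσ =>
      h.lift_low (n := 1) (by omega) (Finset.card_pos.1 (by omega)) (h1 σ hσ)
    choose! a ha ha' using h2
    have h3 : ∀ σ, σ.card = k → NB (Ns (A 3) σ) 3 (cd a σ) := fun σ hσ =>
      h.lift_low (n := 2) (by omega) (Finset.card_pos.1 (by omega))
        (nc_cd ha ha' (hσ.trans hk') (hx σ hσ))
    choose! b hb hb' using h3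
    refine gd_step ha (fun σ hσ => Ns_anti (h.subF (by omega)) σ (ha' σ hσ)) ?_
    rw [← hk']
    exact h.top hX hk hb hb' fun τ _ => cd_cd a τ
  refine gd_final hz.1 ?_
  rcases hq with rfl | rfl
  · have h2 : ∀ σ : Finset I, σ.card = 1 → NB (Ns (A 1) σ) 1 z := fun σ hσ =>
      h.lift_low (n := 0) (by omega) (hne hσ) (hz.mono (On_le_Ns (hne hσ) h.sub))
    choose! a ha ha' using h2
    refine gd_step ha (fun σ hσ => Ns_anti (h.subF (by omega)) σ (ha' σ hσ)) ?_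
    exact tail 3 (Or.inr rfl) (cd a) (fun τ _ => cd_cd a τ)
      fun σ hσ => nc_cd (x := fun _ => z) ha ha' hσ (h0 σ hσ)
  · exact tail 2 (Or.inl rfl) _ h0 fun σ hσ => hz.mono (On_le_Ns (hne hσ) (h.subK 1))

end Crest.Agent.R224
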