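import Crest.Agent.R224.ZB2

/-! R224, task Tuk1: stabilisers in a convergence group (Tukia).

`tukia`: take an ultrafilter `g → a` on the stabiliser; `g⁻¹ • o → c` and `c = b` (else `b = g • b → a`).  By
`ucp` get `k` in the stabiliser and `δ` with `k` mapping `{δ ≤ dist · b}` into `A = closedBall a δ ∌ b`,
`k ^ n • o ∈ A`, powers distinct.  (*) Every ultrafilter limit `a' ≠ b` of elements `g i → ∞` of the stabiliser
has `(g i)⁻¹ • o → b`.  Hence `k⁻¹ ^ n • o → b` (every ultrafilter limit is `b`).  Let `a'` be an ultrafilter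
limit of `k ^ n • o`; by `ucp` some `k ^ n` maps the compact set `A` into `ball a' ε`, so all `k ^ m • o`,
`m > n`, lie there: `k ^ n • o → a'`, `k • a' = a'`, `a' ≠ b`.  So `Lam {k ^ m} ⊆ {a', b}`.  Let `R` be an open
ball about `b` whose closure misses `a'`, `K = k • closure R \\ R` (compact, misses `a', b`).  For each
`w : Γ`, `k ^ m • w • o` tends to `a'` (`m → ∞`) and to `b` (`m → -∞`) by `conv`, so `k ^ m • w • o ∈ K` for
some `m : ℤ` (`Int.exists_greatest_of_bdd`).  Every `g` in the stabiliser fixes `a'`: put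
`c n = k ^ (m n) * g * k⁻¹ ^ n` with `c n • o ∈ K`; since `g * k⁻¹ ^ n → b`, `m n → +∞` (along an ultrafilter
`m n` is constant, or tends to `±∞`; in the first case `c n • o → b`, for `-∞` also by `conv`).  If
`c n → ∞` with limit `a'' ∈ K`, then `(c n)⁻¹ • o → b` by (*), and `c n • k ^ n • o = k ^ (m n) • g • o` tends to
`a''` and to `a'`: absurd.  So `c n = c n'` for some `n < n'`: `g * k ^ j * g⁻¹ = k ^ l` with `j > 0`, `l ≠ 0`;
the powers converge (`es`) to `g • a' ∈ {a', b}`, and `g • a' ≠ b`.  Finally the stabiliser meets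
`{x | x • o ∈ K}` in a finite set `F`: an infinite family would converge to `a'` or `b` (`two_lim`).
(`δ` is smaller than `dist a b / 3`, `dist o a`, `dist o b`; then `k ^ n • o ∈ A` for `n ≥ 1` and `o ∉ A`.) -/

set_option autoImplicit false
set_option linter.unusedSectionVars false

namespace Crest.Agent.R224

open Set Filter Topology Pointwise

variable {Γ : Type} [Group Γ] {C : Cay Γ} {Z : Type} [MetricSpace Z] [CompactSpace Z]
  [MulAction Γ Z] [ContinuousConstSMul Γ Z] {o : Z} {r : ℕ} {ξ : Fin 3 → Z}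

namespace Cv

theorem tuk_inv {ι : Type} {l : Filter ι} {g : ι → Γ} (hg : Tendsto g l cofinite) :
    Tendsto (fun i => (g i)⁻¹) l cofinite := inv_injective.tendsto_cofinite.comp hg

theorem tuk_star (h : Cv C o) {ι : Type} (𝒰 : Ultrafilter ι) {g : ι → Γ} {a b : Z}
    (hg : Tendsto g 𝒰 cofinite) (hb : ∀ᶠ i in (𝒰 : Filter ι), g i • b = b)
    (ha : Tendsto (fun i => g i • o) 𝒰 (𝓝 a)) (hne : a ≠ b) :
    Tendsto (fun i => (g i)⁻¹ • o) 𝒰 (𝓝 b) := by
  obtain ⟨c, hc⟩ := ultra_lim 𝒰 fun i => (g i)⁻¹ • o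
  by_cases e : b = c
  · rwa [e]
  · have h1 := h.conv hg ha hc (tendsto_const_nhds (x := b)) e
    exact absurd (tendsto_nhds_unique h1 (tendsto_const_nhds.congr' (hb.mono fun _ hi => hi.symm))) hne

theorem tuk_pow {k : Γ} {b : Z} (hk : k • b = b) (m : ℤ) : k ^ m • b = b :=
  (MulAction.stabilizer Γ b).zpow_mem hk m

theorem tuk_lox (h : Cv C o) {a b : Z} (ha : a ∈ Lam o {g : Γ | g • b = b}) (hne : a ≠ b) :
    ∃ (k : Γ) (a' : Z), k • b = b ∧ a' ≠ b ∧ (Function.Injective fun m : ℤ => k ^ m) ∧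
      Tendsto (fun n : ℕ => k ^ n • o) atTop (𝓝 a') ∧
      Tendsto (fun n : ℕ => (k ^ n)⁻¹ • o) atTop (𝓝 b) := by
  obtain ⟨𝒰, u1, u2, u3⟩ := h.exists_ultra ha
  have u4 := h.tuk_star 𝒰 (g := id) u2 u1 u3 hne
  have hb : b ∈ Bd Γ o := h.lim_mem (tuk_inv (g := id) u2) u4
  have p1 : 0 < dist a b := dist_pos.2 hne
  have p2 : 0 < dist o a := dist_pos.2 (by simpa using ha.1 1)
  have p3 : 0 < dist o b := dist_pos.2 (by simpa using hb 1)
  obtain ⟨δ, hδ, d1, d2, d3⟩ : ∃ δ > 0, 2 * δ ≤ dist a b ∧ δ ≤ dist o a ∧ δ ≤ dist o b :=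
    ⟨min (dist a b / 2) (min (dist o a) (dist o b)), by positivity,
      by linarith [min_le_left (dist a b / 2) (min (dist o a) (dist o b))],
      (min_le_right _ _).trans (min_le_left _ _), (min_le_right _ _).trans (min_le_right _ _)⟩
  have far : ∀ z, dist z a ≤ δ → δ ≤ dist z b := fun z hz => by
    linarith [dist_triangle_left a b z]
  obtain ⟨R, hR⟩ := h.ucp (δ / 2) (half_pos hδ) (δ / 2) (half_pos hδ)
  obtain ⟨k, ⟨k1, k2⟩, k3, k4⟩ := (((((C.tendsto_len (g := id)).1 u2).eventually_ge_atTop R).and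
    (show ∀ᶠ x in (𝒰 : Filter Γ), x • b = b from u1)).and
    ((Metric.tendsto_nhds.1 u3 _ (half_pos hδ)).and (Metric.tendsto_nhds.1 u4 _ (half_pos hδ)))).exists
  have K1 : ∀ z, δ ≤ dist z b → dist (k • z) a < δ := fun z hz => by
    have := hR k k1 z (by linarith [dist_triangle z (k⁻¹ • o) b, show dist (k⁻¹ • o) b < δ / 2 from k4])
    linarith [dist_triangle (k • z) (k • o) a]
  have K2 : ∀ n : ℕ, dist (k ^ (n + 1) • o) a < δ := by
    intro n
    induction n with
    | zero => simpa using K1 o d3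
    | succ n ih =>
      rw [pow_succ', mul_smul]
      exact K1 _ (far _ ih.le)
  have inj : Function.Injective fun m : ℤ => k ^ m := by
    refine injective_zpow_iff_not_isOfFinOrder.2 fun hf => ?_
    obtain ⟨n, hn, e⟩ := isOfFinOrder_iff_pow_eq_one.1 hf
    obtain ⟨n, rfl⟩ := Nat.exists_eq_succ_of_ne_zero hn.ne'
    have := K2 n
    rw [e, one_smul] at this
    linarith
  have cof : Tendsto (fun n : ℕ => k ^ n) atTop cofinite := by
    rw [← Nat.cofinite_eq_atTop]
    refine Function.Injective.tendsto_cofinite fun n m e => ?_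
    exact_mod_cast inj (show k ^ (n : ℤ) = k ^ (m : ℤ) by simpa using e)
  have K3 : ∀ᶠ n : ℕ in atTop, dist (k ^ n • o) a ≤ δ := by
    filter_upwards [eventually_ge_atTop 1] with n hn
    obtain ⟨n, rfl⟩ := Nat.exists_eq_add_of_le' hn
    exact (K2 n).le
  have lim : ∀ (𝒱 : Ultrafilter ℕ), (𝒱 : Filter ℕ) ≤ atTop → ∀ a',
      Tendsto (fun n : ℕ => k ^ n • o) 𝒱 (𝓝 a') → a' ≠ b := by
    intro 𝒱 hv a' h1
    have := far a' (le_of_tendsto (h1.dist tendsto_const_nhds) (K3.filter_mono hv))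
    exact dist_pos.1 (hδ.trans_le this)
  have T1 : Tendsto (fun n : ℕ => (k ^ n)⁻¹ • o) atTop (𝓝 b) := by
    refine (tendsto_iff_ultrafilter _ _ _).2 fun 𝒱 hv => ?_
    obtain ⟨a', h1⟩ := ultra_lim 𝒱 fun n : ℕ => k ^ n • o
    exact h.tuk_star 𝒱 (cof.mono_left hv)
      (Eventually.of_forall fun n => by simpa using tuk_pow k2 n) h1 (lim 𝒱 hv a' h1)
  have hv := Ultrafilter.of_le (atTop : Filter ℕ)
  obtain ⟨a', h1⟩ := ultra_lim (Ultrafilter.of atTop) fun n : ℕ => k ^ n • o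
  refine ⟨k, a', k2, lim _ hv a' h1, inj, Metric.tendsto_nhds.2 fun ε hε => ?_, T1⟩
  obtain ⟨R', hR'⟩ := h.ucp (δ / 2) (half_pos hδ) (ε / 2) (half_pos hε)
  obtain ⟨n, ⟨n1, n2⟩, n3⟩ := (((((C.tendsto_len.1 cof).eventually_ge_atTop R').and
    (Metric.tendsto_nhds.1 T1 _ (half_pos hδ))).filter_mono hv).and
    (Metric.tendsto_nhds.1 h1 _ (half_pos hε))).exists
  filter_upwards [eventually_ge_atTop (n + 1)] with m hm
  obtain ⟨j, rfl⟩ := Nat.exists_eq_add_of_le hm
  have e : k ^ (n + 1 + j) • o = k ^ n • k ^ (j + 1) • o := by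
    rw [← mul_smul, ← pow_add]
    congr 2
    omega
  have h2 := far _ (K2 j).le
  have h3 := hR' _ n1 (k ^ (j + 1) • o) (by linarith [dist_triangle (k ^ (j + 1) • o) ((k ^ n)⁻¹ • o) b])
  rw [e]
  linarith [dist_triangle (k ^ n • k ^ (j + 1) • o) (k ^ n • o) a']

theorem tukia (h : Cv C o) {a b : Z} (ha : a ∈ Lam o {g : Γ | g • b = b}) (hne : a ≠ b) :
    ∃ (k : Γ) (F : Set Γ) (a' : Z), F.Finite ∧ (Function.Injective fun m : ℤ => k ^ m) ∧
      (∀ g : Γ, g • b = b → ∃ m : ℤ, ∃ f ∈ F, g = k ^ m * f) ∧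
      Lam o {g : Γ | g • b = b} ⊆ {a', b} := by
  obtain ⟨k, a', kb, hab, inj, T1, T2⟩ := h.tuk_lox ha hne
  have ka : k • a' = a' := by
    refine tendsto_nhds_unique (T1.const_smul k) ((T1.comp (tendsto_add_atTop_nat 1)).congr fun n => ?_)
    simp only [Function.comp_apply, pow_succ', mul_smul]
  have Z1 : Tendsto (fun m : ℤ => k ^ m • o) atTop (𝓝 a') := by
    rw [← Nat.map_cast_int_atTop, tendsto_map'_iff]
    exact T1.congr fun n => by simp
  have Z2 : Tendsto (fun m : ℤ => (k ^ m)⁻¹ • o) atTop (𝓝 b) := by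
    rw [← Nat.map_cast_int_atTop, tendsto_map'_iff]
    exact T2.congr fun n => by simp
  have Z3 : Tendsto (fun m : ℤ => k ^ m • o) atBot (𝓝 b) :=
    (Z2.comp tendsto_neg_atBot_atTop).congr fun m => by simp
  have Z4 : Tendsto (fun m : ℤ => (k ^ m)⁻¹ • o) atBot (𝓝 a') :=
    (Z1.comp tendsto_neg_atBot_atTop).congr fun m => by simp
  have cof : Tendsto (fun m : ℤ => k ^ m) (atBot ⊔ atTop) cofinite :=
    Int.cofinite_eq ▸ inj.tendsto_cofinite
  have c1 := cof.mono_left le_sup_right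
  have c2 := cof.mono_left le_sup_left
  have hb : b ∈ Bd Γ o := h.lim_mem c2 Z3
  have ha' : a' ∈ Bd Γ o := h.lim_mem c1 Z1
  have W1 : ∀ w : Γ, Tendsto (fun m : ℤ => k ^ m • w • o) atTop (𝓝 a') := fun w =>
    h.conv c1 Z1 Z2 tendsto_const_nhds (hb w)
  have W2 : ∀ w : Γ, Tendsto (fun m : ℤ => k ^ m • w • o) atBot (𝓝 b) := fun w =>
    h.conv c2 Z3 Z4 tendsto_const_nhds (ha' w)
  have p := dist_pos.2 hab
  obtain ⟨K, Kc, Ka, Kb, Km⟩ : ∃ K : Set Z, IsClosed K ∧ a' ∉ K ∧ b ∉ K ∧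
      ∀ w : Γ, ∃ m : ℤ, k ^ m • w • o ∈ K := by
    refine ⟨k • Metric.closedBall b (dist a' b / 2) \ Metric.ball b (dist a' b / 2),
      (Metric.isClosed_closedBall.smul k).sdiff Metric.isOpen_ball, fun hx => ?_,
      fun hx => hx.2 (Metric.mem_ball_self (half_pos p)), fun w => ?_⟩
    · have := mem_smul_set_iff_inv_smul_mem.1 hx.1
      rw [inv_smul_eq_iff.2 ka.symm, Metric.mem_closedBall] at this
      linarith
    · obtain ⟨M, hM⟩ := eventually_atTop.1
        (((W1 w).dist (tendsto_const_nhds (x := b))).eventually_const_lt (half_lt_self p))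
      obtain ⟨m, m1, m2⟩ := Int.exists_greatest_of_bdd
        (P := fun m => dist (k ^ m • w • o) b < dist a' b / 2)
        ⟨M, fun m hm => by
          by_contra hc
          exact absurd (hM m (not_le.1 hc).le) (not_lt.2 hm.le)⟩
        (Metric.tendsto_nhds.1 (W2 w) _ (half_pos p)).exists
      refine ⟨m + 1, ?_, fun hc => absurd (m2 _ hc) (by omega)⟩
      rw [add_comm, zpow_one_add, mul_smul]
      exact smul_mem_smul_set m1.le
  have fix : ∀ g : Γ, g • b = b → g • a' = a' := by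
    intro g hg
    choose m hm using fun n : ℤ => Km (g * (k ^ n)⁻¹)
    have hv := Ultrafilter.of_le (atTop : Filter ℤ)
    generalize Ultrafilter.of (atTop : Filter ℤ) = 𝒱 at hv
    have G1 : Tendsto (fun n : ℤ => (g * (k ^ n)⁻¹) • o) 𝒱 (𝓝 b) := by
      have := (Z2.mono_left hv).const_smul g
      rw [hg] at this
      exact this.congr fun n => (mul_smul _ _ _).symm
    have mem : ∀ y, Tendsto (fun n => k ^ m n • (g * (k ^ n)⁻¹) • o) 𝒱 (𝓝 y) → y ∈ K := fun y hy =>
      Kc.mem_of_tendsto hy (Eventually.of_forall hm)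
    have M1 : Tendsto m 𝒱 atTop := by
      rcases ultra_dich 𝒱 m with h1 | ⟨m₀, h1⟩
      · rw [Int.cofinite_eq] at h1
        rcases (𝒱.map m).le_sup_iff.1 h1 with h2 | h2
        · exact absurd (mem b (h.conv (c2.comp h2) (Z3.comp h2) (Z4.comp h2) G1 hab.symm)) Kb
        · exact h2
      · have h2 := G1.const_smul (k ^ m₀)
        rw [tuk_pow kb] at h2
        exact absurd (mem b (h2.congr' (h1.mono fun n hn => by simp only [hn]))) Kb
    have M2 : Tendsto (fun n => (k ^ m n * (g * (k ^ n)⁻¹)) • k ^ n • o) 𝒱 (𝓝 a') :=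
      ((W1 g).comp M1).congr fun n => by simp [mul_smul]
    rcases ultra_dich 𝒱 fun n => k ^ m n * (g * (k ^ n)⁻¹) with h1 | ⟨c, h1⟩
    · obtain ⟨y, hy⟩ := ultra_lim 𝒱 fun n => (k ^ m n * (g * (k ^ n)⁻¹)) • o
      have yK : y ∈ K := mem y (hy.congr fun n => mul_smul _ _ _)
      have h2 := h.tuk_star 𝒱 h1 (Eventually.of_forall fun n => by
        rw [mul_smul, mul_smul, ← zpow_neg, tuk_pow kb, hg, tuk_pow kb]) hy
        fun e : y = b => Kb (e ▸ yK)
      exact absurd (tendsto_nhds_unique (h.conv h1 hy h2 (Z1.mono_left hv) hab) M2 ▸ yK) Ka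
    · have h2 : c • a' = a' := tendsto_nhds_unique ((Z1.mono_left hv).const_smul c)
        (M2.congr' (h1.mono fun n hn => by simp only [hn]))
      obtain ⟨n, rfl⟩ := h1.exists
      rw [mul_smul, mul_smul, ← zpow_neg, tuk_pow ka, ← eq_inv_smul_iff, ← zpow_neg,
        tuk_pow ka] at h2
      exact h2
  have hL : Lam o {g : Γ | g • b = b} ⊆ {a', b} := by
    intro y hy
    obtain ⟨𝒰, u1, u2, u3⟩ := h.exists_ultra hy
    obtain ⟨c, hc⟩ := ultra_lim 𝒰 fun x : Γ => x⁻¹ • o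
    have u4 : ∀ᶠ x in (𝒰 : Filter Γ), x • b = b := u1
    rcases h.two_lim (g := id) u2 u3 hc hab tendsto_const_nhds
      (tendsto_const_nhds.congr' (u4.mono fun x hx => (fix x hx).symm)) tendsto_const_nhds
      (tendsto_const_nhds.congr' (u4.mono fun x hx => hx.symm)) with h1 | h1
    · exact Or.inl h1.1
    · exact Or.inr h1.1
  refine ⟨k, _, a', h.finite_of_disjoint (A := {g : Γ | g • b = b}) Kc
    (disjoint_left.2 fun y hy hK => ?_), inj, fun g hg => ?_, hL⟩
  · rcases hL hy with rfl | rfl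
    exacts [Ka hK, Kb hK]
  · obtain ⟨m, hm⟩ := Km g
    refine ⟨-m, k ^ m * g, ⟨?_, by rwa [mul_smul]⟩, by simp⟩
    show (k ^ m * g) • b = b
    rw [mul_smul, hg, tuk_pow kb]

end Cv

end Crest.Agent.R224
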