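import Crest.Agent.R224.Lab

/-! R224, task Unif: uniform local constancy on a block.

Write `Wb b = W (St ξ (QL L b))` for cut points `b ∈ L`.
`rays_near`: by `Tame.null` all but finitely many `b` have `Wb b ⊆ {x | dist (x • o) b < δ / 4}`; for those, a point
`x ∈ Wb b` with `dist (x • o) y < δ / 4` forces `Wb b ⊆ {dist · y < δ}` and `dist b y < δ`, and `Tame.ray`
applies.  For each of the finitely many other `b`: if `b ≠ y` then `y ∉ Lam (Wb b)` (`Tame.lam`, `away`); if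
`b = y`, `K = {x ∈ Wb b | δ ≤ dist (x • o) y}` is finite and `inf_comp` leaves a finite exceptional set, which is
at positive distance from `y`.
`wall_label`: the label is constant on the infinite component (`Ch.const`: no point of `FL` there), whose limit
set is non-empty and contained in `{b}`; so it contains points arbitrarily near `b`, and `Lb_near` applies.
`out_VL`: `x ∉ VL` gives `b`; uniqueness from `Blk.disj`, `St_disjoint`, `St_compl`.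
`unif`: define `ℓ x` as `x ∈ Lb L H` if `x ∈ VL`, and as `b ∈ H` for the unique cut point `b ∈ L` with
`x ∉ St (QL b)` otherwise.  With `δ₂` from `rays_near`, `ℓ` is constant on edges `x, x'` within `δ₂` of `y`: both in
`VL`: no point of `FL`, `1 ≤ D`; `x ∉ VL` with point `b`: `x ∉ Wb b`, so `x' ∉ St (QL b)`; if `x' ∈ VL` then
`x' ∈ Wb b'` for some `b'`, and `x' ∈ Wb b` (if `b' ≠ b`: `x' ∈ St (QL b')`, a neighbour `x''` is not, so
`x'' ∈ St (QL b)`), `wall_label`.  By `joined`, `ℓ` is constant on `{dist · y < δ₂ / 4}`.  Finally for `y' ∈ L` with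
`dist y' y < δ₂ / 4`, points `x` close to `y'` have `ℓ x ↔ y' ∈ H`: `Lb_near` if `x ∈ VL`; otherwise `near_b` and
`LocC`.
`near_b`: by `near_two` and majority some `x • ξ i ∈ Bd \\ QL b` is close to `x • o`; use `branch_small`; the
finitely many large branches with `b ≠ y` are closed sets (`Tame.opn`) that miss a neighbourhood of `y`. -/

set_option autoImplicit false
set_option linter.unusedSectionVars false

namespace Crest.Agent.R224

open Set Filter Topology Pointwise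

variable {Γ : Type} [Group Γ] {C : Cay Γ} {Z : Type} [MetricSpace Z] [CompactSpace Z]
  [MulAction Γ Z] [ContinuousConstSMul Γ Z] {o : Z} {r D : ℕ} {ξ : Fin 3 → Z} {L : Set Z}

namespace Cv

theorem unf_fin {α : Type} {B : Set α} (hB : B.Finite) {P : α → ℝ → Prop}
    (hP : ∀ b ∈ B, ∃ η > 0, ∀ η', η' ≤ η → P b η') {ε : ℝ} (hε : 0 < ε) :
    ∃ η > 0, η ≤ ε ∧ ∀ b ∈ B, P b η := by
  have h1 : ∀ᶠ η in 𝓝[>] (0 : ℝ), ∀ b ∈ B, P b η := by
    refine (eventually_all_finite hB).2 fun b hb => ?_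
    obtain ⟨η, h0, h⟩ := hP b hb
    filter_upwards [nhdsWithin_le_nhds (Iic_mem_nhds h0)] with η' hη using h η' hη
  obtain ⟨η, ⟨h2, h3⟩, h4⟩ :=
    ((h1.and self_mem_nhdsWithin).and (nhdsWithin_le_nhds (Iic_mem_nhds hε))).exists
  exact ⟨η, h3, h4, h2⟩

theorem unf_two (h : Cv C o) (h2 : C.H2) (ht : Tame C o ξ D) (hL : Blk (Bd Γ o) L) {b b' : Z}
    (hb : b ∈ L) (hc : IsCut (Bd Γ o) b) (hb' : b' ∈ L) (hc' : IsCut (Bd Γ o) b') {x : Γ}
    (hx : x ∉ St ξ (QL (Bd Γ o) L b)) (hx' : x ∉ St ξ (QL (Bd Γ o) L b')) : b = b' := by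
  by_contra hne
  have := St_disjoint (Γ := Γ) (ξ := ξ) (hL.disj h.isClosed_Bd (h.preconn h2) hc hc' hb hb' hne)
  rw [St_compl ht.mem, St_compl ht.mem] at this
  exact disjoint_left.1 this hx hx'

theorem rays_near (h : Cv C o) (h2 : C.H2) (ht : Tame C o ξ D) (hL : Blk (Bd Γ o) L) {y : Z}
    (hy : y ∈ L) {δ : ℝ} (hδ : 0 < δ) : ∃ δ₂ > 0, δ₂ ≤ δ ∧ ∀ b ∈ L, IsCut (Bd Γ o) b →
      ∀ x ∈ C.W (St ξ (QL (Bd Γ o) L b)), dist (x • o) y < δ₂ → dist b y < δ ∧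
        {w | C.Ch D (C.W (St ξ (QL (Bd Γ o) L b)) ∩ {w | dist (w • o) y < δ}) x w}.Infinite := by
  have hyB := hL.sub hy
  have hB : {b | b ∈ L ∧ IsCut (Bd Γ o) b ∧
      ∃ x ∈ C.W (St ξ (QL (Bd Γ o) L b)), δ / 4 ≤ dist (x • o) b}.Finite := by
    refine Finite.of_injOn (f := QL (Bd Γ o) L) (fun b hb => ?_)
      (fun b hb b' hb' e => ?_) (ht.null (δ / 4) (by positivity))
    · exact ⟨b, hL.isQ hb.2.1, hb.2.2⟩
    exact (hL.isQ hb.2.1).unique h.isClosed_Bd (h.preconn h2) (e ▸ hL.isQ hb'.2.1)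
  obtain ⟨η, h0, h1, h3⟩ := unf_fin hB (P := fun b η => ∀ x ∈ C.W (St ξ (QL (Bd Γ o) L b)),
      dist (x • o) y < η → dist b y < δ ∧ {w | C.Ch D (C.W (St ξ (QL (Bd Γ o) L b)) ∩
        {w | dist (w • o) y < δ}) x w}.Infinite) (ε := δ / 4) (fun b hb => by
    have hQ := hL.isQ hb.2.1
    have hl := ht.lam b _ hQ
    by_cases e : b = y
    · subst e
      have hK := h.finite_of_disjoint (A := C.W (St ξ (QL (Bd Γ o) L b))) (K := {z | δ ≤ dist z b})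
        (isClosed_le continuous_const (continuous_id.dist continuous_const))
        (disjoint_left.2 fun z hz hz' => by
          rw [mem_singleton_iff.1 (hl hz), mem_ofPred_eq, dist_self] at hz'
          linarith)
      have hE := C.inf_comp (ht.ray b _ hQ) hK
      obtain ⟨η, h0, h1⟩ := h.away hyB (by rw [Lam_finite hE]; exact notMem_empty _)
      refine ⟨min η δ, lt_min h0 hδ, fun η' hη x hx hd => ⟨by simpa using hδ, fun hf => ?_⟩⟩
      have d1 := hd.trans_le (hη.trans (min_le_left _ _))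
      have d2 := hd.trans_le (hη.trans (min_le_right _ _))
      refine absurd (h1 x ⟨⟨hx, fun hc => absurd hc.2 (not_le.2 d2)⟩, hf.subset fun w hw => ?_⟩)
        (not_le.2 d1)
      exact Cay.Ch.mono hw le_rfl fun v hv =>
        ⟨hv.1, show dist (v • o) b < δ from not_le.1 fun hc => hv.2 ⟨hv.1, hc⟩⟩
    · obtain ⟨η, h0, h1⟩ := h.away hyB fun hc => e (hl hc).symm
      exact ⟨η, h0, fun η' hη x hx hd => absurd (h1 x hx) (not_le.2 (hd.trans_le hη))⟩)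
    (by positivity)
  refine ⟨η, h0, by linarith, fun b hb hc x hx hd => ?_⟩
  by_cases e : ∃ x ∈ C.W (St ξ (QL (Bd Γ o) L b)), δ / 4 ≤ dist (x • o) b
  · exact h3 b ⟨hb, hc, e⟩ x hx hd
  · push Not at e
    have h4 : dist b y < δ / 2 := by linarith [dist_triangle_left b y (x • o), e x hx]
    refine ⟨by linarith, (ht.ray b _ (hL.isQ hc) x hx).mono fun w hw => ?_⟩
    refine Cay.Ch.mono hw le_rfl fun v hv => ⟨hv, ?_⟩
    show dist (v • o) y < δ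
    linarith [dist_triangle (v • o) b y, e v hv]

theorem wall_label (h : Cv C o) (h2 : C.H2) (ht : Tame C o ξ D) (hL : Blk (Bd Γ o) L) {H : Set Z}
    {b : Z} (hb : b ∈ L) (hc : IsCut (Bd Γ o) b) (hH : LocC L H b) {O : Set Γ}
    (hO : Disjoint O (FL C o ξ D L H)) {x : Γ}
    (hx : {w | C.Ch D (C.W (St ξ (QL (Bd Γ o) L b)) ∩ O) x w}.Infinite) :
    x ∈ Lb o L H ↔ b ∈ H := by
  obtain ⟨η, h0, h1⟩ := h.Lb_near h2 ht hL hb hH
  have hsub : {w | C.Ch D (C.W (St ξ (QL (Bd Γ o) L b)) ∩ O) x w} \ {x} ⊆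
      C.W (St ξ (QL (Bd Γ o) L b)) := by
    rintro w ⟨hw, hne⟩
    rcases Relation.ReflTransGen.cases_tail hw with e | ⟨c, -, hc⟩
    · exact absurd e hne
    · exact hc.2.1.1
  obtain ⟨z, hz⟩ := h.Lam_nonempty (hx.sdiff (finite_singleton x))
  rw [mem_singleton_iff.1 (ht.lam b _ (hL.isQ hc) (Lam_mono hsub hz))] at hz
  obtain ⟨w, hw, hd⟩ := (h.mem_Lam.1 hz η h0).nonempty
  rw [← h1 w (Or.inr ⟨b, hb, hc, hsub hw⟩) hd]
  refine iff_of_eq (Cay.Ch.const hw.1 (fun w => w ∈ Lb o L H) fun a ha a' ha' hd => propext ?_)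
  by_contra hn
  exact disjoint_left.1 hO ha.2
    ⟨Or.inr ⟨b, hb, hc, ha.1⟩, a', Or.inr ⟨b, hb, hc, ha'.1⟩, hd, hn⟩

theorem out_VL (h : Cv C o) (h2 : C.H2) (ht : Tame C o ξ D) (hL : Blk (Bd Γ o) L) {x : Γ}
    (hx : x ∉ VL C (Bd Γ o) ξ L) :
    ∃! b, b ∈ L ∧ IsCut (Bd Γ o) b ∧ x ∉ St ξ (QL (Bd Γ o) L b) := by
  have h1 : ¬∀ b ∈ L, IsCut (Bd Γ o) b → x ∈ St ξ (QL (Bd Γ o) L b) := fun h => hx (Or.inl h)
  push Not at h1
  obtain ⟨b, hb, hc, hx⟩ := h1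
  exact ⟨b, ⟨hb, hc, hx⟩, fun b' hb' => h.unf_two h2 ht hL hb'.1 hb'.2.1 hb hc hb'.2.2 hx⟩

theorem near_b (h : Cv C o) (h2 : C.H2) (ht : Tame C o ξ D) (hL : Blk (Bd Γ o) L) {y : Z}
    (hy : y ∈ L) {ε : ℝ} (hε : 0 < ε) : ∃ η > 0, ∀ (x : Γ), ∀ b ∈ L, IsCut (Bd Γ o) b →
      x ∉ St ξ (QL (Bd Γ o) L b) → dist (x • o) y < η → dist b y < ε := by
  obtain ⟨η, h0, h1, h3⟩ := unf_fin (h.branch_small h2 ht hL (half_pos hε))
    (P := fun b η => b ≠ y → ∀ z ∈ Bd Γ o \ QL (Bd Γ o) L b, η ≤ dist z y) (fun b hb => by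
      by_cases e : b = y
      · exact ⟨1, one_pos, fun _ _ h => absurd e h⟩
      · have hc := (ht.opn b _ (hL.isQ hb.2.1)).compl.closed h.isClosed_Bd
        have hn : y ∉ insert b (Bd Γ o \ insert b (QL (Bd Γ o) L b)) := fun hm =>
          hm.elim (Ne.symm e) fun hm => hm.2 (Or.inr (hL.mem_QL hy (Ne.symm e)))
        obtain ⟨η, h0, h1⟩ := Metric.isOpen_iff.1 hc.isOpen_compl y hn
        refine ⟨η, h0, fun η' hη _ z hz => hη.trans (not_lt.1 fun hd => h1 hd ?_)⟩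
        by_cases e' : z = b
        · exact Or.inl e'
        · exact Or.inr ⟨hz.1, fun hm => hm.elim e' hz.2⟩) (half_pos hε)
  obtain ⟨R, hR⟩ := h.near_two (finite_singleton ξ) (by rintro _ rfl; exact ht.inj) (half_pos h0)
  obtain ⟨η', h4, h5⟩ := h.away (A := {x | C.len x ≤ R}) (hL.sub hy)
    (by rw [Lam_finite (C.fin R)]; exact notMem_empty _)
  refine ⟨min (η / 2) η', lt_min (half_pos h0) h4, fun x b hb hc hx hd => ?_⟩
  have d1 := hd.trans_le (min_le_left _ _)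
  have d2 := hd.trans_le (min_le_right _ _)
  have h6 : R ≤ C.len x := (not_le.1 fun hc => absurd (h5 x hc) (not_le.2 d2)).le
  obtain ⟨i, j, hij, hi, hj⟩ := hR x h6 ξ rfl
  obtain ⟨i', j', hij', hi', hj'⟩ := not_mem_St hx
  obtain ⟨k, k1, k2⟩ : ∃ k, dist (x • ξ k) (x • o) ≤ η / 2 ∧ x • ξ k ∉ QL (Bd Γ o) L b := by
    have : i = i' ∨ i = j' ∨ j = i' ∨ j = j' := by omega
    rcases this with rfl | rfl | rfl | rfl
    exacts [⟨_, hi, hi'⟩, ⟨_, hi, hj'⟩, ⟨_, hj, hi'⟩, ⟨_, hj, hj'⟩]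
  have k3 : x • ξ k ∈ Bd Γ o \ QL (Bd Γ o) L b := ⟨smul_mem_Bd.2 (ht.mem k), k2⟩
  have k4 : dist (x • ξ k) y < η := by linarith [dist_triangle (x • ξ k) (x • o) y]
  by_cases e : b = y
  · simpa [e] using hε
  · have k5 : dist (x • ξ k) b < ε / 2 := not_le.1 fun hc' =>
      absurd (h3 b ⟨hb, hc, _, k3, hc'⟩ e _ k3) (not_le.2 k4)
    linarith [dist_triangle_left b y (x • ξ k)]

theorem unif (h : Cv C o) (h2 : C.H2) (ht : Tame C o ξ D) (hL : Blk (Bd Γ o) L) {y : Z}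
    (hy : y ∈ L) {δ : ℝ} (hδ : 0 < δ) : ∃ δ₃ > 0, ∀ H : Set Z,
      (∀ x ∈ FL C o ξ D L H, δ ≤ dist (x • o) y) → (∀ y' ∈ L, dist y' y < δ → LocC L H y') →
      ∀ y' ∈ L, dist y' y < δ₃ → (y' ∈ H ↔ y ∈ H) := by
  obtain ⟨δ₂, h0, h1, h3⟩ := h.rays_near h2 ht hL hy hδ
  refine ⟨δ₂ / 4, by positivity, fun H hF hH => ?_⟩
  let ℓ : Γ → Prop := fun x => (x ∈ VL C (Bd Γ o) ξ L ∧ x ∈ Lb o L H) ∨ (x ∉ VL C (Bd Γ o) ξ L ∧
    ∃ b ∈ L, IsCut (Bd Γ o) b ∧ x ∉ St ξ (QL (Bd Γ o) L b) ∧ b ∈ H)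
  have l1 : ∀ x ∈ VL C (Bd Γ o) ξ L, (ℓ x ↔ x ∈ Lb o L H) := fun x hx =>
    ⟨fun hl => hl.elim And.right fun hl => absurd hx hl.1, fun hl => Or.inl ⟨hx, hl⟩⟩
  have l2 : ∀ x ∉ VL C (Bd Γ o) ξ L, ∀ b ∈ L, IsCut (Bd Γ o) b → x ∉ St ξ (QL (Bd Γ o) L b) →
      (ℓ x ↔ b ∈ H) := fun x hx b hb hc hs =>
    ⟨fun hl => hl.elim (fun hl => absurd hl.1 hx) fun ⟨_, b', hb', hc', hs', hH'⟩ =>
      h.unf_two h2 ht hL hb' hc' hb hc hs' hs ▸ hH', fun hl => Or.inr ⟨hx, b, hb, hc, hs, hl⟩⟩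
  have l3 : ∀ x ∉ VL C (Bd Γ o) ξ L, ∀ x', C.d x x' ≤ 1 → dist (x' • o) y < δ₂ → (ℓ x ↔ ℓ x') := by
    intro x hx x' hd hd'
    obtain ⟨b, ⟨hb, hc, hs⟩, -⟩ := h.out_VL h2 ht hL hx
    have hs' : x' ∉ St ξ (QL (Bd Γ o) L b) := fun hc' =>
      hx (Or.inr ⟨b, hb, hc, x', hd, fun hi => hs (hi.2 hc')⟩)
    rw [l2 x hx b hb hc hs]
    by_cases hx' : x' ∈ VL C (Bd Γ o) ξ L
    · have hW : x' ∈ C.W (St ξ (QL (Bd Γ o) L b)) := by
        rcases hx' with h4 | ⟨b', hb', hc', x'', hd'', hn⟩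
        · exact absurd (h4 b hb hc) hs'
        · by_cases e : b' = b
          · exact ⟨x'', hd'', e ▸ hn⟩
          · refine ⟨x'', hd'', fun hi => hn (iff_of_true ?_ ?_)⟩
            · by_contra h5
              exact e (h.unf_two h2 ht hL hb' hc' hb hc h5 hs')
            · by_contra h5
              exact e (h.unf_two h2 ht hL hb' hc' hb hc h5 fun h6 => hs' (hi.2 h6))
      obtain ⟨h4, h5⟩ := h3 b hb hc x' hW hd'
      rw [l1 x' hx']
      exact (h.wall_label h2 ht hL hb hc (hH b hb h4)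
        (disjoint_left.2 fun w hw hw' => absurd (hF w hw') (not_le.2 hw)) h5).symm
    · exact (l2 x' hx' b hb hc hs').symm
  have l4 : ∀ x x', C.d x x' ≤ 1 → dist (x • o) y < δ₂ → dist (x' • o) y < δ₂ → (ℓ x ↔ ℓ x') := by
    intro x x' hd d1 d2
    by_cases hx : x ∈ VL C (Bd Γ o) ξ L
    · by_cases hx' : x' ∈ VL C (Bd Γ o) ξ L
      · rw [l1 x hx, l1 x' hx']
        by_contra hn
        exact absurd (hF x ⟨hx, x', hx', hd.trans ht.one_le, hn⟩) (not_le.2 (d1.trans_le h1))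
      · exact (l3 x' hx' x (C.d_comm x x' ▸ hd) d1).symm
    · exact l3 x hx x' hd d2
  have l5 : ∀ y' ∈ L, dist y' y < δ₂ / 4 → ∃ x : Γ, dist (x • o) y < δ₂ / 4 ∧ (ℓ x ↔ y' ∈ H) := by
    intro y' hy' hd
    have hc := hH y' hy' (by linarith)
    obtain ⟨ε, e0, e1⟩ := LocC.iff_dist.1 hc
    obtain ⟨η₁, a0, a1⟩ := h.near_b h2 ht hL hy' e0
    obtain ⟨η₂, b0, b1⟩ := h.Lb_near h2 ht hL hy' hc
    obtain ⟨x, hx⟩ := h.exists_near y' (lt_min (lt_min a0 b0) (sub_pos.2 hd))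
    obtain ⟨⟨x1, x2⟩, x3⟩ := (lt_min_iff.trans (and_congr_left' lt_min_iff)).1 hx
    refine ⟨x, by linarith [dist_triangle (x • o) y' y], ?_⟩
    by_cases hv : x ∈ VL C (Bd Γ o) ξ L
    · exact (l1 x hv).trans (b1 x hv x2)
    · obtain ⟨b, ⟨hb, hc', hs⟩, -⟩ := h.out_VL h2 ht hL hv
      exact (l2 x hv b hb hc' hs).trans (e1 b hb (a1 x b hb hc' hs x1))
  intro y' hy' hd
  obtain ⟨x, x1, x2⟩ := l5 y' hy' hd
  obtain ⟨x', x3, x4⟩ := l5 y hy (by simpa using h0)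
  rw [← x2, ← x4]
  exact iff_of_eq ((h.joined x1 x3).const ℓ fun a ha a' ha' hd => propext (l4 a a' hd ha ha'))

end Cv

end Crest.Agent.R224
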