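import Crest.Agent.R224.Bas
import Crest.Agent.R224.ZDefs

/-! R224, task ZB1: convergence property and limit sets.

`conv`: given `ε'`, let `ε = dist z₀ c / 3 > 0` and `R` from `ucp`; eventually `len (g i) ≥ R` and
`dist (z i) ((g i)⁻¹ • o) ≥ ε`.  `es0`: for `s` fixed let `ε > 0` be an isolation radius of `s • o`; if
`x⁻¹ ≠ s` then `dist (s • o) (x⁻¹ • o) ≥ ε`, so `dist (x • s • o) (x • o) ≤ ε'` for long `x`; there are finitely
many `s` with `len s ≤ r`.  `lim_mem`: `x • o` is isolated and `g i ≠ x` eventually.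
`two_lim`: if `u ≠ c` then `g i • u' i → a` (`conv`), so `u = a` (limits are unique); same for `v`.
`mem_Lam`: for `y ∈ Bd`, every finite subset of the orbit is at positive distance from `y`.
`finite_of_disjoint`: an infinite set of points of the compact set `K` has an accumulation point. -/

set_option autoImplicit false
set_option linter.unusedSectionVars false

namespace Crest.Agent.R224

open Set Filter Topology Pointwise

variable {Γ : Type} [Group Γ] {C : Cay Γ} {Z : Type} [MetricSpace Z] [CompactSpace Z]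
  [MulAction Γ Z] [ContinuousConstSMul Γ Z] {o : Z}

theorem smul_mem_Bd {g : Γ} {y : Z} : g • y ∈ Bd Γ o ↔ y ∈ Bd Γ o :=   ⟨fun H k e => H (g * k) (by rw [mul_smul, e]),
    fun H k e => H (g⁻¹ * k) (by rw [mul_smul, e, inv_smul_smul])⟩

theorem smul_Bd (g : Γ) : g • Bd Γ o = Bd Γ o := by
  ext y
  rw [Set.mem_smul_set_iff_inv_smul_mem, smul_mem_Bd]

theorem not_mem_Bd (g : Γ) : g • o ∉ Bd Γ o := fun H => H g rfl

theorem Lam_subset (A : Set Γ) : Lam o A ⊆ Bd Γ o := inter_subset_left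

theorem Lam_mono {A B : Set Γ} (h : A ⊆ B) : Lam o A ⊆ Lam o B :=   inter_subset_inter_right _ (closure_mono (image_mono h))

theorem Lam_union (A B : Set Γ) : Lam o (A ∪ B) = Lam o A ∪ Lam o B := by
  rw [Lam, image_union, closure_union, inter_union_distrib_left]
  rfl

theorem Lam_smul (g : Γ) (A : Set Γ) : Lam o (g • A) = g • Lam o A := by
  have e : (fun x : Γ => x • o) '' (g • A) = g • ((fun x : Γ => x • o) '' A) := by
    rw [← image_smul, ← image_smul, image_image, image_image]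
    simp only [smul_eq_mul, mul_smul]
  rw [Lam, Lam, e, closure_smul, smul_set_inter, smul_Bd]

theorem Lam_finite {A : Set Γ} (hA : A.Finite) : Lam o A = ∅ := by
  rw [Lam, (hA.image _).isClosed.closure_eq]
  refine eq_empty_of_forall_notMem ?_
  rintro _ ⟨h, g, -, rfl⟩
  exact not_mem_Bd g h

/-- Finitely many homeomorphisms of a compact space are uniformly equicontinuous. -/
theorem unif_fin {F : Set Γ} (hF : F.Finite) {ε : ℝ} (hε : 0 < ε) :
    ∃ η > 0, ∀ g ∈ F, ∀ u v : Z, dist u v ≤ η → dist (g • u) (g • v) < ε := by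
  have h : ∀ᶠ η in 𝓝[>] (0 : ℝ), ∀ g ∈ F, ∀ u v : Z, dist u v ≤ η → dist (g • u) (g • v) < ε := by
    refine (eventually_all_finite hF).2 fun g _ => ?_
    obtain ⟨δ, hδ, h⟩ := Metric.uniformContinuous_iff.1
      (CompactSpace.uniformContinuous_of_continuous (continuous_const_smul (T := Z) g)) ε hε
    filter_upwards [nhdsWithin_le_nhds (Iio_mem_nhds hδ)] with η hη u v huv
    exact h (huv.trans_lt hη)
  obtain ⟨η, h1, h2⟩ := (h.and self_mem_nhdsWithin).exists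
  exact ⟨η, h2, h1⟩

/-- Along an ultrafilter a family either tends to infinity or is eventually constant. -/
theorem ultra_dich {ι α : Type} (𝒰 : Ultrafilter ι) (g : ι → α) :
    Tendsto g 𝒰 cofinite ∨ ∃ a, ∀ᶠ i in (𝒰 : Filter ι), g i = a := by
  rcases (𝒰.map g).le_cofinite_or_eq_pure with h | ⟨a, h⟩
  · exact Or.inl h
  · refine Or.inr ⟨a, ?_⟩
    have : {a} ∈ 𝒰.map g := h ▸ Ultrafilter.mem_pure.2 rfl
    exact this

theorem ultra_lim {ι : Type} (𝒰 : Ultrafilter ι) (z : ι → Z) : ∃ a, Tendsto z 𝒰 (𝓝 a) := by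
  obtain ⟨a, -, h⟩ := isCompact_univ.ultrafilter_le_nhds (𝒰.map z) (by simp)
  exact ⟨a, h⟩

theorem ultra_inf {α : Type} {s : Set α} (hs : s.Infinite) :
    ∃ 𝒰 : Ultrafilter α, s ∈ 𝒰 ∧ (𝒰 : Filter α) ≤ cofinite := by
  have := cofinite_inf_principal_neBot_iff.2 hs
  have h := Ultrafilter.of_le (cofinite ⊓ 𝓟 s)
  exact ⟨_, le_principal_iff.1 (h.trans inf_le_right), h.trans inf_le_left⟩

namespace Cv

theorem inj (h : Cv C o) : Function.Injective fun g : Γ => g • o := by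
  intro g g' e
  have := h.free (g'⁻¹ * g) (by
    have e' : g • o = g' • o := e
    rw [mul_smul, e', inv_smul_smul])
  exact (inv_mul_eq_one.1 this).symm

theorem iso' (h : Cv C o) (g : Γ) : ∃ e > 0, ∀ z, dist z (g • o) < e → z = g • o := by
  obtain ⟨e, he, H⟩ := h.iso
  obtain ⟨δ, hδ, H'⟩ := Metric.continuous_iff.1 (continuous_const_smul (T := Z) g⁻¹) (g • o) e he
  refine ⟨δ, hδ, fun z hz => ?_⟩
  have := H' z hz
  rw [inv_smul_smul] at this
  exact inv_smul_eq_iff.1 (H _ this)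

theorem isClosed_Bd (h : Cv C o) : IsClosed (Bd Γ o) := by
  refine isOpen_compl_iff.1 (Metric.isOpen_iff.2 fun z hz => ?_)
  obtain ⟨g, hg⟩ := not_forall.1 hz
  obtain rfl := not_not.1 hg
  obtain ⟨e, he, H⟩ := h.iso' g
  exact ⟨e, he, fun y hy hb => hb g (H y hy).symm⟩

theorem conv (h : Cv C o) {ι : Type} {l : Filter ι} {g : ι → Γ} {z : ι → Z} {a c z₀ : Z}
    (hg : Tendsto g l cofinite) (ha : Tendsto (fun i => g i • o) l (𝓝 a))
    (hc : Tendsto (fun i => (g i)⁻¹ • o) l (𝓝 c)) (hz : Tendsto z l (𝓝 z₀)) (hne : z₀ ≠ c) :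
    Tendsto (fun i => g i • z i) l (𝓝 a) := by
  refine Metric.tendsto_nhds.2 fun ε hε => ?_
  have hd := dist_pos.2 hne
  obtain ⟨R, hR⟩ := h.ucp (dist z₀ c / 2) (by positivity) (ε / 2) (by positivity)
  filter_upwards [(C.tendsto_len.1 hg).eventually_ge_atTop R,
    (hz.dist hc).eventually_const_lt (half_lt_self hd),
    Metric.tendsto_nhds.1 ha (ε / 2) (by positivity)] with i h1 h2 h3
  have := hR _ h1 _ h2.le
  linarith [dist_triangle (g i • z i) (g i • o) a]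

theorem es0 (h : Cv C o) (r : ℕ) {ε : ℝ} (hε : 0 < ε) :
    ∃ R, ∀ x y, R ≤ C.len x → C.d x y ≤ r → dist (x • o) (y • o) ≤ ε := by
  have H : ∀ᶠ R in atTop, ∀ s ∈ {s | C.len s ≤ r}, ∀ x, R ≤ C.len x →
      dist (x • o) ((x * s) • o) ≤ ε := by
    refine (eventually_all_finite (C.fin r)).2 fun s _ => ?_
    obtain ⟨e, he, H⟩ := h.iso' s
    obtain ⟨R, hR⟩ := h.ucp e he ε hε
    filter_upwards [eventually_ge_atTop R, eventually_gt_atTop (C.len s)] with n h1 h2 x hx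
    rw [dist_comm, mul_smul]
    refine hR x (h1.trans hx) _ (not_lt.1 fun hc => ?_)
    rw [dist_comm] at hc
    have e1 : x⁻¹ = s := h.inj (H _ hc)
    rw [← e1, C.len_inv] at h2
    omega
  obtain ⟨R, hR⟩ := H.exists
  refine ⟨R, fun x y hx hd => ?_⟩
  have := hR (x⁻¹ * y) hd x hx
  rwa [mul_inv_cancel_left] at this

theorem es (h : Cv C o) {ι : Type} {l : Filter ι} {g g' : ι → Γ} {a : Z} {r : ℕ}
    (hg : Tendsto g l cofinite) (ha : Tendsto (fun i => g i • o) l (𝓝 a))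
    (hr : ∀ᶠ i in l, C.d (g i) (g' i) ≤ r) : Tendsto (fun i => g' i • o) l (𝓝 a) := by
  refine Metric.tendsto_nhds.2 fun ε hε => ?_
  obtain ⟨R, hR⟩ := h.es0 r (half_pos hε)
  filter_upwards [(C.tendsto_len.1 hg).eventually_ge_atTop R, hr,
    Metric.tendsto_nhds.1 ha (ε / 2) (half_pos hε)] with i h1 h2 h3
  have := hR _ _ h1 h2
  linarith [dist_triangle_left (g' i • o) a (g i • o)]

theorem lim_mem (h : Cv C o) {ι : Type} {l : Filter ι} [l.NeBot] {g : ι → Γ} {a : Z}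
    (hg : Tendsto g l cofinite) (ha : Tendsto (fun i => g i • o) l (𝓝 a)) : a ∈ Bd Γ o := by
  rintro x rfl
  obtain ⟨e, he, H⟩ := h.iso' x
  obtain ⟨i, h1, h2⟩ := ((Metric.tendsto_nhds.1 ha e he).and
    (hg.eventually (eventually_cofinite_ne x))).exists
  exact h2 (h.inj (H _ h1))

theorem tendsto_of_mem (h : Cv C o) {ι : Type} {l : Filter ι} {g : ι → Γ} {a : Z}
    (hy : a ∈ Bd Γ o) (ha : Tendsto (fun i => g i • o) l (𝓝 a)) : Tendsto g l cofinite := by
  intro s hs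
  have h1 : ((fun g : Γ => g • o) '' sᶜ)ᶜ ∈ 𝓝 a :=
    ((mem_cofinite.1 hs).image _).isClosed.isOpen_compl.mem_nhds fun ⟨x, _, e⟩ => hy x e
  refine mem_map.2 ?_
  filter_upwards [mem_map.1 (ha h1)] with i hi
  by_contra hc
  exact hi ⟨g i, hc, rfl⟩

/-- Two distinct points that are asymptotically fixed are the attracting and repelling points. -/
theorem two_lim (h : Cv C o) {ι : Type} {l : Filter ι} [l.NeBot] {g : ι → Γ} {a c u v : Z}
    {u' v' : ι → Z} (hg : Tendsto g l cofinite) (ha : Tendsto (fun i => g i • o) l (𝓝 a))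
    (hc : Tendsto (fun i => (g i)⁻¹ • o) l (𝓝 c)) (huv : u ≠ v)
    (hu : Tendsto u' l (𝓝 u)) (hu' : Tendsto (fun i => g i • u' i) l (𝓝 u))
    (hv : Tendsto v' l (𝓝 v)) (hv' : Tendsto (fun i => g i • v' i) l (𝓝 v)) :
    (a = u ∧ c = v) ∨ (a = v ∧ c = u) := by
  by_cases h1 : u = c
  · have h2 : v ≠ c := fun e => huv (h1.trans e.symm)
    exact Or.inr ⟨tendsto_nhds_unique (h.conv hg ha hc hv h2) hv', h1.symm⟩
  · have h2 : a = u := tendsto_nhds_unique (h.conv hg ha hc hu h1) hu'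
    refine Or.inl ⟨h2, ?_⟩
    by_contra h3
    exact huv (h2.symm.trans (tendsto_nhds_unique (h.conv hg ha hc hv (Ne.symm h3)) hv'))

theorem mem_Lam (h : Cv C o) {A : Set Γ} {y : Z} :
    y ∈ Lam o A ↔ ∀ ε > 0, {x | x ∈ A ∧ dist (x • o) y < ε}.Infinite := by
  constructor
  · intro hy ε hε hf
    have h1 : A ⊆ {x | x ∈ A ∧ dist (x • o) y < ε} ∪ {x | ε ≤ dist (x • o) y} := fun x hx =>
      (lt_or_ge (dist (x • o) y) ε).imp (fun h => ⟨hx, h⟩) id
    have h2 := Lam_mono h1 hy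
    rw [Lam_union, Lam_finite hf, empty_union] at h2
    have h3 : y ∈ {z | ε ≤ dist z y} := closure_minimal (by rintro _ ⟨x, hx, rfl⟩; exact hx)
      (isClosed_le continuous_const (continuous_id.dist continuous_const)) h2.2
    simp only [mem_ofPred_eq, dist_self] at h3
    exact absurd hε (not_lt.2 h3)
  · intro H
    refine ⟨?_, Metric.mem_closure_iff.2 fun ε hε => ?_⟩
    · rintro g rfl
      obtain ⟨e, he, H'⟩ := h.iso' g
      exact H e he ((finite_singleton g).subset fun x hx => h.inj (H' _ hx.2))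
    · obtain ⟨x, hx, hd⟩ := (H ε hε).nonempty
      exact ⟨_, ⟨x, hx, rfl⟩, by rwa [dist_comm]⟩

theorem mem_Lam_of (h : Cv C o) {ι : Type} {l : Filter ι} [l.NeBot] {g : ι → Γ} {a : Z}
    {A : Set Γ} (hg : Tendsto g l cofinite) (ha : Tendsto (fun i => g i • o) l (𝓝 a))
    (hA : ∀ᶠ i in l, g i ∈ A) : a ∈ Lam o A :=   ⟨h.lim_mem hg ha, mem_closure_of_tendsto ha (hA.mono fun _ hi => ⟨_, hi, rfl⟩)⟩

theorem exists_ultra (h : Cv C o) {A : Set Γ} {y : Z} (hy : y ∈ Lam o A) :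
    ∃ 𝒰 : Ultrafilter Γ, A ∈ 𝒰 ∧ (𝒰 : Filter Γ) ≤ cofinite ∧
      Tendsto (fun x : Γ => x • o) 𝒰 (𝓝 y) := by
  have h1 : (𝓝 y ⊓ 𝓟 ((fun x : Γ => x • o) '' A)).NeBot := mem_closure_iff_clusterPt.1 hy.2
  rw [← map_principal, ← Filter.push_pull', map_neBot_iff] at h1
  have h2 := Ultrafilter.of_le (comap (fun x : Γ => x • o) (𝓝 y) ⊓ 𝓟 A)
  have h3 := map_le_iff_le_comap.2 (h2.trans inf_le_left)
  exact ⟨_, le_principal_iff.1 (h2.trans inf_le_right), h.tendsto_of_mem (g := id) hy.1 h3, h3⟩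

theorem isClosed_Lam (h : Cv C o) (A : Set Γ) : IsClosed (Lam o A) := h.isClosed_Bd.inter isClosed_closure

theorem Lam_univ (h : Cv C o) : Lam o (univ : Set Γ) = Bd Γ o := by
  rw [Lam, image_univ, h.dense.closure_range, inter_univ]

theorem Lam_nonempty (h : Cv C o) {A : Set Γ} (hA : A.Infinite) : (Lam o A).Nonempty := by
  obtain ⟨𝒰, h1, h2⟩ := ultra_inf hA
  obtain ⟨a, ha⟩ := ultra_lim 𝒰 fun x : Γ => x • o
  exact ⟨a, h.mem_Lam_of (g := id) h2 ha h1⟩

theorem Lam_N (h : Cv C o) (r : ℕ) (A : Set Γ) : Lam o (C.N r A) = Lam o A := by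
  refine Subset.antisymm (fun y hy => ?_) (Lam_mono (C.subset_N r A))
  obtain ⟨𝒰, h1, h2, h3⟩ := h.exists_ultra hy
  have : ∀ x, ∃ a, x ∈ C.N r A → a ∈ A ∧ C.d x a ≤ r := fun x => by
    by_cases hx : x ∈ C.N r A
    · obtain ⟨a, ha⟩ := hx
      exact ⟨a, fun _ => ha⟩
    · exact ⟨x, fun h => absurd h hx⟩
  choose a ha using this
  have h4 : ∀ᶠ x in (𝒰 : Filter Γ), x ∈ C.N r A := h1
  exact ⟨hy.1, mem_closure_of_tendsto (h.es (g := id) (g' := a) h2 h3 (h4.mono fun x hx => (ha x hx).2))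
    (h4.mono fun x hx => ⟨_, (ha x hx).1, rfl⟩)⟩

theorem Lam_W (h : Cv C o) (U : Set Γ) : Lam o (C.W U) ⊆ Lam o U ∩ Lam o Uᶜ := by
  rw [← h.Lam_N 1 U, ← h.Lam_N 1 Uᶜ]
  refine subset_inter (Lam_mono ?_) (Lam_mono ?_)
  · rintro x ⟨y, hd, hn⟩
    by_cases hx : x ∈ U
    · exact C.subset_N 1 U hx
    · exact ⟨y, by tauto, hd⟩
  · rintro x ⟨y, hd, hn⟩
    by_cases hx : x ∈ U
    · exact ⟨y, fun hy => hn (iff_of_true hx hy), hd⟩
    · exact C.subset_N 1 Uᶜ hx

theorem Lam_mul (h : Cv C o) {A B F : Set Γ} (hF : F.Finite)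
    (hA : ∀ x ∈ A, ∃ g ∈ B, ∃ f ∈ F, x = g * f) : Lam o A ⊆ Lam o B := by
  obtain ⟨r, hr⟩ := (hF.image C.len).bddAbove
  rw [← h.Lam_N r B]
  refine Lam_mono fun x hx => ?_
  obtain ⟨g, hg, f, hf, rfl⟩ := hA x hx
  exact ⟨g, hg, by rw [C.d_comm, C.d_mul_right]; exact hr ⟨f, hf, rfl⟩⟩

theorem finite_of_disjoint (h : Cv C o) {A : Set Γ} {K : Set Z} (hK : IsClosed K)
    (hd : Disjoint (Lam o A) K) : {x | x ∈ A ∧ x • o ∈ K}.Finite := by
  by_contra hc
  obtain ⟨y, hy⟩ := h.Lam_nonempty hc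
  exact disjoint_left.1 hd (Lam_mono (fun x hx => hx.1) hy)
    (closure_minimal (by rintro _ ⟨x, hx, rfl⟩; exact hx.2) hK hy.2)

theorem away (h : Cv C o) {A : Set Γ} {y : Z} (hy : y ∈ Bd Γ o) (hn : y ∉ Lam o A) :
    ∃ η > 0, ∀ x ∈ A, η ≤ dist (x • o) y := by
  by_contra hc
  push Not at hc
  refine hn ⟨hy, Metric.mem_closure_iff.2 fun ε hε => ?_⟩
  obtain ⟨x, hx, hd⟩ := hc ε hε
  exact ⟨_, ⟨x, hx, rfl⟩, by rwa [dist_comm]⟩

/-- Sets with disjoint limit sets are finitely adjacent. -/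
theorem finite_adj (h : Cv C o) {A B : Set Γ} (hd : Disjoint (Lam o A) (Lam o B)) (r : ℕ) :
    (A ∩ C.N r B).Finite := by
  by_contra hc
  obtain ⟨y, hy⟩ := h.Lam_nonempty hc
  exact disjoint_left.1 hd (Lam_mono inter_subset_left hy)
    (h.Lam_N r B ▸ Lam_mono inter_subset_right hy)

end Cv

end Crest.Agent.R224
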