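import Crest.Agent.R224.ZB1

/-! R224, task ZB2: small paths, connectedness of the boundary, straightening.

`joined`: if `x • o, x' • o` are within `η / 4` of `y`, `sp` gives a chain within `η / 2` of `x • o`.
`const_near`: `away` for `W V`, then `joined` and `Ch.same`.
`side`: by `const_near`, `V` is constant near `y`: either all near points lie in `V` (then `y ∉ Lam Vᶜ`, and
the same holds for all `y'` near `y`), or none (then `y, y' ∈ Lam Vᶜ` by density).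
`preconn`: if `Bd = A ⊔ B` with `A, B` closed, non-empty, put `U = {x | infDist (x • o) A < infDist (x • o) B}`.
`Lam U ⊆ A`-side: a limit point of `U` cannot lie in `B`, one of `Uᶜ` cannot lie in `A`; so `Lam (W U) = ∅`
(`Lam_W`), `W U` is finite, but `U`, `Uᶜ` are infinite (density); this contradicts `H2`.
`perfect`: a preconnected set with two points has no isolated point.
`deep`: for `r` given, `y ∉ Lam (Uᶜ ∪ N r (W U))`; take `η` from `away`, `x₀` with `dist (x₀ • o) y < η / 4` and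
`A = {w | Ch 1 {w | dist (w • o) y < η} x₀ w}` (`conn_comp`, `joined`, `mem_Lam`).
`look_small`: `ucp` (for `g = x⁻¹`, with `ε₀ / 2` and `θ / 3`) when `x` is long, `unif_fin` otherwise.
`Lam_St`: along an ultrafilter `x → y`, `x⁻¹ • o → c`, the pair `i, j` is constant, one of `ξ i, ξ j` is
`≠ c`, so `x • ξ i → y` (`conv`).  `near_two`: the same argument, for finitely many triples.
`St_compl`: three points, majority vote (`Fin 3` case check). -/

set_option autoImplicit false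
set_option linter.unusedSectionVars false

namespace Crest.Agent.R224

open Set Filter Topology Pointwise

variable {Γ : Type} [Group Γ] {C : Cay Γ} {Z : Type} [MetricSpace Z] [CompactSpace Z]
  [MulAction Γ Z] [ContinuousConstSMul Γ Z] {o : Z} {r : ℕ} {ξ : Fin 3 → Z}

theorem St_mono {H H' : Set Z} (h : H ⊆ H') : St ξ H ⊆ (St ξ H' : Set Γ) := by
  exact fun x ⟨i, j, hij, h1, h2⟩ => ⟨i, j, hij, h h1, h h2⟩

theorem St_smul (g : Γ) (H : Set Z) : (St ξ (g • H) : Set Γ) = g • St ξ H := by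
  ext x
  simp only [St, mem_smul_set_iff_inv_smul_mem, mem_ofPred_eq, smul_eq_mul, mul_smul]

theorem St_disjoint {H H' : Set Z} (h : Disjoint H H') : Disjoint (St ξ H : Set Γ) (St ξ H') := by
  refine disjoint_left.2 fun x ⟨i, j, hij, h1, h2⟩ ⟨k, l, hkl, h3, h4⟩ => ?_
  have e : i = k ∨ i = l ∨ j = k ∨ j = l := by omega
  rcases e with rfl | rfl | rfl | rfl
  · exact disjoint_left.1 h h1 h3
  · exact disjoint_left.1 h h1 h4
  · exact disjoint_left.1 h h2 h3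
  · exact disjoint_left.1 h h2 h4

theorem zb2_two (P : Fin 3 → Prop) :
    (∃ i j, i ≠ j ∧ P i ∧ P j) ∨ ∃ i j, i ≠ j ∧ ¬ P i ∧ ¬ P j := by
  by_cases h0 : P 0 <;> by_cases h1 : P 1 <;> by_cases h2 : P 2
  · exact Or.inl ⟨0, 1, by decide, h0, h1⟩
  · exact Or.inl ⟨0, 1, by decide, h0, h1⟩
  · exact Or.inl ⟨0, 2, by decide, h0, h2⟩
  · exact Or.inr ⟨1, 2, by decide, h1, h2⟩
  · exact Or.inl ⟨1, 2, by decide, h1, h2⟩
  · exact Or.inr ⟨0, 2, by decide, h0, h2⟩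
  · exact Or.inr ⟨0, 1, by decide, h0, h1⟩
  · exact Or.inr ⟨0, 1, by decide, h0, h1⟩

theorem St_compl (hξ : ∀ i, ξ i ∈ Bd Γ o) (H : Set Z) :
    (St ξ (Bd Γ o \ H) : Set Γ) = (St ξ H)ᶜ := by
  refine Subset.antisymm (St_disjoint disjoint_sdiff_left).subset_compl_right fun x hx => ?_
  obtain ⟨i, j, hij, h⟩ := (zb2_two fun i => x • ξ i ∈ H).resolve_left hx
  exact ⟨i, j, hij, ⟨smul_mem_Bd.2 (hξ i), h.1⟩, smul_mem_Bd.2 (hξ j), h.2⟩

theorem St_iUnion {H : ℕ → Set Z} (h : Monotone H) :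
    (St ξ (⋃ n, H n) : Set Γ) = ⋃ n, St ξ (H n) := by
  refine Subset.antisymm ?_ (iUnion_subset fun n => St_mono (subset_iUnion H n))
  rintro x ⟨i, j, hij, h1, h2⟩
  obtain ⟨m, hm⟩ := mem_iUnion.1 h1
  obtain ⟨n, hn⟩ := mem_iUnion.1 h2
  exact mem_iUnion.2 ⟨max m n, i, j, hij, h (le_max_left _ _) hm, h (le_max_right _ _) hn⟩

theorem not_mem_St {H : Set Z} {x : Γ} (h : x ∉ St ξ H) :
    ∃ i j, i ≠ j ∧ x • ξ i ∉ H ∧ x • ξ j ∉ H := by
  exact (zb2_two fun i => x • ξ i ∈ H).resolve_left h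

theorem ang_tri (x : Γ) (u v w : Z) : ang x u w ≤ ang x u v + ang x v w := by
  exact dist_triangle _ _ _

theorem ang_comm (x : Γ) (u v : Z) : ang x u v = ang x v u := by
  exact dist_comm _ _

namespace Cv

theorem joined (h : Cv C o) {y : Z} {η : ℝ} {x x' : Γ} (hx : dist (x • o) y < η / 4)
    (hx' : dist (x' • o) y < η / 4) : C.Ch 1 {w | dist (w • o) y < η} x x' := by
  have h1 := dist_triangle_right (x • o) (x' • o) y
  refine (h.sp x x' (η / 2) (by linarith)).mono le_rfl fun w hw => ?_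
  have h2 : dist (w • o) (x • o) < η / 2 := hw
  have h3 := dist_triangle (w • o) (x • o) y
  have h4 := dist_nonneg (x := x • o) (y := y)
  change dist (w • o) y < η
  linarith

theorem exists_near (h : Cv C o) (y : Z) {η : ℝ} (hη : 0 < η) : ∃ x : Γ, dist (x • o) y < η := by
  obtain ⟨x, hx⟩ := h.dense.exists_dist_lt y hη
  exact ⟨x, by rwa [dist_comm]⟩

theorem const_near (h : Cv C o) {V : Set Γ} {y : Z} (hy : y ∈ Bd Γ o) (hn : y ∉ Lam o (C.W V)) :
    ∃ η > 0, ∀ x x' : Γ, dist (x • o) y < η → dist (x' • o) y < η → (x ∈ V ↔ x' ∈ V) := by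
  obtain ⟨η, hη, H⟩ := h.away hy hn
  refine ⟨η / 4, by positivity, fun x x' hx hx' => (h.joined hx hx').same ?_⟩
  exact disjoint_left.2 fun w hw hw' => absurd (H w hw') (not_le.2 hw)

theorem zb2_iff (h : Cv C o) {V : Set Γ} {y y' : Z} {η : ℝ} {x₀ : Γ}
    (H : ∀ x x' : Γ, dist (x • o) y < η → dist (x' • o) y < η → (x ∈ V ↔ x' ∈ V))
    (hx₀ : dist (x₀ • o) y < η) (hy' : y' ∈ Bd Γ o) (hd : dist y' y < η) :
    y' ∈ Lam o V ↔ x₀ ∈ V := by
  constructor
  · intro hl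
    obtain ⟨_, ⟨x, hx, rfl⟩, h1⟩ := Metric.mem_closure_iff.1 hl.2 (η - dist y' y) (by linarith)
    have := dist_triangle_left (x • o) y y'
    exact (H x x₀ (by linarith) hx₀).1 hx
  · refine fun h0 => ⟨hy', Metric.mem_closure_iff.2 fun ε hε => ?_⟩
    obtain ⟨x, hx⟩ := h.exists_near y' (lt_min hε (sub_pos.2 hd))
    rw [lt_min_iff] at hx
    have := dist_triangle (x • o) y' y
    exact ⟨_, ⟨x, (H x x₀ (by linarith [hx.2]) hx₀).2 h0, rfl⟩, by rw [dist_comm]; exact hx.1⟩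

/-- The side of `V` in the boundary is locally constant away from the limit set of the wall. -/
theorem side (h : Cv C o) {V : Set Γ} {y : Z} (hy : y ∈ Bd Γ o) (hn : y ∉ Lam o (C.W V)) :
    LocC (Bd Γ o) (Lam o V) y ∧ (y ∈ Lam o V ↔ y ∉ Lam o Vᶜ) := by
  obtain ⟨η, hη, H⟩ := h.const_near hy hn
  obtain ⟨x₀, hx₀⟩ := h.exists_near y hη
  have hyy : dist y y < η := by rwa [dist_self]
  refine ⟨?_, ?_⟩
  · filter_upwards [self_mem_nhdsWithin, nhdsWithin_le_nhds (Metric.ball_mem_nhds y hη)]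
      with y' h1 h2
    rw [h.zb2_iff H hx₀ h1 h2, h.zb2_iff H hx₀ hy hyy]
  · rw [h.zb2_iff H hx₀ hy hyy,
      h.zb2_iff (V := Vᶜ) (fun x x' a b => not_congr (H x x' a b)) hx₀ hy hyy, mem_compl_iff, not_not]

theorem preconn (h : Cv C o) (h2 : C.H2) : IsPreconnected (Bd Γ o) := by
  rw [isPreconnected_iff_subset_of_fully_disjoint_closed h.isClosed_Bd]
  intro u v hu hv hc hd
  by_contra hn
  rw [not_or, not_subset, not_subset] at hn
  obtain ⟨⟨b, hb, hbu⟩, a, ha, hav⟩ := hn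
  have hbv : b ∈ v := (hc hb).resolve_left hbu
  have hau : a ∈ u := (hc ha).resolve_right hav
  set U : Set Γ := {x | Metric.infDist (x • o) u < Metric.infDist (x • o) v} with hU
  have key : ∀ (s t : Set Z) (A : Set Γ), IsClosed s → s.Nonempty → Disjoint s t →
      (∀ x ∈ A, Metric.infDist (x • o) s ≤ Metric.infDist (x • o) t) → ∀ z ∈ Lam o A, z ∉ t := by
    intro s t A hs hne hst hA z hz hzt
    have h1 : z ∈ {z | Metric.infDist z s ≤ Metric.infDist z t} :=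
      closure_minimal (by rintro _ ⟨x, hx, rfl⟩; exact hA x hx)
        (isClosed_le (Metric.continuous_infDist_pt s) (Metric.continuous_infDist_pt t)) hz.2
    rw [mem_ofPred_eq, Metric.infDist_zero_of_mem hzt] at h1
    exact disjoint_left.1 hst ((hs.mem_iff_infDist_zero hne).2
      (le_antisymm h1 Metric.infDist_nonneg)) hzt
  have k1 := key u v U hu ⟨a, hau⟩ hd fun x hx => le_of_lt hx
  have k2 := key v u Uᶜ hv ⟨b, hbv⟩ hd.symm fun x hx => not_lt.1 hx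
  have hW : (C.W U).Finite := by
    by_contra hi
    obtain ⟨z, hz⟩ := h.Lam_nonempty hi
    exact (hc hz.1).elim (k2 z (h.Lam_W U hz).2) (k1 z (h.Lam_W U hz).1)
  have hB : Bd Γ o = Lam o U ∪ Lam o Uᶜ := by rw [← Lam_union, union_compl_self, h.Lam_univ]
  rcases h2 U hW with hf | hf
  · rw [hB, Lam_finite hf, empty_union] at ha
    exact k2 a ha hau
  · rw [hB, Lam_finite hf, union_empty] at hb
    exact k1 b hb hbv

theorem perfect (h : Cv C o) (h2 : C.H2) (hn : (Bd Γ o).Nontrivial) {y : Z} (hy : y ∈ Bd Γ o)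
    {η : ℝ} (hη : 0 < η) : {y' | y' ∈ Bd Γ o ∧ dist y' y < η}.Infinite := by
  have h1 := ((h.preconn h2).preperfect_of_nontrivial hn y hy).nhds_inter (Metric.ball_mem_nhds y hη)
  exact (Set.Infinite.of_accPt h1).mono fun z hz => ⟨hz.2, hz.1⟩

theorem zb2_deep (h : Cv C o) {U : Set Γ} {y : Z} (hy : y ∈ Bd Γ o) (h1 : y ∉ Lam o Uᶜ) (r : ℕ) :
    ∃ A ⊆ U, C.Conn A ∧ A.Infinite ∧ Disjoint A (C.N r (C.W U)) := by
  have hn : y ∉ Lam o (Uᶜ ∪ C.N r (C.W U)) := by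
    rw [Lam_union, h.Lam_N]
    exact fun hc => hc.elim h1 fun hc => h1 (h.Lam_W U hc).2
  obtain ⟨η, hη, H⟩ := h.away hy hn
  obtain ⟨x₀, hx₀⟩ := h.exists_near y (η := η / 4) (by positivity)
  have hA : ∀ w, C.Ch 1 {w | dist (w • o) y < η} x₀ w → w ∉ Uᶜ ∪ C.N r (C.W U) := fun w hw hc =>
    absurd (H w hc) (not_le.2 (hw.mem (by change dist (x₀ • o) y < η; linarith)))
  refine ⟨{w | C.Ch 1 {w | dist (w • o) y < η} x₀ w}, fun w hw => ?_, C.conn_comp _ _, ?_,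
    disjoint_left.2 fun w hw hc => hA w hw (Or.inr hc)⟩
  · by_contra hc
    exact hA w hw (Or.inl hc)
  · exact (h.mem_Lam.1 (h.Lam_univ ▸ hy) (η / 4) (by positivity)).mono fun x hx => h.joined hx₀ hx.2

theorem deep (h : Cv C o) {U : Set Γ} {y y' : Z} (hy : y ∈ Bd Γ o) (hy' : y' ∈ Bd Γ o)
    (h1 : y ∉ Lam o Uᶜ) (h2 : y' ∉ Lam o U) : C.Deep U := by
  intro r
  obtain ⟨A, a1, a2, a3, a4⟩ := h.zb2_deep hy h1 r
  obtain ⟨A', b1, b2, b3, b4⟩ := h.zb2_deep (U := Uᶜ) hy' (by rwa [compl_compl]) r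
  rw [C.W_compl] at b4
  exact ⟨A, A', a1, b1, a2, b2, a3, b3, a4, b4⟩

theorem look_small (h : Cv C o) {ε₀ θ : ℝ} (h0 : 0 < ε₀) (hθ : 0 < θ) :
    ∃ η > 0, ∀ (x : Γ) (p w : Z), ε₀ ≤ dist (x • o) p → dist w p ≤ η → ang x w p < θ := by
  obtain ⟨R, hR⟩ := h.ucp (ε₀ / 2) (by positivity) (θ / 3) (by positivity)
  obtain ⟨η, hη, H⟩ := unif_fin (Z := Z) (C.fin R) hθ
  refine ⟨min η (ε₀ / 2), lt_min hη (by positivity), fun x p w hp hw => ?_⟩
  rw [le_min_iff] at hw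
  rcases le_total R (C.len x⁻¹) with hx | hx
  · have h1 := hR x⁻¹ hx p (by rw [inv_inv, dist_comm]; linarith)
    have h3 := dist_triangle (x • o) w p
    have h2 := hR x⁻¹ hx w (by rw [inv_inv, dist_comm]; linarith [hw.2])
    have h4 := dist_triangle_right (x⁻¹ • w) (x⁻¹ • p) (x⁻¹ • o)
    unfold ang
    linarith
  · exact H x⁻¹ hx w p hw.1

theorem Lam_St (h : Cv C o) (hξ : Function.Injective ξ) (H : Set Z) :
    Lam o (St ξ H : Set Γ) ⊆ closure H := by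
  intro y hy
  obtain ⟨𝒰, h1, h2, h3⟩ := h.exists_ultra hy
  obtain ⟨c, hc⟩ := ultra_lim 𝒰 fun x : Γ => x⁻¹ • o
  have h4 : ∀ᶠ x : Γ in (𝒰 : Filter Γ), ∃ i j, i ≠ j ∧ x • ξ i ∈ H ∧ x • ξ j ∈ H := h1
  obtain ⟨i, h5⟩ := Ultrafilter.eventually_exists_iff.1 h4
  obtain ⟨j, h6⟩ := Ultrafilter.eventually_exists_iff.1 h5
  have hij : i ≠ j := h6.exists.choose_spec.1
  by_cases hi : ξ i = c
  · exact mem_closure_of_tendsto (h.conv (g := id) h2 h3 hc tendsto_const_nhds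
      fun hj => hij (hξ (hi.trans hj.symm))) (h6.mono fun x hx => hx.2.2)
  · exact mem_closure_of_tendsto (h.conv (g := id) h2 h3 hc tendsto_const_nhds hi)
      (h6.mono fun x hx => hx.2.1)

/-- For long `x`, two of the three points `x • v i` are close to `x • o`. -/
theorem near_two (h : Cv C o) {𝒱 : Set (Fin 3 → Z)} (hf : 𝒱.Finite)
    (hi : ∀ v ∈ 𝒱, Function.Injective v) {ε : ℝ} (hε : 0 < ε) :
    ∃ R, ∀ x : Γ, R ≤ C.len x → ∀ v ∈ 𝒱, ∃ i j, i ≠ j ∧ dist (x • v i) (x • o) ≤ ε ∧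
      dist (x • v j) (x • o) ≤ ε := by
  have H : ∀ᶠ δ in 𝓝[>] (0 : ℝ), ∀ v ∈ 𝒱, ∀ i j, i ≠ j → δ < dist (v i) (v j) / 2 := by
    refine (eventually_all_finite hf).2 fun v hv => eventually_all.2 fun i => eventually_all.2 fun j => ?_
    by_cases hij : i = j
    · exact Eventually.of_forall fun _ hc => absurd hij hc
    · have : 0 < dist (v i) (v j) / 2 := half_pos (dist_pos.2 fun e => hij (hi v hv e))
      filter_upwards [nhdsWithin_le_nhds (Iio_mem_nhds this)] with δ hδ _ using hδ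
  obtain ⟨δ, h1, h2⟩ := (H.and self_mem_nhdsWithin).exists
  obtain ⟨R, hR⟩ := h.ucp δ h2 ε hε
  refine ⟨R, fun x hx v hv => ?_⟩
  rcases zb2_two fun i => δ ≤ dist (v i) (x⁻¹ • o) with ⟨i, j, hij, a, b⟩ | ⟨i, j, hij, a, b⟩
  · exact ⟨i, j, hij, hR x hx _ a, hR x hx _ b⟩
  · have := dist_triangle_right (v i) (v j) (x⁻¹ • o)
    have := h1 v hv i j hij
    linarith [not_le.1 a, not_le.1 b]

theorem deep_St (h : Cv C o) (hm : ∀ i, ξ i ∈ Bd Γ o) (hξ : Function.Injective ξ) {H : Set Z}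
    {y y' : Z} (hy : y ∈ Bd Γ o) (hy' : y' ∈ Bd Γ o) (h1 : y ∉ closure (Bd Γ o \ H))
    (h2 : y' ∉ closure H) : C.Deep (St ξ H) := by
  refine h.deep hy hy' (fun hc => h1 ?_) fun hc => h2 (h.Lam_St hξ H hc)
  rw [← St_compl hm] at hc
  exact h.Lam_St hξ _ hc

end Cv

end Crest.Agent.R224
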